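import Crest.Agent.X262.Kah.BunB
import Crest.Agent.R273.HodgeH_803
import Crest.Agent.R273.T8A_774
import Crest.Agent.X277.AN.HLa
import Crest.Agent.X262.Kah.KP

-- ▼ part X262/Kah/BunC
section

/-!
# X262 / Kah (helper93), file BunC: the Dolbeault bundle of all forms

* `BA A`  : the `FBun` of all complex forms; `eS : FS A ≃ Sec (BA A)`, `nab_eS`;
* `Ord1`  : first order operators on `FS A`;
* `Hrm A t` : positive Hermitian fields, `Hrm.hp`, `Hrm.nr`;
* `Hrm.htpy`, `Hrm.harm` : the homotopy `(H, K)` and approximate harmonic representatives.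
-/

set_option autoImplicit false
set_option linter.unusedSectionVars false
set_option linter.unusedVariables false

open Set Filter Topology Complex
open scoped ContDiff ComplexConjugate Matrix ComplexOrder

namespace Crest.Agent.X262.Kah

open Crest.Agent.R208.F Crest.Agent.R208.CW Crest.Agent.R275.Geo Crest.Agent.X262.Kah.Fib
open Crest.Agent.R275 Crest.Agent.R275.Pai323 Crest.Agent.R273.DnInt_505
open Crest.Agent.R275.SerG398 (lint dens)
open Crest.Agent.R273.Mol_106 Crest.Agent.R273.NormC_505 Crest.Agent.R273.HodgeH_803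
open Crest.Agent.R273.KRL2_803 Crest.Agent.R273.L2K_774

noncomputable section

variable {n : ℕ} {M : Type} [TopologicalSpace M] {A : Atl n M}

/-- index set of the basis -/
abbrev Kx (n : ℕ) : Type := Finset (Fin (Module.finrank ℝ (Module.Dual ℝ (Cn n))))

theorem coR_bR (k l : Kx n) : coR k (bR (Cn n) l) = if l = k then 1 else 0 := by
  apply Complex.ext
  · simp only [coR, bR, LinearMap.coe_mk, AddHom.coe_mk, Cx.ofR_re, Module.Basis.coord_apply,
      Module.Basis.repr_self, Finsupp.single_apply]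
    split_ifs <;> rfl
  · simp only [coR, bR, LinearMap.coe_mk, AddHom.coe_mk, Cx.ofR_im, map_zero]
    split_ifs <;> rfl

/-- coordinates -/
def eqC (n : ℕ) : Fb n ≃ₗ[ℂ] (Kx n → ℂ) where
  toFun c k := coR k c
  map_add' a b := funext fun k => map_add (coR k) a b
  map_smul' s a := funext fun k => map_smul (coR k) s a
  invFun v := ∑ k, v k • bR (Cn n) k
  left_inv c := sum_coR c
  right_inv v := funext fun k => by simp [coR_bR]

theorem eqC_apply (c : Fb n) (k : Kx n) : eqC n c k = coR k c := rfl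


theorem eqC_conj (c : Fb n) : eqC n (Cx.conj c) = star (eqC n c) := by
  funext k
  apply Complex.ext <;> simp [eqC_apply, coR]

/-- the matrix of an endomorphism -/
def mt (T : Module.End ℂ (Fb n)) : Matrix (Kx n) (Kx n) ℂ :=
  Matrix.of fun k l => coR k (T (bR (Cn n) l))

theorem mt_mulVec (T : Module.End ℂ (Fb n)) (c : Fb n) : mt T *ᵥ eqC n c = eqC n (T c) := by
  funext k
  conv_rhs => rw [← sum_coR c]
  simp only [Matrix.mulVec, dotProduct, mt, Matrix.of_apply, eqC_apply, map_sum, map_smul,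
    smul_eq_mul]
  exact Finset.sum_congr rfl fun l _ => mul_comm _ _

theorem mat_ext {m m' : Matrix (Kx n) (Kx n) ℂ} (h : ∀ c, m *ᵥ eqC n c = m' *ᵥ eqC n c) :
    m = m' := by
  apply Matrix.toLin'.injective
  refine LinearMap.ext fun v => ?_
  obtain ⟨c, rfl⟩ := (eqC n).surjective v
  exact h c

theorem mt_mul (S T : Module.End ℂ (Fb n)) : mt S * mt T = mt (S * T) :=
  mat_ext fun c => by rw [← Matrix.mulVec_mulVec, mt_mulVec, mt_mulVec, mt_mulVec]; rfl

theorem mt_add (S T : Module.End ℂ (Fb n)) : mt S + mt T = mt (S + T) :=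
  mat_ext fun c => by rw [Matrix.add_mulVec, mt_mulVec, mt_mulVec, mt_mulVec, ← map_add]; rfl

theorem mt_one : mt (1 : Module.End ℂ (Fb n)) = 1 :=
  mat_ext fun c => by rw [mt_mulVec, Matrix.one_mulVec]; rfl

theorem mt_zero : mt (0 : Module.End ℂ (Fb n)) = 0 := by
  ext k l; simp [mt]

theorem coR_Nn (k : Kx n) (c : Fb n) : coR k (Nn n c) = (k.card : ℂ) * coR k c := by
  conv_lhs => rw [← sum_coR c]
  simp only [map_sum, map_smul, Nn_bR, coR_bR, smul_eq_mul]
  rw [Finset.sum_eq_single k (fun l _ h => by rw [if_neg h]; ring) (by simp), if_pos rfl]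
  ring

theorem mt_deg {T : Module.End ℂ (Fb n)} {s : ℂ} (h : ∀ c, Nn n (T c) = T (Nn n c) + s • T c)
    {k l : Kx n} (hk : mt T k l ≠ 0) : (k.card : ℂ) = l.card + s := by
  have h1 := congrArg (coR k) (h (bR (Cn n) l))
  rw [coR_Nn, Nn_bR, map_smul, map_add, map_smul, map_smul, smul_eq_mul, smul_eq_mul,
    ← add_mul] at h1
  exact mul_right_cancel₀ hk h1

/-- pull-back as a complex linear map -/
def pbE {m : ℕ} (L : Cn m →ₗ[ℝ] Cn n) : Fb n →ₗ[ℂ] Fb m where
  toFun := pbC L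
  map_add' := map_add _
  map_smul' := pbC_smul L

theorem Dtr_self {i : A.ι} {z : Cn n} (hz : z ∈ (A.e i).target) : Dtr A i i z = LinearMap.id := by
  have h : tr A i i =ᶠ[𝓝 z] fun y => y := by
    filter_upwards [(A.e i).open_target.mem_nhds hz] with y hy using (A.e i).right_inv hy
  rw [Dtr, h.fderiv_eq, fderiv_fun_id]
  rfl

theorem Dtr_comp {i j k : A.ι} {z : Cn n} (hj : z ∈ A.ov i j) (hk : z ∈ A.ov i k) :
    Dtr A j k (tr A i j z) ∘ₗ Dtr A i j z = Dtr A i k z := by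
  have h : tr A i k =ᶠ[𝓝 z] tr A j k ∘ tr A i j := by
    filter_upwards [(isOpen_ov' i j).mem_nhds hj] with y hy
    show _ = A.e k ((A.e j).symm (tr A i j y))
    rw [symm_tr hy]
    rfl
  have hjk : tr A i j z ∈ A.ov j k := ⟨tr_mem hj, by rw [symm_tr hj]; exact hk.2⟩
  rw [Dtr, Dtr, Dtr, h.fderiv_eq, fderiv_comp z
    ((tr_contDiffAt hjk).differentiableAt (by simp)) ((tr_contDiffAt hj).differentiableAt (by simp))]
  rfl

theorem pbC_comp {E F G : Type*} [AddCommGroup E] [Module ℝ E] [AddCommGroup F] [Module ℝ F]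
    [AddCommGroup G] [Module ℝ G] (L : E →ₗ[ℝ] F) (L' : F →ₗ[ℝ] G) (c : CF G) :
    pbC L (pbC L' c) = pbC (L' ∘ₗ L) c := Cx.ext (pb_comp _ _ _) (pb_comp _ _ _)

theorem Dtr_I {i j : A.ι} {z : Cn n} (hz : z ∈ A.ov i j) (v : Cn n) :
    Dtr A i j z (I • v) = I • Dtr A i j z v := Dr_I (tr_holo hz).self_of_nhds v

theorem Dtr_J {i j : A.ι} {x : M} (hx : x ∈ (A.e i).source ∩ (A.e j).source) (a b : Fin n) :
    Dtr A i j (A.e i x) (ep a) b = A.J i j x b a := by
  rw [Dtr_eq (mem_ov hx)]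
  rfl

theorem ev_target {i : A.ι} {z : Cn n} (hz : z ∈ (A.e i).target) {β : Type*} (f : Cn n → β) :
    (fun y => f (A.e i ((A.e i).symm y))) =ᶠ[𝓝 z] f := by
  filter_upwards [(A.e i).open_target.mem_nhds hz] with y hy
  rw [(A.e i).right_inv hy]

/-- the Dolbeault bundle of all forms -/
@[reducible] def BA (A : Atl n M) : FBun A where
  κ := Kx n
  deg k := k.card
  e a := mt (ezb a)
  io a := mt (izb a)
  e_deg a k l h := by
    have := mt_deg (s := 1) (fun c => by
      rw [one_smul, add_comm]; exact Nn_cv (zcb a) c) h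
    exact_mod_cast this
  io_deg a k l h := by
    have := mt_deg (s := -1) (fun c => by
      rw [neg_one_smul, ← sub_eq_add_neg]; exact Nn_ct (.inr a) c) h
    have h2 : (l.card : ℂ) = k.card + 1 := by rw [this]; ring
    exact_mod_cast h2
  ee a b := by rw [mt_mul, mt_mul, mt_add, ezb_ezb, mt_zero]
  ii a b := by rw [mt_mul, mt_mul, mt_add, izb_izb, mt_zero]
  ei a b := by
    rw [mt_mul, mt_mul, mt_add, ezb_izb]
    split_ifs
    · exact mt_one
    · exact mt_zero
  τ i j x := mt (pbE (Dtr A i j (A.e i x)))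
  τ_smooth i j k l z hz := by
    refine ((CD_coR (CD_pbc (j := ∞) (tr_contDiffAt hz) (by simp) (bR _ l))
      k).congr_of_eventuallyEq ?_).contDiffWithinAt
    exact ev_target hz.1 fun y => coR k (pbC (Dtr A i j y) (bR _ l))
  τ_deg i j x k l h := by
    have := mt_deg (s := 0) (fun c => by rw [zero_smul, add_zero]; exact Nn_pbC _ c) h
    rw [add_zero] at this
    exact_mod_cast this
  τ_self i x hx := by
    rw [Dtr_self ((A.e i).map_source hx), ← mt_one]
    congr 1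
    exact LinearMap.ext fun c => Cx.ext (pb_id _) (pb_id _)
  τ_mul i j k x hx := by
    rw [mt_mul]
    congr 1
    refine LinearMap.ext fun c => ?_
    show pbC _ (pbC _ c) = pbC _ c
    rw [pbC_comp, ← Dtr_comp (mem_ov hx.1) (mem_ov ⟨hx.1.1, hx.2⟩), tr_e hx.1.1]
  τ_symb i j x hx b := mat_ext fun c => by
    rw [Matrix.sum_mulVec, mt_mul, mt_mulVec]
    simp only [Matrix.smul_mulVec, mt_mul, mt_mulVec]
    show _ = eqC n (pbC _ (dzb b * c))
    rw [map_mul, pbC_dzb (Dtr_I (mem_ov hx)), Finset.sum_mul, map_sum]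
    exact Finset.sum_congr rfl fun a _ => by rw [smul_mul_assoc, Dtr_J hx, map_smul]; rfl
  α _ _ := 0
  α_smooth _ _ _ := contDiffOn_const
  α_deg _ _ _ _ h := (h rfl).elim
  α_tr i j x hx := by
    rw [Matrix.zero_mul, Matrix.mul_zero, add_zero]
    have hz := mem_ov hx
    have h2 := (tr_contDiffAt hz).of_le two_le_inf
    ext k l
    have h1 : ∀ a k', A.db i a (fun y => mt (pbE (Dtr A i j (A.e i y))) k' l) x =
        eqC n (pzbC a (fun y => pbC (Dr (tr A i j) y) (bR _ l)) (A.e i x)) k' := fun a k' => by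
      rw [Atl.db, eqC_apply, ← dbj_fun (coR k') a (CD_pbc h2 (by norm_num) _)]
      exact dbj_congr (ev_target hz.1 fun y => coR k' (pbC (Dtr A i j y) (bR _ l))) a
    have h3 := congrArg (fun c => eqC n c k) (dbC_pbc (tr_holo hz) h2 (bR _ l))
    simp only [dbC, map_sum, map_zero, Finset.sum_apply, Pi.zero_apply] at h3
    rw [Matrix.sum_apply, Matrix.zero_apply, ← h3]
    refine Finset.sum_congr rfl fun a _ => ?_
    rw [← ezb_apply, ← mt_mulVec]
    simp only [Matrix.mul_apply, Matrix.of_apply, h1]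
    rfl

open Classical in
/-- a form as a family of coordinate vectors -/
def toS (u : FS A) : A.ι → M → Kx n → ℂ := fun i x =>
  if x ∈ (A.e i).source then eqC n (u.1 i (A.e i x)) else 0

theorem toS_of_mem (u : FS A) {i : A.ι} {x : M} (hx : x ∈ (A.e i).source) :
    toS u i x = eqC n (u.1 i (A.e i x)) := if_pos hx

theorem toS_ev (u : FS A) {i : A.ι} {z : Cn n} (hz : z ∈ (A.e i).target) :
    (fun y => toS u i ((A.e i).symm y)) =ᶠ[𝓝 z] fun y => eqC n (u.1 i y) := by
  filter_upwards [(A.e i).open_target.mem_nhds hz] with y hy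
  rw [toS_of_mem u ((A.e i).map_target hy), (A.e i).right_inv hy]

theorem toS_mem (u : FS A) : toS u ∈ Sec (BA A) := by
  refine ⟨fun i k z hz => ?_, fun i x hx => if_neg hx, fun i j x hx => ?_⟩
  · refine ((CD_coR (u.sm hz) k).congr_of_eventuallyEq ?_).contDiffWithinAt
    exact (toS_ev u hz).mono fun y hy => congrFun hy k
  · rw [toS_of_mem u hx.1, toS_of_mem u hx.2, u.tr' (mem_ov hx), tr_e hx.1]
    exact (mt_mulVec (pbE _) _).symm

/-- a section as a form -/
def ofS (s : Sec (BA A)) : FS A :=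
  FS.mk' (fun i z => (eqC n).symm (s.1 i ((A.e i).symm z)))
    (fun i z hz => show CD ∞ (fun z => ∑ k, s.1 i ((A.e i).symm z) k • bR (Cn n) k) z from
      CD.sum fun k _ => CD_fsmul
        ((s.2.1 i k).contDiffAt ((A.e i).open_target.mem_nhds hz)) (CD.const _))
    fun i j z hz => by
      apply (eqC n).injective
      have hx : (A.e i).symm z ∈ (A.e i).source ∩ (A.e j).source :=
        ⟨(A.e i).map_target hz.1, hz.2⟩
      rw [LinearEquiv.apply_symm_apply, symm_tr hz, s.2.2.2 i j _ hx]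
      have h := mt_mulVec (pbE (Dtr A i j z)) ((eqC n).symm (s.1 j ((A.e i).symm z)))
      rw [LinearEquiv.apply_symm_apply] at h
      show mt (pbE (Dtr A i j (A.e i ((A.e i).symm z)))) *ᵥ _ = _
      rw [(A.e i).right_inv hz.1]
      exact h

theorem ofS_apply (s : Sec (BA A)) {i : A.ι} {z : Cn n} (hz : z ∈ (A.e i).target) :
    (ofS s).1 i z = (eqC n).symm (s.1 i ((A.e i).symm z)) := FS.mk'_apply hz

/-- forms are the sections of `BA A` -/
def eS (A : Atl n M) : FS A ≃ₗ[ℂ] Sec (BA A) where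
  toFun u := ⟨toS u, toS_mem u⟩
  map_add' u v := Subtype.ext <| funext fun i => funext fun x => by
    show toS (u + v) i x = toS u i x + toS v i x
    unfold toS
    split_ifs
    · rw [FS.add_apply, map_add]
    · simp
  map_smul' c u := Subtype.ext <| funext fun i => funext fun x => by
    show toS (c • u) i x = c • toS u i x
    unfold toS
    split_ifs
    · rw [FS.smul_apply, map_smul]
    · simp
  invFun := ofS
  left_inv u := FS.ext' fun i z hz => by
    rw [ofS_apply _ hz]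
    show (eqC n).symm (toS u i _) = _
    exact (congrArg (eqC n).symm (toS_ev u hz).self_of_nhds).trans ((eqC n).symm_apply_apply _)
  right_inv s := Subtype.ext <| funext fun i => funext fun x => by
    show toS (ofS s) i x = _
    by_cases hx : x ∈ (A.e i).source
    · rw [toS_of_mem _ hx, ofS_apply _ ((A.e i).map_source hx), (A.e i).left_inv hx,
        LinearEquiv.apply_symm_apply]
    · rw [s.2.2.1 i x hx]; exact if_neg hx

theorem eS_apply (u : FS A) {i : A.ι} {x : M} (hx : x ∈ (A.e i).source) :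
    (eS A u).1 i x = eqC n (u.1 i (A.e i x)) := toS_of_mem u hx

theorem sec_ext {s s' : Sec (BA A)} (h : ∀ i, ∀ x ∈ (A.e i).source, s.1 i x = s'.1 i x) : s = s' :=
  Subtype.ext <| funext fun i => funext fun x => by
    by_cases hx : x ∈ (A.e i).source
    · exact h i x hx
    · rw [s.2.2.1 i x hx, s'.2.2.1 i x hx]

theorem nab_eS (u : FS A) : nabL (BA A) (eS A u) = eS A (dbF A u) := sec_ext fun i x hx => by
  have hz := (A.e i).map_source hx
  have h1 : (nabL (BA A) (eS A u)).1 i x = (∑ a, mt (ezb a) *ᵥ A.db i a (toS u i) x) +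
      (0 : Matrix (Kx n) (Kx n) ℂ) *ᵥ toS u i x := if_pos hx
  rw [h1, Matrix.zero_mulVec, add_zero, eS_apply _ hx, dbF_apply _ hz, dbC, map_sum]
  refine Finset.sum_congr rfl fun a _ => ?_
  rw [← ezb_apply, ← mt_mulVec]
  congr 1
  funext k
  rw [Atl.db_pi ((toS_mem u).1 i) hx, Atl.db, eqC_apply,
    ← dbj_fun (coR k) a (u.sm1 hz)]
  exact dbj_congr ((toS_ev u hz).mono fun y hy => congrFun hy k) a

theorem nab_sq (s : Sec (BA A)) : nabL (BA A) (nabL (BA A) s) = 0 := by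
  obtain ⟨u, rfl⟩ := (eS A).surjective s
  rw [nab_eS, nab_eS, dbF_dbF, map_zero]

/-! ### first order operators -/

/-- first order differential operators on forms -/
def Ord1 (T : Module.End ℂ (FS A)) : Prop :=
  ∃ F : FOp (BA A) (BA A), ∀ u, F.T (eS A u) = eS A (T u)

theorem smAt_mt {a : A.ι → Cn n → Module.End ℂ (Fb n)} (ha : SmE A a) (i : A.ι) (k l : Kx n) :
    A.SmAt i (fun x => mt (a i (A.e i x)) k l) :=
  smAt_fun (coR k) (u := fun z => a i z (bR _ l)) fun z hz => ha i z hz _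

theorem eS_op (a : EF A) (s : Sec (BA A)) (i : A.ι) (x : M) (hx : x ∈ (A.e i).source) :
    (eS A (EF.op A a ((eS A).symm s))).1 i x = mt (a.1 i (A.e i x)) *ᵥ s.1 i x := by
  obtain ⟨u, rfl⟩ := (eS A).surjective s
  rw [LinearEquiv.symm_apply_apply, eS_apply _ hx, eS_apply _ hx, mt_mulVec, EF.op_apply]

theorem eS_cj (s : Sec (BA A)) (i : A.ι) (x : M) (hx : x ∈ (A.e i).source) :
    (eS A (cjF A ((eS A).symm s))).1 i x = (1 : Matrix (Kx n) (Kx n) ℂ) *ᵥ star (s.1 i x) := by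
  obtain ⟨u, rfl⟩ := (eS A).surjective s
  rw [LinearEquiv.symm_apply_apply, eS_apply _ hx, eS_apply _ hx, Matrix.one_mulVec, cjF_apply,
    eqC_conj]

namespace Ord1

variable {S T : Module.End ℂ (FS A)}

theorem dbF : Ord1 (dbF A) := ⟨FOp.nab _, nab_eS⟩

theorem add (hS : Ord1 S) (hT : Ord1 T) : Ord1 (S + T) := by
  obtain ⟨F, hF⟩ := hS
  obtain ⟨G, hG⟩ := hT
  exact ⟨F.add G, fun u => by
    rw [LinearMap.add_apply, map_add, ← hF, ← hG]; rfl⟩

theorem smul (c : ℂ) (hT : Ord1 T) : Ord1 (c • T) := by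
  obtain ⟨G, hG⟩ := hT
  exact ⟨G.smul c, fun u => by rw [LinearMap.smul_apply, map_smul, ← hG]; rfl⟩

theorem sub (hS : Ord1 S) (hT : Ord1 T) : Ord1 (S - T) := by
  rw [sub_eq_add_neg, ← neg_one_smul ℂ T]
  exact hS.add (hT.smul _)

theorem ef (a b : EF A) (hT : Ord1 T) : Ord1 (EF.op A a * T * EF.op A b) := by
  obtain ⟨G, hG⟩ := hT
  refine ⟨FOp.ofLin G _ (smAt_mt b.2.1) _ (eS_op b) _ (smAt_mt a.2.1) _ (eS_op a)
    ((eS A).toLinearMap ∘ₗ (EF.op A a * T * EF.op A b) ∘ₗ (eS A).symm.toLinearMap) fun s => ?_,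
    fun u => ?_⟩
  · rw [hG, LinearEquiv.symm_apply_apply]; rfl
  · show eS A ((EF.op A a * T * EF.op A b) ((eS A).symm (eS A u))) = _
    rw [LinearEquiv.symm_apply_apply]

theorem ef_left (a : EF A) (hT : Ord1 T) : Ord1 (EF.op A a * T) := by
  simpa using hT.ef a 1

theorem ef_right (a : EF A) (hT : Ord1 T) : Ord1 (T * EF.op A a) := by
  simpa using hT.ef 1 a

theorem cj (hT : Ord1 T) (h : ∀ u, S u = cjF A (T (cjF A u))) : Ord1 S := by
  obtain ⟨G, hG⟩ := hT
  refine ⟨FOp.ofConj G (fun _ _ => 1) (fun _ _ _ => contDiffOn_const) _ eS_cj (fun _ _ => 1)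
    (fun _ _ _ => contDiffOn_const) _ eS_cj
    ((eS A).toLinearMap ∘ₗ S ∘ₗ (eS A).symm.toLinearMap) fun s => ?_, fun u => ?_⟩
  · rw [hG, LinearEquiv.symm_apply_apply, ← h]; rfl
  · show eS A (S ((eS A).symm (eS A u))) = _
    rw [LinearEquiv.symm_apply_apply]

theorem dlF : Ord1 (dlF A) := Ord1.dbF.cj dlF_def

end Ord1

/-! ### Hermitian fields -/

/-- a positive Hermitian field `(c, c') ↦ t (c ∧ conj (S c'))` -/
structure Hrm (A : Atl n M) (t : Tp n) where
  S : EF A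
  herm : ∀ i, ∀ z ∈ (A.e i).target, ∀ c c',
    t.t (c' * Cx.conj (S.1 i z c)) = conj (t.t (c * Cx.conj (S.1 i z c')))
  pos : ∀ i, ∀ z ∈ (A.e i).target, ∀ c, c ≠ 0 → 0 < t.t (c * Cx.conj (S.1 i z c))

namespace Hrm

variable {t : Tp n} (h : Hrm A t)

/-- the matrix of the Hermitian form -/
def mH (i : A.ι) (x : M) : Matrix (Kx n) (Kx n) ℂ :=
  Matrix.of fun k l => t.t (bR _ l * Cx.conj (h.S.1 i (A.e i x) (bR _ k)))

theorem mH_form (i : A.ι) (x : M) (c c' : Fb n) :
    star (eqC n c') ⬝ᵥ (h.mH i x *ᵥ eqC n c) = t.t (c * Cx.conj (h.S.1 i (A.e i x) c')) := by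
  conv_rhs => rw [← sum_coR c, ← sum_coR c']
  simp only [map_sum, map_smul, conj_smul', Finset.mul_sum, Finset.sum_mul, mul_smul_comm,
    smul_mul_assoc, smul_eq_mul, dotProduct, Matrix.mulVec, mH, Matrix.of_apply, eqC_apply,
    Pi.star_apply, star_def]
  exact Finset.sum_congr rfl fun k _ => Finset.sum_congr rfl fun l _ => by ring

theorem mH_posDef {i : A.ι} {x : M} (hx : x ∈ (A.e i).source) : (h.mH i x).PosDef := by
  have hz := (A.e i).map_source hx
  refine Matrix.PosDef.of_dotProduct_mulVec_pos ?_ fun v hv => ?_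
  · ext k l
    rw [Matrix.conjTranspose_apply, mH, Matrix.of_apply, Matrix.of_apply, h.herm i _ hz]
    exact conj_conj _
  · obtain ⟨c, rfl⟩ := (eqC n).surjective v
    rw [mH_form]
    exact h.pos i _ hz c fun hc => hv (by rw [hc, map_zero])

theorem form_ext {m m' : Matrix (Kx n) (Kx n) ℂ}
    (h : ∀ c c', star (eqC n c') ⬝ᵥ (m *ᵥ eqC n c) = star (eqC n c') ⬝ᵥ (m' *ᵥ eqC n c)) :
    m = m' := by
  refine mat_ext fun c => funext fun k => ?_
  have := h c ((eqC n).symm (Pi.single k 1))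
  simpa using this

/-- the Hermitian density -/
def den : HDen (BA A) where
  H := h.mH
  sm i k l := smAt_fun t.t (u := fun z => bR _ l * Cx.conj (h.S.1 i z (bR _ k))) fun z hz =>
    (CD.const _).mul ⟨(h.S.2.1 i z hz _).re, (h.S.2.1 i z hz _).im.neg⟩
  psd i x hx := (h.mH_posDef hx).posSemidef
  tr i j x hx := form_ext fun c c' => by
    show star (eqC n c') ⬝ᵥ (((mt (pbE (Dtr A i j (A.e i x))))ᴴ * h.mH i x *
      mt (pbE (Dtr A i j (A.e i x)))) *ᵥ eqC n c) = _
    rw [← Matrix.mulVec_mulVec, ← Matrix.mulVec_mulVec, Matrix.dotProduct_mulVec,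
      ← Matrix.star_mulVec, mt_mulVec, mt_mulVec, mH_form, Matrix.smul_mulVec, dotProduct_smul,
      mH_form, smul_eq_mul, ← pb_dens t hx, map_mul (pbC _), pbC_conj, ← tr_e (j := j) hx.1,
      ← h.S.2.2 i j _ (mem_ov hx)]
    rfl

theorem den_pos : h.den.Pos := fun _ _ hx => h.mH_posDef hx

variable [T2Space M] [Finite A.ι] (P : Part A)

/-- the `L²` product, linear in the first variable -/
def hp (u v : FS A) : ℂ := IntF P t (u * cjF A (EF.op A h.S v))

/-- the `L²` norm -/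
def nr (u : FS A) : ℝ := Real.sqrt (h.hp P u u).re

theorem hp_eq (u v : FS A) : h.hp P u v = h.den.ip P (eS A v).1 (eS A u).1 :=
  IntP_congr P fun i x hx => by
    rw [HDen.hd, eS_apply _ hx, eS_apply _ hx]
    exact (h.mH_form i x _ _).symm

theorem nr_eq (u : FS A) : h.nr P u = h.den.sn P (eS A u) := by rw [nr, hp_eq]; rfl

theorem hp_herm (u v : FS A) : h.hp P v u = conj (h.hp P u v) := by
  rw [hp_eq, hp_eq, HDen.ip_conj]

theorem hp_nonneg (u : FS A) : 0 ≤ (h.hp P u u).re := by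
  rw [hp_eq]; exact h.den.ip_self_nonneg P _

theorem eq_zero {u : FS A} (h0 : (h.hp P u u).re = 0) : u = 0 := by
  rw [hp_eq] at h0
  exact (eS A).map_eq_zero_iff.1 (h.den.eq_zero_of_pos P h.den_pos _ h0)

variable [CompactSpace M]

theorem bdd_of {X : Sec (BA A) →ₗ[ℂ] Sec (BA A)}
    (hX : ∃ C, 0 ≤ C ∧ ∀ u, (S0 P (BA A)).nrm 0 (X u) ≤ C * (S0 P (BA A)).nrm 0 u) :
    ∃ C, 0 ≤ C ∧ ∀ u, h.den.sn P (X u) ≤ C * h.den.sn P u := by
  obtain ⟨C, hC0, hC⟩ := hX
  obtain ⟨C1, h10, h1⟩ := h.den.sn_le_nS P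
  obtain ⟨C2, h20, h2⟩ := Crest.Agent.R273.T8_774.nS_le_nrm0 (B := BA A) P 0
  obtain ⟨C3, h30, h3⟩ := h.den.nS_le_sn P h.den_pos
  refine ⟨C1 * (C2 * (C * C3)), by positivity, fun u => (h1 _).trans ?_⟩
  rw [mul_assoc, mul_assoc, mul_assoc]
  refine mul_le_mul_of_nonneg_left ((h2 _).trans (mul_le_mul_of_nonneg_left ((hC _).trans
    (mul_le_mul_of_nonneg_left ?_ hC0)) h20)) h10
  exact (Crest.Agent.R273.T8_774.nrm0_le_nS P 0 _).trans (h3 _)

/-- **the homotopy** -/
theorem htpy : ∃ H K : Module.End ℂ (FS A), (∀ u, u - H u = dbF A (K u) + K (dbF A u)) ∧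
    (∀ u, dbF A (H u) = 0) ∧ (∀ u, H (dbF A u) = 0) ∧
    FiniteDimensional ℂ (LinearMap.range H) ∧
    ∃ C, 0 ≤ C ∧ ∀ u, h.nr P (H u) ≤ C * h.nr P u ∧ h.nr P (K u) ≤ C * h.nr P u := by
  obtain ⟨T⟩ := exists_hodgeOp P (BA A) nab_sq
  let cv : (Sec (BA A) →ₗ[ℂ] Sec (BA A)) → Module.End ℂ (FS A) := fun X =>
    (eS A).symm.toLinearMap ∘ₗ X ∘ₗ (eS A).toLinearMap
  have hcv : ∀ X u, eS A (cv X u) = X (eS A u) := fun X u => (eS A).apply_symm_apply _
  obtain ⟨C1, h10, h1⟩ := h.bdd_of P (T.H_le 0)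
  obtain ⟨C2, h20, h2⟩ := h.bdd_of P (X := T.K) (by
    obtain ⟨C, hC0, hC⟩ := T.K_le 0
    exact ⟨C, hC0, fun u => ((S0 P (BA A)).nrm_mono (Nat.zero_le _) _).trans (hC u)⟩)
  refine ⟨cv T.H, cv T.K, fun u => (eS A).injective ?_, fun u => (eS A).injective ?_,
    fun u => (eS A).injective ?_, ?_, max C1 C2, h10.trans (le_max_left _ _), fun u => ⟨?_, ?_⟩⟩
  · rw [map_sub, map_add, ← nab_eS, hcv, hcv, hcv, ← nab_eS]; exact T.htpy _
  · rw [← nab_eS, hcv, map_zero]; exact T.nabH _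
  · rw [hcv, ← nab_eS, map_zero]; exact T.Hnab _
  · have := T.smH.1
    have hle : LinearMap.range (cv T.H) ≤ (LinearMap.range T.H).map (eS A).symm.toLinearMap := by
      rintro _ ⟨u, rfl⟩
      exact ⟨_, ⟨eS A u, rfl⟩, rfl⟩
    exact Submodule.finiteDimensional_of_le hle
  · rw [nr_eq, nr_eq, hcv]
    exact (h1 _).trans (mul_le_mul_of_nonneg_right (le_max_left _ _) (h.den.sn_nonneg P _))
  · rw [nr_eq, nr_eq, hcv]
    exact (h2 _).trans (mul_le_mul_of_nonneg_right (le_max_right _ _) (h.den.sn_nonneg P _))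


end Hrm

end

end Crest.Agent.X262.Kah
end

-- ▼ part X262/Kah/BunK

/-!
# X262 / Kah (helper93), file BunK: from the algebraic package to the Kaehler package

* `Hrm.seq`  : approximately harmonic sequences;
* `Fld P t G` : the operators of `G : KA n (FS A)` are given by fields of endomorphisms;
* `KA.toKP`  : then `G` is a Kaehler package.
-/

set_option autoImplicit false
set_option linter.unusedSectionVars false
set_option linter.unusedVariables false

open Set Filter Topology Complex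
open scoped ContDiff ComplexConjugate Matrix ComplexOrder

namespace Crest.Agent.X262.Kah

open Crest.Agent.R208.F Crest.Agent.R208.CW Crest.Agent.R275.Geo Crest.Agent.X262.Kah.Fib
open Crest.Agent.R275 Crest.Agent.R275.Pai323 Crest.Agent.R273.DnInt_505
open Crest.Agent.R273.Mol_106 Crest.Agent.R273.NormC_505 Crest.Agent.R273.HodgeH_803
open Crest.Agent.R273.KRL2_803 Crest.Agent.R273.L2K_774

noncomputable section

section alg

variable {R R' : Type*} [Ring R] [Algebra ℂ R] [Ring R'] [Algebra ℂ R']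

theorem map_exS (f : R →ₐ[ℂ] R') (N : ℕ) (a : R) : f (exS N a) = exS N (f a) := by
  simp only [exS, map_sum, map_smul, map_pow]

/-- the operator `W` as a polynomial in `L`, `Λ` and the projectors -/
def WW (n : ℕ) (L Λ : R) (pr : ℤ → ℤ → R) : R :=
  exS (n + 1) Λ * exS (n + 1) (-L) * exS (n + 1) Λ * ∑ x ∈ box n, cc n x.1 x.2 • pr x.1 x.2

theorem map_WW (f : R →ₐ[ℂ] R') (n : ℕ) (L Λ : R) (pr : ℤ → ℤ → R) :
    f (WW n L Λ pr) = WW n (f L) (f Λ) fun p q => f (pr p q) := by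
  simp only [WW, map_mul, map_exS, map_neg, map_sum, map_smul]

theorem GS.W_eq {n : ℕ} {V : Type*} [AddCommGroup V] [Module ℂ V] (G : GS n V) :
    G.W = WW n G.L G.Λ G.pr := by
  have h1 : G.Λ ^ (n + 1) = 0 := G.sh_Λ.nil (by norm_num)
  have h2 : (-G.L) ^ (n + 1) = 0 := by rw [neg_pow, G.sh_L.nil one_ne_zero, mul_zero]
  rw [GS.W, GS.w, wey, ex_eq h1, ex_eq h2]
  rfl

end alg

variable {n : ℕ} {M : Type} [TopologicalSpace M] {A : Atl n M}
variable [T2Space M] [Finite A.ι]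

/-- **approximately harmonic sequences** -/
theorem Hrm.seq [CompactSpace M] {t : Tp n} (h : Hrm A t) (P : Part A)
    {ds : Module.End ℂ (FS A)} (hds : Ord1 ds)
    (hadj : ∀ u w, h.hp P (dbF A u) w = h.hp P u (ds w)) (z : FS A) (hz : dbF A z = 0) :
    ∃ y c : ℕ → FS A, (∀ ε > 0, ∃ N, ∀ m ≥ N, ∀ m' ≥ N, h.nr P (c m - c m') < ε) ∧
      Tendsto (fun m => h.nr P (c m - (z - dbF A (y m)))) atTop (𝓝 0) ∧
      Tendsto (fun m => h.nr P (dbF A (c m))) atTop (𝓝 0) ∧
      Tendsto (fun m => h.nr P (ds (c m))) atTop (𝓝 0) := by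
  obtain ⟨D, hD⟩ := hds
  have hp := h.den_pos
  obtain ⟨C1, h10, h1⟩ := sn_JN_le P h.den hp
  obtain ⟨C2, h20, h2⟩ := (FOp.nab (BA A)).sn_comm_le P h.den hp h.den
  obtain ⟨C3, h30, h3⟩ := D.sn_comm_le P h.den hp h.den
  have hmax : ∀ {C a b : ℝ}, a ≤ C * b → 0 ≤ b → C ≤ max C1 (max C2 C3) →
      a ≤ max C1 (max C2 C3) * b := fun hab hb hC => hab.trans (mul_le_mul_of_nonneg_right hC hb)
  have hadj' : ∀ u w : Sec (BA A), h.den.ip P (nabL (BA A) u).1 w.1 = h.den.ip P u.1 (D.T w).1 := by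
    intro u w
    obtain ⟨u, rfl⟩ := (eS A).surjective u
    obtain ⟨w, rfl⟩ := (eS A).surjective w
    rw [nab_eS, hD, ← Hrm.hp_eq, ← Hrm.hp_eq, Hrm.hp_herm, hadj, ← Hrm.hp_herm]
  obtain ⟨y, c, -, k1, k2, -, k3, k4, -⟩ := Crest.Agent.R273.AbsStep392.exists_seq_core
    (h.den.core P hp) (h.den.core P hp) (h.den.core P hp)
    (nabL (BA A)) (nabL (BA A)) D.T hadj' nab_sq (JN P (BA A)) (JN P (BA A)) (JN P (BA A))
    (max C1 (max C2 C3))
    (fun N u => hmax (h1 N u) (h.den.sn_nonneg P u) (le_max_left _ _))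
    (fun u => tendsto_sn_JN P h.den u)
    (fun N u => hmax (h2 N u) (h.den.sn_nonneg P u) ((le_max_left _ _).trans (le_max_right _ _)))
    (fun u => (FOp.nab (BA A)).tendsto_sn_comm P h.den u)
    (fun N u => hmax (h3 N u) (h.den.sn_nonneg P u) ((le_max_right _ _).trans (le_max_right _ _)))
    (fun u => D.tendsto_sn_comm P h.den u)
    (fun N => JN_finite P h.den hp N) (eS A z) (by rw [nab_eS, hz, map_zero])
  refine ⟨fun m => (eS A).symm (y m), fun m => (eS A).symm (c m), ?_, ?_, ?_, ?_⟩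
  · simp only [Hrm.nr_eq, map_sub, LinearEquiv.apply_symm_apply]; exact k1
  · simp only [Hrm.nr_eq, map_sub, ← nab_eS, LinearEquiv.apply_symm_apply]; exact k2
  · simp only [Hrm.nr_eq, ← nab_eS, LinearEquiv.apply_symm_apply]; exact k3
  · simp only [Hrm.nr_eq, ← hD, LinearEquiv.apply_symm_apply]; exact k4

/-- the operators of `G` are given by fields of endomorphisms, positive at every point -/
structure Fld (P : Part A) (t : Tp n) (G : KA n (FS A)) where
  Lf : EF A
  Lamf : EF A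
  prf : ℤ → ℤ → EF A
  L : G.L = EF.op A Lf
  Lam : G.Λ = EF.op A Lamf
  pr : ∀ p q, G.pr p q = EF.op A (prf p q)
  db : G.db = dbF A
  del : G.del = dlF A
  cj : ∀ u, G.cj u = cjF A u
  β : ∀ u v, G.β u v = IntF P t (u * v)
  fib : ∀ i, ∀ z ∈ (A.e i).target, ∃ F : PS n (Fb n), F.L = Lf.1 i z ∧ F.Λ = Lamf.1 i z ∧
    (∀ p q, F.pr p q = (prf p q).1 i z) ∧ (∀ c, F.cj c = Cx.conj c) ∧
    (∀ c c', F.β c c' = t.t (c * c')) ∧ (∀ c c', F.hp c' c = conj (F.hp c c')) ∧
    ∀ c, c ≠ 0 → 0 < F.hp c c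

namespace Fld

variable {P : Part A} {t : Tp n} {G : KA n (FS A)} (h : Fld P t G)

/-- the field of the operator `W` -/
def Wf : EF A := WW n h.Lf h.Lamf h.prf

theorem W_eq : G.W = EF.op A h.Wf := by
  refine Eq.trans ?_ (map_WW (EF.op A) n h.Lf h.Lamf h.prf).symm
  rw [GS.W_eq, ← h.L, ← h.Lam]
  congr 1
  funext p q
  exact h.pr p q

theorem exists_fib {i : A.ι} {z : Cn n} (hz : z ∈ (A.e i).target) : ∃ F : PS n (Fb n),
    (∀ c c', F.hp c c' = t.t (c * Cx.conj (h.Wf.1 i z c'))) ∧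
    (∀ c c', F.hp c' c = conj (F.hp c c')) ∧ ∀ c, c ≠ 0 → 0 < F.hp c c := by
  obtain ⟨F, h1, h2, h3, h4, h5, h6, h7⟩ := h.fib i z hz
  refine ⟨F, fun c c' => ?_, h6, h7⟩
  have : F.W = h.Wf.1 i z := by
    refine Eq.trans ?_ (map_WW (EF.ev (A := A) i z) n h.Lf h.Lamf h.prf).symm
    rw [GS.W_eq, h1, h2]
    congr 1
    funext p q
    exact h3 p q
  rw [PS.hp, h5, h4, this]

/-- the Hermitian field -/
def hrm : Hrm A t where
  S := h.Wf
  herm i z hz c c' := by
    obtain ⟨F, h1, h2, -⟩ := h.exists_fib hz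
    rw [← h1, ← h1, h2]
  pos i z hz c hc := by
    obtain ⟨F, h1, -, h3⟩ := h.exists_fib hz
    rw [← h1]
    exact h3 c hc

theorem hp_eq (u v : FS A) : G.hp u v = h.hrm.hp P u v := by
  rw [PS.hp, h.β, h.cj, h.W_eq]
  rfl

theorem nrm_eq (u : FS A) : G.nrm u = h.hrm.nr P u := by rw [KA.nrm, h.hp_eq]; rfl

include h in
theorem ord1_dbs : Ord1 G.dbs := by
  rw [KA.dbs, h.Lam, h.del]
  exact ((Ord1.dlF.ef_left _).sub (Ord1.dlF.ef_right _)).smul _

end Fld

/-- **the Kaehler package** -/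
def KA.toKP [CompactSpace M] {P : Part A} {t : Tp n} (G : KA n (FS A)) (h : Fld P t G) :
    KP n (FS A) where
  toKA := G
  herm u v := by rw [h.hp_eq, h.hp_eq, Hrm.hp_herm]
  pos u hu := by
    rw [h.hp_eq]
    refine Complex.pos_iff.2 ⟨lt_of_le_of_ne (h.hrm.hp_nonneg P u) fun h0 => hu ?_, ?_⟩
    · exact h.hrm.eq_zero P h0.symm
    · exact (conj_eq_iff_im.1 (h.hrm.hp_herm P u u).symm).symm
  htpy := by
    obtain ⟨H, K, h1, h2, h3, h4, C, -, h5⟩ := h.hrm.htpy P
    simp only [h.nrm_eq, h.db]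
    exact ⟨H, K, C, h1, h2, h3, h4, fun u => (h5 u).1, fun u => (h5 u).2⟩
  approx := by
    simp only [h.nrm_eq, h.db]
    exact h.hrm.seq P h.ord1_dbs fun u w => by rw [← h.hp_eq, ← h.hp_eq, ← h.db, G.hp_db]


end

end Crest.Agent.X262.Kah
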