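import Mathlib

-- ▼ part X262/Kah/Sl2
section

/-!
# X262 / Kah (helper20), file Sl2: `sl₂` identities in a `ℂ`-algebra

* `ex a`     : exponential of a nilpotent element;
* `mul_ex`   : `X e^a = e^a (X - [a,X] + [a,[a,X]]/2)` if `[a,[a,[a,X]]] = 0`;
* `hw_zero`  : an element commuting with `L` of negative weight vanishes;
* `wey L Λ`  : the Weyl element `e^Λ e^{-L} e^Λ`; `mul_wey`, `L_wey`, `Lam_wey`, `H_wey`.
-/

set_option autoImplicit false
set_option linter.unusedSectionVars false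
set_option linter.style.haveILetI false

open Finset

namespace Crest.Agent.X262.Kah

noncomputable section

variable {R : Type*} [Ring R] [Algebra ℂ R]

/-- the `ℚ`-module structure of a `ℂ`-algebra -/
@[reducible] def ratMod (R : Type*) [Ring R] [Algebra ℂ R] : Module ℚ R :=
  Module.compHom R (algebraMap ℚ ℂ)

/-- exponential of a nilpotent element -/
def ex (a : R) : R := @IsNilpotent.exp R _ (ratMod R) a

/-- partial sums of the exponential series -/
def exS (N : ℕ) (a : R) : R := ∑ i ∈ range N, ((i.factorial : ℂ))⁻¹ • a ^ i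

theorem ex_eq {a : R} {k : ℕ} (h : a ^ k = 0) : ex a = exS k a := by
  letI := ratMod R
  unfold ex exS
  rw [IsNilpotent.exp_eq_sum h]
  refine Finset.sum_congr rfl fun i _ => ?_
  change (algebraMap ℚ ℂ ((i.factorial : ℚ)⁻¹)) • a ^ i = _
  simp

theorem ex_mul_neg {a : R} (h : IsNilpotent a) : ex a * ex (-a) = 1 :=
  @IsNilpotent.exp_mul_exp_neg_self R _ (ratMod R) a h

theorem ex_neg_mul {a : R} (h : IsNilpotent a) : ex (-a) * ex a = 1 :=
  @IsNilpotent.exp_neg_mul_exp_self R _ (ratMod R) a h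

theorem exS_succ (N : ℕ) (a : R) :
    exS (N + 1) a = exS N a + ((N.factorial : ℂ))⁻¹ • a ^ N := Finset.sum_range_succ _ _

theorem mul_pow_two {a X Y Z : R} (h1 : a * X - X * a = Y) (h2 : a * Y - Y * a = Z)
    (h3 : a * Z = Z * a) (N : ℕ) :
    X * a ^ (N + 2) = a ^ (N + 2) * X - ((N : ℂ) + 2) • (a ^ (N + 1) * Y) +
      ((((N : ℂ) + 2) * ((N : ℂ) + 1)) / 2) • (a ^ N * Z) := by
  have e1 : X * a = a * X - Y := by rw [← h1]; abel
  have e2 : Y * a = a * Y - Z := by rw [← h2]; abel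
  induction N with
  | zero =>
    have : X * a ^ 2 = a ^ 2 * X - (2 : ℂ) • (a * Y) + Z := by
      rw [pow_two, ← mul_assoc, e1, sub_mul, mul_assoc, e1, e2, two_smul]
      noncomm_ring
    simpa using this
  | succ N ih =>
    rw [pow_succ a (N + 2), ← mul_assoc, ih]
    simp only [add_mul, sub_mul, smul_mul_assoc, mul_assoc, e1, e2, ← h3, mul_sub]
    have p1 : a ^ (N + 2) * (a * X) = a ^ (N + 2) * a * X := (mul_assoc _ _ _).symm
    have p2 : a ^ (N + 1) * (a * Y) = a ^ (N + 1 + 1) * Y := by rw [← mul_assoc, ← pow_succ]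
    have p3 : a ^ N * (a * Z) = a ^ (N + 1) * Z := by rw [← mul_assoc, ← pow_succ]
    rw [p2, p3]
    push_cast
    have q : N + 1 + 1 = N + 2 := rfl
    rw [q]
    module

theorem mul_exS {a X Y Z : R} (h1 : a * X - X * a = Y) (h2 : a * Y - Y * a = Z)
    (h3 : a * Z = Z * a) (N : ℕ) :
    X * exS (N + 2) a = exS (N + 2) a * X - exS (N + 1) a * Y + (1 / 2 : ℂ) • (exS N a * Z) := by
  have e1 : X * a = a * X - Y := by rw [← h1]; abel
  induction N with
  | zero =>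
    simp only [exS, zero_add, Finset.sum_range_succ, Finset.range_zero, Finset.sum_empty]
    simp [mul_add, add_mul, e1]
    abel
  | succ N ih =>
    rw [exS_succ (N + 2), exS_succ (N + 1), exS_succ N] at *
    rw [mul_add X, ih, mul_smul_comm, mul_pow_two h1 h2 h3]
    have f0 : (N.factorial : ℂ) ≠ 0 := by exact_mod_cast N.factorial_ne_zero
    have f1 : ((N : ℂ) + 1) ≠ 0 := by exact_mod_cast Nat.succ_ne_zero N
    have f2 : ((N : ℂ) + 2) ≠ 0 := by exact_mod_cast Nat.succ_ne_zero (N + 1)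
    have g1 : (((N + 1).factorial : ℕ) : ℂ) = ((N : ℂ) + 1) * N.factorial := by
      rw [Nat.factorial_succ]; push_cast; ring
    have g2 : (((N + 2).factorial : ℕ) : ℂ) = ((N : ℂ) + 2) * (((N : ℂ) + 1) * N.factorial) := by
      rw [Nat.factorial_succ (N + 1), Nat.cast_mul, g1]; push_cast; ring
    have c1 : (((N + 2).factorial : ℕ) : ℂ)⁻¹ * ((N : ℂ) + 2) = (((N + 1).factorial : ℕ) : ℂ)⁻¹ := by
      rw [g1, g2]; field_simp
    have c2 : (((N + 2).factorial : ℕ) : ℂ)⁻¹ * ((((N : ℂ) + 2) * ((N : ℂ) + 1)) / 2) =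
        (1 / 2 : ℂ) * ((N.factorial : ℕ) : ℂ)⁻¹ := by
      rw [g2]; field_simp
    rw [smul_add, smul_sub, smul_smul, smul_smul, c1, c2]
    simp only [add_mul, smul_mul_assoc, smul_add, smul_smul]
    module

/-- second order conjugation formula -/
theorem mul_ex {a X Y Z : R} (ha : IsNilpotent a) (h1 : a * X - X * a = Y)
    (h2 : a * Y - Y * a = Z) (h3 : a * Z = Z * a) :
    X * ex a = ex a * (X - Y + (1 / 2 : ℂ) • Z) := by
  obtain ⟨k, hk⟩ := ha
  have k1 : a ^ (k + 1) = 0 := by rw [pow_succ, hk, zero_mul]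
  have k2 : a ^ (k + 2) = 0 := by rw [pow_succ, k1, zero_mul]
  have := mul_exS h1 h2 h3 k
  rw [← ex_eq k2, ← ex_eq k1, ← ex_eq hk] at this
  rw [this, mul_add, mul_sub, mul_smul_comm]

/-- first order conjugation formula -/
theorem mul_ex1 {a X Y : R} (ha : IsNilpotent a) (h1 : a * X - X * a = Y) (h2 : a * Y = Y * a) :
    X * ex a = ex a * (X - Y) := by
  have := mul_ex (Z := 0) ha h1 (by rw [h2, sub_self]) (by simp)
  simpa using this

theorem mul_ex0 {a X : R} (ha : IsNilpotent a) (h1 : a * X = X * a) : X * ex a = ex a * X := by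
  have := mul_ex1 (Y := 0) ha (by rw [h1, sub_self]) (by simp)
  simpa using this

/-- an `sl₂` triple with nilpotent `L`, `Λ` -/
structure Tri (L Λ H : R) : Prop where
  nL : IsNilpotent L
  nΛ : IsNilpotent Λ
  LΛ : L * Λ - Λ * L = H
  HL : H * L - L * H = (2 : ℂ) • L
  HΛ : H * Λ - Λ * H = (-2 : ℂ) • Λ

/-- iterated commutators with `Λ` -/
def adp (Λ Z : R) : ℕ → R
  | 0 => Z
  | m + 1 => Λ * adp Λ Z m - adp Λ Z m * Λ

theorem adp_eq (Λ Z : R) (m : ℕ) :
    adp Λ Z m = ((LinearMap.mulLeft ℂ Λ - LinearMap.mulRight ℂ Λ) ^ m) Z := by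
  induction m with
  | zero => rfl
  | succ m ih => rw [pow_succ', adp, ih]; rfl

theorem exists_adp_zero {Λ : R} (h : IsNilpotent Λ) (Z : R) : ∃ m, adp Λ Z m = 0 := by
  have h1 : IsNilpotent (LinearMap.mulLeft ℂ Λ) := (LinearMap.isNilpotent_mulLeft_iff ℂ Λ).2 h
  have h2 : IsNilpotent (LinearMap.mulRight ℂ Λ) := (LinearMap.isNilpotent_mulRight_iff ℂ Λ).2 h
  obtain ⟨m, hm⟩ := (LinearMap.commute_mulLeft_right Λ Λ).isNilpotent_sub h1 h2
  exact ⟨m, by rw [adp_eq, hm]; rfl⟩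

namespace Tri

variable {L Λ H : R} (T : Tri L Λ H)
include T

theorem adp_wt {Z : R} {μ : ℂ} (hH : H * Z - Z * H = μ • Z) (m : ℕ) :
    H * adp Λ Z m - adp Λ Z m * H = (μ - 2 * m) • adp Λ Z m := by
  induction m with
  | zero => simpa [adp] using hH
  | succ m ih =>
    have e1 : H * Λ = Λ * H + (-2 : ℂ) • Λ := by rw [← T.HΛ]; abel
    have e2 : H * adp Λ Z m = adp Λ Z m * H + (μ - 2 * m) • adp Λ Z m := by rw [← ih]; abel
    simp only [adp]
    set U := adp Λ Z m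
    have : H * (Λ * U - U * Λ) = (H * Λ) * U - (H * U) * Λ := by noncomm_ring
    rw [this, e1, e2]
    have e3 : (Λ * H + (-2 : ℂ) • Λ) * U = Λ * (H * U) + (-2 : ℂ) • (Λ * U) := by
      rw [add_mul, smul_mul_assoc, mul_assoc]
    have e4 : (U * H + (μ - 2 * m) • U) * Λ = U * (H * Λ) + (μ - 2 * m) • (U * Λ) := by
      rw [add_mul, smul_mul_assoc, mul_assoc]
    rw [e3, e4, e1, e2]
    simp only [mul_add, mul_smul_comm, sub_mul, mul_assoc]
    push_cast
    module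

theorem L_adp {Z : R} {μ : ℂ} (hL : L * Z = Z * L) (hH : H * Z - Z * H = μ • Z) (m : ℕ) :
    L * adp Λ Z (m + 1) - adp Λ Z (m + 1) * L = (((m : ℂ) + 1) * (μ - m)) • adp Λ Z m := by
  have key : ∀ U : R, L * (Λ * U - U * Λ) - (Λ * U - U * Λ) * L =
      (H * U - U * H) + (Λ * (L * U - U * L) - (L * U - U * L) * Λ) := by
    intro U; rw [← T.LΛ]; noncomm_ring
  induction m with
  | zero =>
    simp only [adp]
    rw [key, hH, hL]
    simp
  | succ m ih =>
    rw [adp, key, ih, T.adp_wt hH, mul_smul_comm, smul_mul_assoc, ← smul_sub]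
    have : Λ * adp Λ Z m - adp Λ Z m * Λ = adp Λ Z (m + 1) := rfl
    rw [this, ← add_smul]
    congr 1
    push_cast
    ring

/-- an element commuting with `L` of negative weight vanishes -/
theorem hw_zero {Z : R} {k : ℕ} (hL : L * Z = Z * L)
    (hH : H * Z - Z * H = (-((k : ℂ) + 1)) • Z) : Z = 0 := by
  obtain ⟨m, hm⟩ := exists_adp_zero T.nΛ Z
  induction m with
  | zero => exact hm
  | succ m ih =>
    apply ih
    have h := T.L_adp hL hH m
    rw [hm, mul_zero, zero_mul, sub_zero] at h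
    have hc : ((m : ℂ) + 1) * (-((k : ℂ) + 1) - m) ≠ 0 := by
      refine mul_ne_zero (by exact_mod_cast Nat.succ_ne_zero m) ?_
      have : -((k : ℂ) + 1) - m = -(((k + m + 1 : ℕ) : ℂ)) := by push_cast; ring
      rw [this, neg_ne_zero]
      exact_mod_cast Nat.succ_ne_zero (k + m)
    have := congrArg (fun x => (((m : ℂ) + 1) * (-((k : ℂ) + 1) - m))⁻¹ • x) h
    simp only [smul_zero, smul_smul, inv_mul_cancel₀ hc, one_smul] at this
    exact this.symm

/-- `Λ` is determined by `L` and `H` -/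
theorem uniq {Λ' : R} (T' : Tri L Λ' H) : Λ' = Λ := by
  rw [← sub_eq_zero]
  refine T.hw_zero (k := 1) ?_ ?_
  · have := T.LΛ.trans T'.LΛ.symm
    rw [mul_sub, sub_mul, ← sub_eq_zero]
    calc L * Λ' - L * Λ - (Λ' * L - Λ * L) = (L * Λ' - Λ' * L) - (L * Λ - Λ * L) := by abel
      _ = 0 := by rw [this, sub_self]
  · rw [mul_sub, sub_mul, smul_sub]
    have h1 := T.HΛ
    have h2 := T'.HΛ
    have : (-((((1 : ℕ) : ℂ)) + 1)) = (-2 : ℂ) := by norm_num
    rw [this, ← h1, ← h2]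
    abel

end Tri

/-- the Weyl element -/
def wey (L Λ : R) : R := ex Λ * ex (-L) * ex Λ

/-- its inverse -/
def weyI (L Λ : R) : R := ex (-Λ) * ex L * ex (-Λ)

namespace Tri

variable {L Λ H : R} (T : Tri L Λ H)
include T

theorem wey_weyI : wey L Λ * weyI L Λ = 1 := by
  unfold wey weyI
  calc ex Λ * ex (-L) * ex Λ * (ex (-Λ) * ex L * ex (-Λ))
      = ex Λ * (ex (-L) * (ex Λ * ex (-Λ)) * ex L) * ex (-Λ) := by noncomm_ring
    _ = 1 := by rw [ex_mul_neg T.nΛ, mul_one, ex_neg_mul T.nL, mul_one, ex_mul_neg T.nΛ]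

theorem weyI_wey : weyI L Λ * wey L Λ = 1 := by
  unfold wey weyI
  calc ex (-Λ) * ex L * ex (-Λ) * (ex Λ * ex (-L) * ex Λ)
      = ex (-Λ) * (ex L * (ex (-Λ) * ex Λ) * ex (-L)) * ex Λ := by noncomm_ring
    _ = 1 := by rw [ex_neg_mul T.nΛ, mul_one, ex_mul_neg T.nL, mul_one, ex_neg_mul T.nΛ]

theorem conj3 {X X1 X2 X3 : R} (h1 : X * ex Λ = ex Λ * X1) (h2 : X1 * ex (-L) = ex (-L) * X2)
    (h3 : X2 * ex Λ = ex Λ * X3) : X * wey L Λ = wey L Λ * X3 := by
  unfold wey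
  calc X * (ex Λ * ex (-L) * ex Λ) = (X * ex Λ) * ex (-L) * ex Λ := by noncomm_ring
    _ = ex Λ * (X1 * ex (-L)) * ex Λ := by rw [h1]; noncomm_ring
    _ = ex Λ * ex (-L) * (X2 * ex Λ) := by rw [h2]; noncomm_ring
    _ = _ := by rw [h3]; noncomm_ring

/-- a highest weight vector of weight one generates a doublet -/
theorem doublet {X : R} (hL : L * X = X * L) (hH : H * X - X * H = X) :
    L * (Λ * X - X * Λ) - (Λ * X - X * Λ) * L = X ∧
      Λ * (Λ * X - X * Λ) = (Λ * X - X * Λ) * Λ := by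
  have hH' : H * X - X * H = (1 : ℂ) • X := by rw [one_smul]; exact hH
  have a0 := T.L_adp hL hH' 0
  have a1 := T.L_adp hL hH' 1
  have w2 := T.adp_wt hH' 2
  refine ⟨by simpa [adp] using a0, ?_⟩
  rw [← sub_eq_zero]
  refine T.hw_zero (Z := adp Λ X 2) (k := 2) ?_ ?_
  · rw [← sub_eq_zero]; simpa using a1
  · rw [w2]; congr 1; norm_num

/-- `X w = - w [Λ, X]` -/
theorem mul_wey {X : R} (hL : L * X = X * L) (hH : H * X - X * H = X) :
    X * wey L Λ = - (wey L Λ * (Λ * X - X * Λ)) := by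
  obtain ⟨d1, d2⟩ := T.doublet hL hH
  set Y := Λ * X - X * Λ with hY
  rw [← mul_neg]
  refine T.conj3 (X1 := X - Y) (X2 := -Y) (mul_ex1 T.nΛ rfl d2) ?_ (mul_ex0 T.nΛ ?_)
  · have := mul_ex1 (a := -L) (X := X - Y) (Y := X) T.nL.neg
      (by rw [← d1]; nth_rewrite 1 [d1]; nth_rewrite 1 [d1]
          have : -L * (X - Y) - (X - Y) * -L = (L * Y - Y * L) - (L * X - X * L) := by noncomm_ring
          rw [this, hL, sub_self, sub_zero])
      (by rw [neg_mul, mul_neg, hL])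
    rw [this]; congr 1; abel
  · rw [mul_neg, neg_mul, d2]

theorem ΛH : Λ * H - H * Λ = (2 : ℂ) • Λ := by
  rw [← neg_sub, T.HΛ, neg_smul, neg_neg]

theorem L_ex : L * ex Λ = ex Λ * (L + H - Λ) := by
  have := mul_ex (a := Λ) (X := L) (Y := -H) (Z := (-2 : ℂ) • Λ) T.nΛ
    (by rw [← T.LΛ]; abel) (by rw [← T.HΛ]; noncomm_ring)
    (by rw [mul_smul_comm, smul_mul_assoc])
  rw [this]; congr 1; module

theorem H_ex : H * ex Λ = ex Λ * (H - (2 : ℂ) • Λ) :=
  mul_ex1 T.nΛ T.ΛH (by rw [mul_smul_comm, smul_mul_assoc])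

theorem Lam_ex : Λ * ex (-L) = ex (-L) * (Λ + H - L) := by
  have := mul_ex (a := -L) (X := Λ) (Y := -H) (Z := (-2 : ℂ) • L) T.nL.neg
    (by rw [← T.LΛ]; noncomm_ring)
    (by rw [neg_smul, ← T.HL]; noncomm_ring)
    (by rw [mul_smul_comm, smul_mul_assoc, neg_mul, mul_neg])
  rw [this]; congr 1; module

theorem H_ex' : H * ex (-L) = ex (-L) * (H - (2 : ℂ) • L) :=
  mul_ex1 T.nL.neg (by rw [← T.HL]; noncomm_ring)
    (by rw [mul_smul_comm, smul_mul_assoc, neg_mul, mul_neg])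

theorem L_wey : L * wey L Λ = - (wey L Λ * Λ) := by
  rw [← mul_neg]
  refine T.conj3 T.L_ex (X2 := -Λ) ?_ (mul_ex0 T.nΛ (by rw [mul_neg, neg_mul]))
  rw [sub_mul, add_mul, T.H_ex', T.Lam_ex, mul_ex0 T.nL.neg (X := L) (by rw [neg_mul, mul_neg]),
    ← mul_add, ← mul_sub]
  congr 1; module

theorem Lam_wey : Λ * wey L Λ = - (wey L Λ * L) := by
  rw [← mul_neg]
  refine T.conj3 (mul_ex0 T.nΛ rfl) T.Lam_ex ?_
  rw [sub_mul, add_mul, T.H_ex, T.L_ex, mul_ex0 T.nΛ (X := Λ) rfl, ← mul_add, ← mul_sub]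
  congr 1; module

theorem H_wey : H * wey L Λ = - (wey L Λ * H) := by
  rw [← T.LΛ, sub_mul, mul_assoc, mul_assoc, T.Lam_wey, T.L_wey, mul_neg, mul_neg, ← mul_assoc,
    ← mul_assoc, T.Lam_wey, T.L_wey]
  noncomm_ring

theorem comm_wey {X : R} (h1 : L * X = X * L) (h2 : Λ * X = X * Λ) :
    X * wey L Λ = wey L Λ * X :=
  T.conj3 (mul_ex0 T.nΛ h2) (mul_ex0 T.nL.neg (by rw [neg_mul, mul_neg, h1])) (mul_ex0 T.nΛ h2)

end Tri

end

end Crest.Agent.X262.Kah
private theorem rz_b94e44c3a2 : type_of% @_root_.Crest.Agent.X262.Kah.adp.eq_def := @_root_.Crest.Agent.X262.Kah.adp.eq_def -- L133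
private theorem rz_c0aee0f93c : type_of% @_root_.Crest.Agent.X262.Kah.adp.eq_1 := @_root_.Crest.Agent.X262.Kah.adp.eq_1 -- L133
end

-- ▼ part X262/Kah/GS
section

/-!
# X262 / Kah (helper20), file GS: bigraded modules with Lefschetz operators

* `GS n V`      : type projections `pr p q` (`0 ≤ p, q ≤ n`), `L`, `Λ` with `[L,Λ] = p + q - n`;
* `dg c`        : the operator `c p q` on type `(p,q)`; `Sh a b X` : `X` has type `(a,b)`;
* `tri`, `w`, `w_pr`; `L_pow_inj` (hard Lefschetz, injective half), `prim_of`, `w_prim`;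
* `L_pow_surj`  : surjective half in finite dimension;
* `quot`        : quotient by a stable submodule.
-/

set_option autoImplicit false
set_option linter.unusedSectionVars false

open Finset

namespace Crest.Agent.X262.Kah

noncomputable section

/-- the possible types -/
def box (n : ℕ) : Finset (ℤ × ℤ) := Finset.Icc (0 : ℤ) n ×ˢ Finset.Icc (0 : ℤ) n

theorem mem_box {n : ℕ} {p q : ℤ} : (p, q) ∈ box n ↔ (0 ≤ p ∧ p ≤ n) ∧ (0 ≤ q ∧ q ≤ n) := by
  simp [box]

/-- bigraded module with Lefschetz operators -/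
structure GS (n : ℕ) (V : Type*) [AddCommGroup V] [Module ℂ V] where
  pr : ℤ → ℤ → Module.End ℂ V
  pr_pr : ∀ p q, pr p q * pr p q = pr p q
  pr_ne : ∀ p q p' q', (p, q) ≠ (p', q') → pr p q * pr p' q' = 0
  pr_out : ∀ p q, (p, q) ∉ box n → pr p q = 0
  pr_sum : ∑ x ∈ box n, pr x.1 x.2 = 1
  L : Module.End ℂ V
  Λ : Module.End ℂ V
  L_pr : ∀ p q, L * pr p q = pr (p + 1) (q + 1) * L
  Λ_pr : ∀ p q, Λ * pr p q = pr (p + -1) (q + -1) * Λ
  comm : ∀ p q, (L * Λ - Λ * L) * pr p q = ((p + q - n : ℤ) : ℂ) • pr p q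

namespace GS

variable {n : ℕ} {V : Type*} [AddCommGroup V] [Module ℂ V] (G : GS n V)

/-- `u` has type `(p,q)` -/
def Ty (p q : ℤ) (u : V) : Prop := G.pr p q u = u

/-- the operator `X` has type `(a,b)` -/
def Sh (a b : ℤ) (X : Module.End ℂ V) : Prop := ∀ p q, X * G.pr p q = G.pr (p + a) (q + b) * X

/-- the operator `c p q` on type `(p,q)` -/
def dg (c : ℤ → ℤ → ℂ) : Module.End ℂ V := ∑ x ∈ box n, c x.1 x.2 • G.pr x.1 x.2

theorem sum_pr (u : V) : ∑ x ∈ box n, G.pr x.1 x.2 u = u := by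
  have := LinearMap.congr_fun G.pr_sum u
  rwa [LinearMap.sum_apply] at this

theorem ty_pr (p q : ℤ) (u : V) : G.Ty p q (G.pr p q u) := LinearMap.congr_fun (G.pr_pr p q) u

variable {G}

theorem Ty.pr_ne {p q p' q' : ℤ} {u : V} (h : G.Ty p q u) (hne : (p', q') ≠ (p, q)) :
    G.pr p' q' u = 0 := by
  rw [← h]; exact LinearMap.congr_fun (G.pr_ne p' q' p q hne) u

theorem Ty.eq_zero {p q : ℤ} {u : V} (h : G.Ty p q u) (ho : (p, q) ∉ box n) : u = 0 := by
  rw [← h, G.pr_out p q ho]; rfl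

theorem Ty.zero (p q : ℤ) : G.Ty p q 0 := map_zero _
theorem Ty.add {p q : ℤ} {u v : V} (h : G.Ty p q u) (h' : G.Ty p q v) : G.Ty p q (u + v) := by
  unfold Ty at *; rw [map_add, h, h']
theorem Ty.sub {p q : ℤ} {u v : V} (h : G.Ty p q u) (h' : G.Ty p q v) : G.Ty p q (u - v) := by
  unfold Ty at *; rw [map_sub, h, h']
theorem Ty.neg {p q : ℤ} {u : V} (h : G.Ty p q u) : G.Ty p q (-u) := by
  unfold Ty at *; rw [map_neg, h]
theorem Ty.smul {p q : ℤ} {u : V} (c : ℂ) (h : G.Ty p q u) : G.Ty p q (c • u) := by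
  unfold Ty at *; rw [map_smul, h]

theorem ty_of_ne {p q : ℤ} {u : V} (h : ∀ p' q', (p', q') ≠ (p, q) → G.pr p' q' u = 0) :
    G.Ty p q u := by
  have h1 := G.sum_pr u
  by_cases hb : (p, q) ∈ box n
  · rw [Finset.sum_eq_single (p, q) (fun x _ hx => h x.1 x.2 hx) (fun h' => absurd hb h')] at h1
    exact h1
  · rw [Finset.sum_eq_zero fun x hx => h x.1 x.2 (fun e => hb (e ▸ hx))] at h1
    rw [← h1]; exact Ty.zero p q

theorem Sh.apply {a b : ℤ} {X : Module.End ℂ V} (h : G.Sh a b X) (p q : ℤ) (u : V) :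
    X (G.pr p q u) = G.pr (p + a) (q + b) (X u) := LinearMap.congr_fun (h p q) u

theorem Sh.ty {a b p q : ℤ} {X : Module.End ℂ V} (h : G.Sh a b X) {u : V} (hu : G.Ty p q u) :
    G.Ty (p + a) (q + b) (X u) := by
  unfold Ty; rw [← h.apply, hu]

theorem Sh.mul {a b a' b' : ℤ} {X Y : Module.End ℂ V} (h : G.Sh a b X) (h' : G.Sh a' b' Y) :
    G.Sh (a' + a) (b' + b) (X * Y) := fun p q => by
  rw [mul_assoc, h', ← mul_assoc, h, mul_assoc, add_assoc, add_assoc]

theorem Sh.sub {a b : ℤ} {X Y : Module.End ℂ V} (h : G.Sh a b X) (h' : G.Sh a b Y) :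
    G.Sh a b (X - Y) := fun p q => by rw [sub_mul, mul_sub, h, h']

theorem Sh.add {a b : ℤ} {X Y : Module.End ℂ V} (h : G.Sh a b X) (h' : G.Sh a b Y) :
    G.Sh a b (X + Y) := fun p q => by rw [add_mul, mul_add, h, h']

theorem Sh.smul {a b : ℤ} {X : Module.End ℂ V} (c : ℂ) (h : G.Sh a b X) :
    G.Sh a b (c • X) := fun p q => by rw [smul_mul_assoc, mul_smul_comm, h]

theorem Sh.sum {ι : Type*} {a b : ℤ} (s : Finset ι) {X : ι → Module.End ℂ V}
    (h : ∀ i ∈ s, G.Sh a b (X i)) : G.Sh a b (∑ i ∈ s, X i) := fun p q => by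
  rw [Finset.sum_mul, Finset.mul_sum]
  exact Finset.sum_congr rfl fun i hi => h i hi p q

theorem Sh.cast {a b a' b' : ℤ} {X : Module.End ℂ V} (h : G.Sh a b X) (ha : a = a') (hb : b = b') :
    G.Sh a' b' X := ha ▸ hb ▸ h

theorem Sh.pow {a b : ℤ} {X : Module.End ℂ V} (h : G.Sh a b X) (m : ℕ) :
    G.Sh (m * a) (m * b) (X ^ m) := by
  induction m with
  | zero => intro p q; simp
  | succ m ih => rw [pow_succ']; exact (h.mul ih).cast (by push_cast; ring) (by push_cast; ring)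


variable (G)

theorem sh_L : G.Sh 1 1 G.L := G.L_pr
theorem sh_Λ : G.Sh (-1) (-1) G.Λ := G.Λ_pr

theorem ext_pr {X Y : Module.End ℂ V} (h : ∀ p q, X * G.pr p q = Y * G.pr p q) : X = Y := by
  rw [← mul_one X, ← mul_one Y, ← G.pr_sum, Finset.mul_sum, Finset.mul_sum]
  exact Finset.sum_congr rfl fun x _ => h _ _

theorem dg_pr (c : ℤ → ℤ → ℂ) (p q : ℤ) : G.dg c * G.pr p q = c p q • G.pr p q := by
  unfold dg
  rw [Finset.sum_mul]
  by_cases hb : (p, q) ∈ box n
  · rw [Finset.sum_eq_single (p, q) _ (fun h' => absurd hb h'), smul_mul_assoc, G.pr_pr]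
    intro x _ hx
    rw [smul_mul_assoc, G.pr_ne _ _ _ _ hx, smul_zero]
  · simp [G.pr_out p q hb]

theorem pr_dg (c : ℤ → ℤ → ℂ) (p q : ℤ) : G.pr p q * G.dg c = c p q • G.pr p q := by
  unfold dg
  rw [Finset.mul_sum]
  by_cases hb : (p, q) ∈ box n
  · rw [Finset.sum_eq_single (p, q) _ (fun h' => absurd hb h'), mul_smul_comm, G.pr_pr]
    intro x _ hx
    rw [mul_smul_comm, G.pr_ne _ _ _ _ (Ne.symm hx), smul_zero]
  · simp [G.pr_out p q hb]

theorem sh_dg (c : ℤ → ℤ → ℂ) : G.Sh 0 0 (G.dg c) := fun p q => by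
  rw [add_zero, add_zero, dg_pr, pr_dg]

theorem dg_mul (c c' : ℤ → ℤ → ℂ) : G.dg c * G.dg c' = G.dg fun p q => c p q * c' p q :=
  G.ext_pr fun p q => by rw [mul_assoc, dg_pr, mul_smul_comm, dg_pr, dg_pr, smul_smul, mul_comm]

theorem dg_one : G.dg (fun _ _ => 1) = 1 := G.ext_pr fun p q => by rw [dg_pr, one_smul, one_mul]

variable {G}

theorem Ty.dg {p q : ℤ} {u : V} (h : G.Ty p q u) (c : ℤ → ℤ → ℂ) : G.dg c u = c p q • u := by
  have := LinearMap.congr_fun (G.dg_pr c p q) u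
  rw [Module.End.mul_apply, LinearMap.smul_apply, h] at this
  exact this

theorem Sh.dg {a b : ℤ} {X : Module.End ℂ V} (h : G.Sh a b X) (c : ℤ → ℤ → ℂ) :
    G.dg c * X = X * G.dg fun p q => c (p + a) (q + b) :=
  G.ext_pr fun p q => by
    rw [mul_assoc, h, ← mul_assoc, dg_pr, mul_assoc, dg_pr, smul_mul_assoc, mul_smul_comm, h]

theorem Sh.nil {a b : ℤ} {X : Module.End ℂ V} (h : G.Sh a b X) (ha : a ≠ 0) :
    X ^ (n + 1) = 0 := by
  refine G.ext_pr fun p q => ?_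
  rw [zero_mul]
  by_cases hb : (p, q) ∈ box n
  · rw [h.pow (n + 1), G.pr_out, zero_mul]
    rw [mem_box] at hb ⊢
    rintro ⟨⟨h1, h2⟩, -⟩
    push_cast at h1 h2
    rcases lt_or_gt_of_ne ha with h3 | h3 <;> nlinarith [hb.1.1, hb.1.2]
  · rw [G.pr_out p q hb, mul_zero]

variable (G)

/-- the weight operator `p + q - n` -/
def H : Module.End ℂ V := G.dg fun p q => ((p + q - n : ℤ) : ℂ)

/-- the parity operator -/
def par : Module.End ℂ V := G.dg fun p q => (-1 : ℂ) ^ (p + q)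

variable {G}

theorem Sh.H {a b : ℤ} {X : Module.End ℂ V} (h : G.Sh a b X) :
    G.H * X - X * G.H = ((a + b : ℤ) : ℂ) • X := by
  unfold GS.H
  rw [h.dg]
  refine G.ext_pr fun p q => ?_
  rw [sub_mul, mul_assoc, mul_assoc, dg_pr, dg_pr, mul_smul_comm, mul_smul_comm, ← sub_smul,
    smul_mul_assoc]
  congr 1; push_cast; ring

theorem Sh.par {a b : ℤ} {X : Module.End ℂ V} (h : G.Sh a b X) :
    G.par * X = (-1 : ℂ) ^ (a + b) • (X * G.par) := by
  unfold GS.par
  rw [h.dg]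
  refine G.ext_pr fun p q => ?_
  rw [smul_mul_assoc, mul_assoc, mul_assoc, dg_pr, dg_pr, mul_smul_comm, mul_smul_comm, smul_smul,
    ← zpow_add₀ (by norm_num)]
  congr 2; ring

variable (G)

theorem tri : Tri G.L G.Λ G.H where
  nL := ⟨n + 1, G.sh_L.nil one_ne_zero⟩
  nΛ := ⟨n + 1, G.sh_Λ.nil (by norm_num)⟩
  LΛ := G.ext_pr fun p q => by rw [G.comm, H, dg_pr]
  HL := by rw [G.sh_L.H]; norm_num
  HΛ := by rw [G.sh_Λ.H]; norm_num

/-- the Weyl element -/
def w : Module.End ℂ V := wey G.L G.Λ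

/-- its inverse -/
def wI : Module.End ℂ V := weyI G.L G.Λ

theorem w_wI : G.w * G.wI = 1 := G.tri.wey_weyI
theorem wI_w : G.wI * G.w = 1 := G.tri.weyI_wey

theorem dg_w {c : ℤ → ℤ → ℂ} (hc : ∀ p q, c (p + 1) (q + 1) = c p q) :
    G.dg c * G.w = G.w * G.dg c := by
  refine G.tri.comm_wey ?_ ?_
  · rw [G.sh_L.dg]; simp only [hc]
  · rw [G.sh_Λ.dg]
    congr 2
    funext p q
    rw [← hc (p + -1) (q + -1)]; congr 1 <;> ring

theorem par_w : G.par * G.w = G.w * G.par := G.dg_w fun p q => by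
  rw [show p + 1 + (q + 1) = p + q + 2 by ring, zpow_add₀ (by norm_num)]; norm_num

variable {G}

theorem Ty.w {p q : ℤ} {u : V} (h : G.Ty p q u) : G.Ty (n - q) (n - p) (G.w u) := by
  have h1 : G.H (G.w u) = ((n - p - q : ℤ) : ℂ) • G.w u := by
    have := LinearMap.congr_fun G.tri.H_wey u
    change G.H (G.w u) = - G.w (G.H u) at this
    rw [this, GS.H, h.dg, map_smul, ← neg_smul]
    congr 1; push_cast; ring
  have h2 : G.dg (fun p q => ((p - q : ℤ) : ℂ)) (G.w u) = ((p - q : ℤ) : ℂ) • G.w u := by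
    have := LinearMap.congr_fun (G.dg_w (c := fun p q => ((p - q : ℤ) : ℂ))
      fun p q => by congr 1; ring) u
    rw [Module.End.mul_apply, Module.End.mul_apply, h.dg, map_smul] at this
    exact this
  refine ty_of_ne fun p' q' hne => ?_
  have e1 := LinearMap.congr_fun (G.pr_dg (fun p q => ((p + q - n : ℤ) : ℂ)) p' q') (G.w u)
  have e2 := LinearMap.congr_fun (G.pr_dg (fun p q => ((p - q : ℤ) : ℂ)) p' q') (G.w u)
  rw [Module.End.mul_apply, LinearMap.smul_apply] at e1 e2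
  rw [show G.dg (fun p q => ((p + q - n : ℤ) : ℂ)) = G.H from rfl, h1, map_smul, ← sub_eq_zero,
    ← sub_smul, smul_eq_zero] at e1
  rw [h2, map_smul, ← sub_eq_zero, ← sub_smul, smul_eq_zero] at e2
  rcases e1 with e1 | e1
  · rcases e2 with e2 | e2
    · exfalso
      rw [sub_eq_zero, Int.cast_inj] at e1 e2
      exact hne (Prod.ext (by simp only; omega) (by simp only; omega))
    · exact e2
  · exact e1

theorem w_pr (p q : ℤ) (u : V) : G.w (G.pr p q u) = G.pr (n - q) (n - p) (G.w u) := by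
  conv_rhs => rw [← G.sum_pr u, map_sum, map_sum]
  by_cases hb : (p, q) ∈ box n
  · rw [Finset.sum_eq_single (p, q) _ (fun h' => absurd hb h')]
    · exact (G.ty_pr p q u).w.symm
    · intro x _ hx
      refine (G.ty_pr _ _ u).w.pr_ne fun e => hx ?_
      simp only [Prod.mk.injEq, sub_right_inj] at e
      exact Prod.ext e.2.symm e.1.symm
  · rw [G.pr_out p q hb, Finset.sum_eq_zero]
    · simp
    · intro x hx
      refine (G.ty_pr _ _ u).w.pr_ne fun e => hb ?_
      simp only [Prod.mk.injEq, sub_right_inj] at e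
      rw [e.1, e.2]; exact hx

theorem LΛ_apply {p q : ℤ} {u : V} (h : G.Ty p q u) :
    G.L (G.Λ u) = G.Λ (G.L u) + ((p + q - n : ℤ) : ℂ) • u := by
  have := LinearMap.congr_fun (G.comm p q) u
  rw [Module.End.mul_apply, LinearMap.smul_apply, h] at this
  rw [← this]
  simp

theorem Ty.L_pow {p q : ℤ} {u : V} (h : G.Ty p q u) (m : ℕ) :
    G.Ty (p + m) (q + m) ((G.L ^ m) u) := by
  simpa using (G.sh_L.pow m).ty h

theorem pow_Λ {p q : ℤ} {u : V} (h : G.Ty p q u) (m : ℕ) :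
    (G.L ^ (m + 1)) (G.Λ u) = G.Λ ((G.L ^ (m + 1)) u) +
      (((m : ℂ) + 1) * ((p + q - n + m : ℤ) : ℂ)) • (G.L ^ m) u := by
  induction m with
  | zero => simpa using LΛ_apply h
  | succ m ih =>
    rw [pow_succ' G.L (m + 1), Module.End.mul_apply, Module.End.mul_apply, ih, map_add, map_smul,
      LΛ_apply (h.L_pow (m + 1)), ← Module.End.mul_apply G.L (G.L ^ m), ← pow_succ', add_assoc,
      ← add_smul]
    congr 2; push_cast; ring

theorem prim_zero {p q : ℤ} {u : V} (h : G.Ty p q u) (hΛ : G.Λ u = 0) {m : ℕ}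
    (hm : p + q + m ≤ n) (h0 : (G.L ^ m) u = 0) : u = 0 := by
  induction m with
  | zero => simpa using h0
  | succ m ih =>
    apply ih (by push_cast at hm; omega)
    have := pow_Λ h m
    rw [hΛ, h0, map_zero, map_zero, zero_add, eq_comm, smul_eq_zero] at this
    refine this.resolve_left (mul_ne_zero (by exact_mod_cast Nat.succ_ne_zero m) ?_)
    rw [Int.cast_ne_zero]; push_cast at hm; omega

/-- **hard Lefschetz**, injective half -/
theorem L_pow_inj {p q : ℤ} {r : ℕ} (hr : p + q + r = n) {u : V} (h : G.Ty p q u)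
    (h0 : (G.L ^ r) u = 0) : u = 0 := by
  by_cases hp : 0 ≤ p
  swap
  · exact h.eq_zero fun hb => hp (mem_box.1 hb).1.1
  obtain ⟨k, rfl⟩ := Int.eq_ofNat_of_zero_le hp
  clear hp
  induction k generalizing q r u with
  | zero =>
    exact prim_zero h ((G.sh_Λ.ty h).eq_zero fun hb => by
      have := (mem_box.1 hb).1.1; simp at this) hr.le h0
  | succ k ih =>
    refine prim_zero h ?_ hr.le h0
    have h1 : G.Ty (k : ℤ) (q + -1) (G.Λ u) := by simpa using G.sh_Λ.ty h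
    have h2 : (k : ℤ) + (q + -1) + ((r + 2 : ℕ) : ℤ) = n := by push_cast at hr ⊢; omega
    suffices h3 : (G.L ^ (r + 2)) (G.Λ u) = 0 by apply ih <;> assumption
    have e : (G.L ^ (r + 1)) u = 0 := by rw [pow_succ', Module.End.mul_apply, h0, map_zero]
    rw [pow_succ' G.L (r + 1), Module.End.mul_apply, pow_Λ h r, e, h0]
    simp

/-- `L^{r+1} u = 0` forces `u` to be primitive -/
theorem prim_of {p q : ℤ} {r : ℕ} (hr : p + q + r = n) {u : V} (h : G.Ty p q u)
    (h0 : (G.L ^ (r + 1)) u = 0) : G.Λ u = 0 := by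
  refine L_pow_inj (r := r + 2) (by push_cast; omega) (G.sh_Λ.ty h) ?_
  have e : ((p + q - n + r : ℤ) : ℂ) = 0 := by rw [Int.cast_eq_zero]; omega
  rw [pow_succ' G.L (r + 1), Module.End.mul_apply, pow_Λ h r, h0, e]
  simp


theorem ex_apply {a : Module.End ℂ V} {k : ℕ} (h : a ^ k = 0) (u : V) :
    ex a u = ∑ i ∈ range k, ((i.factorial : ℂ))⁻¹ • (a ^ i) u := by
  rw [ex_eq h, exS, LinearMap.sum_apply]; rfl

/-- the Weyl element on a primitive vector -/
theorem w_prim {p q : ℤ} {r : ℕ} (hr : p + q + r = n) {u : V} (h : G.Ty p q u) (hΛ : G.Λ u = 0) :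
    G.w u = ((-1 : ℂ) ^ r * ((r.factorial : ℂ))⁻¹) • (G.L ^ r) u := by
  by_cases hb : (p, q) ∈ box n
  swap
  · rw [h.eq_zero hb]; simp
  rw [mem_box] at hb
  have nΛ : G.Λ ^ (n + 1) = 0 := G.sh_Λ.nil (by norm_num)
  have nΛ' : (-G.Λ) ^ (n + 1) = 0 := by rw [neg_pow, nΛ, mul_zero]
  have nL' : (-G.L) ^ (n + 1) = 0 := by rw [neg_pow, G.sh_L.nil one_ne_zero, mul_zero]
  have e0 : ex G.Λ u = u := by
    rw [ex_apply nΛ, Finset.sum_range_succ', Finset.sum_eq_zero]
    · simp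
    · intro i _
      rw [pow_succ, Module.End.mul_apply, hΛ, map_zero, smul_zero]
  have e1 : ex (-G.Λ) (G.w u) = ex (-G.L) u := by
    change ex (-G.Λ) (ex G.Λ (ex (-G.L) (ex G.Λ u))) = _
    rw [e0, ← Module.End.mul_apply, ex_neg_mul G.tri.nΛ]; rfl
  have shn : ∀ {a : ℤ} {X : Module.End ℂ V}, G.Sh a a X → G.Sh a a (-X) := fun hX => by
    simpa using hX.smul (-1)
  have e2 := congrArg (G.pr (n - q) (n - p)) e1
  rw [ex_apply nΛ', ex_apply nL', map_sum, map_sum, Finset.sum_eq_single 0,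
    Finset.sum_eq_single r] at e2
  · have t1 : G.Ty (n - q) (n - p) (((-G.L) ^ r) u) := by
      have := ((shn G.sh_L).pow r).ty h
      convert this using 1 <;> omega
    rw [map_smul, map_smul, t1] at e2
    simp only [Nat.factorial_zero, Nat.cast_one, inv_one, pow_zero, Module.End.one_apply,
      one_smul] at e2
    rw [h.w] at e2
    rw [e2, neg_pow, Module.End.mul_apply]
    have : ((-1 : Module.End ℂ V) ^ r) ((G.L ^ r) u) = (-1 : ℂ) ^ r • (G.L ^ r) u := by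
      rcases neg_one_pow_eq_or ℂ r with h1 | h1 <;> rcases Nat.even_or_odd r with h2 | h2 <;>
        simp [h2.neg_one_pow]
    rw [this, smul_smul, mul_comm]
  · intro i _ hi
    rw [map_smul, (((shn G.sh_L).pow i).ty h).pr_ne, smul_zero]
    intro e
    simp only [Prod.mk.injEq] at e
    omega
  · intro hi; exfalso; apply hi; rw [Finset.mem_range]; omega
  · intro i _ hi
    rw [map_smul, (((shn G.sh_Λ).pow i).ty h.w).pr_ne, smul_zero]
    intro e
    simp only [Prod.mk.injEq] at e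
    omega
  · intro hi; exfalso; apply hi; rw [Finset.mem_range]; omega


/-- quotient by a stable submodule -/
def quot (G : GS n V) (N : Submodule ℂ V) (h1 : ∀ p q, N ≤ N.comap (G.pr p q))
    (h2 : N ≤ N.comap G.L) (h3 : N ≤ N.comap G.Λ) : GS n (V ⧸ N) where
  pr p q := N.mapQ N (G.pr p q) (h1 p q)
  pr_pr p q := by
    ext u; exact congrArg N.mkQ (LinearMap.congr_fun (G.pr_pr p q) u)
  pr_ne p q p' q' h := by
    ext u; exact congrArg N.mkQ (LinearMap.congr_fun (G.pr_ne p q p' q' h) u)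
  pr_out p q h := by
    ext u; exact congrArg N.mkQ (LinearMap.congr_fun (G.pr_out p q h) u)
  pr_sum := by
    ext u
    have := congrArg N.mkQ (G.sum_pr u)
    rw [map_sum] at this
    simpa [LinearMap.sum_apply] using this
  L := N.mapQ N G.L h2
  Λ := N.mapQ N G.Λ h3
  L_pr p q := by
    ext u; exact congrArg N.mkQ (LinearMap.congr_fun (G.L_pr p q) u)
  Λ_pr p q := by
    ext u; exact congrArg N.mkQ (LinearMap.congr_fun (G.Λ_pr p q) u)
  comm p q := by
    ext u; exact congrArg N.mkQ (LinearMap.congr_fun (G.comm p q) u)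

end GS

end

end Crest.Agent.X262.Kah
end

-- ▼ part X262/Kah/PS

/-!
# X262 / Kah (helper20), file PS: the Hermitian form of a paired Lefschetz module

* `PS n V`   : `GS n V` with a conjugation `cj` and a bilinear pairing `β` ("`∫ u ∧ v`");
* `W`, `hp u v = β u (cj (W v))` : the Hermitian product (linear in `u`);
* `hp_pr`, `hp_L`, `hp_cj`, `adj10`, `adj01` : adjoints (the Kaehler identities);
* `W_prim`   : `W` on primitive vectors (Hodge-Riemann).
-/

set_option autoImplicit false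
set_option linter.unusedSectionVars false

open Finset Complex
open scoped ComplexConjugate ComplexOrder

namespace Crest.Agent.X262.Kah

noncomputable section

/-- the constants `(-1)^n i^(q-p) (-1)^(k(k+1)/2)` -/
def cc (n : ℕ) (p q : ℤ) : ℂ := (-1) ^ n * I ^ (q - p + (p + q) * (p + q + 1))

theorem neg_one_zpow_eq (k : ℤ) : (-1 : ℂ) ^ k = I ^ (2 * k) := by
  rw [zpow_mul]; congr 1; rw [zpow_two, I_mul_I]

theorem I_zpow_congr {a b : ℤ} (k : ℤ) (h : a = b + 4 * k) : I ^ a = I ^ b := by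
  rw [h, zpow_add₀ I_ne_zero, zpow_mul]
  have : I ^ (4 : ℤ) = 1 := by exact_mod_cast I_pow_four
  rw [this, one_zpow, mul_one]

theorem cc_q (n : ℕ) (p q : ℤ) : (-1 : ℂ) ^ (p + q) * cc n p q = I * cc n p (q + -1) := by
  unfold cc
  rw [neg_one_zpow_eq, mul_left_comm, mul_left_comm I, ← zpow_add₀ I_ne_zero,
    ← zpow_one_add₀ I_ne_zero]
  congr 1
  exact I_zpow_congr (p + q) (by ring)

theorem cc_p (n : ℕ) (p q : ℤ) : (-1 : ℂ) ^ (p + q) * cc n p q = -I * cc n (p + -1) q := by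
  unfold cc
  have : -I = I ^ (3 : ℤ) := by
    have h := I_pow_three; rw [← h]; norm_cast
  rw [neg_one_zpow_eq, mul_left_comm, mul_left_comm (-I), ← zpow_add₀ I_ne_zero, this,
    ← zpow_add₀ I_ne_zero]
  congr 1
  exact I_zpow_congr (p + q - 1) (by ring)

theorem cc_pq (n : ℕ) (p q : ℤ) : cc n p q = - cc n (p + -1) (q + -1) := by
  unfold cc
  have : (-1 : ℂ) = I ^ (2 : ℤ) := by rw [zpow_two, I_mul_I]
  rw [← mul_neg, ← neg_one_mul (I ^ _)]
  congr 1
  rw [this, ← zpow_add₀ I_ne_zero]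
  exact I_zpow_congr (p + q - 1) (by ring)

theorem conj_I_zpow (k : ℤ) : conj (I ^ k) = I ^ (-k) := by
  rw [map_zpow₀, conj_I, zpow_neg, ← inv_zpow, inv_I]

theorem conj_cc (n : ℕ) (p q : ℤ) : conj (cc n q p) = cc n p q := by
  unfold cc
  rw [map_mul, conj_I_zpow]
  congr 1
  · simp
  · obtain ⟨k, hk⟩ := Int.even_mul_succ_self (p + q)
    refine I_zpow_congr (-k) ?_
    rw [add_comm q p, hk]; ring

theorem cc_mul_conj (n : ℕ) (p q : ℤ) : cc n p q * conj (cc n p q) = 1 := by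
  unfold cc
  rw [map_mul, conj_I_zpow, mul_mul_mul_comm, ← zpow_add₀ I_ne_zero]
  simp [← mul_pow]


/-- a Lefschetz module with conjugation and pairing -/
structure PS (n : ℕ) (V : Type*) [AddCommGroup V] [Module ℂ V] extends GS n V where
  cj : V →ₛₗ[starRingEnd ℂ] V
  cj_cj : ∀ u, cj (cj u) = u
  cj_pr : ∀ p q u, cj (pr p q u) = pr q p (cj u)
  cj_L : ∀ u, cj (L u) = L (cj u)
  cj_Λ : ∀ u, cj (Λ u) = Λ (cj u)
  β : V →ₗ[ℂ] V →ₗ[ℂ] ℂ
  β_pr : ∀ p q u v, β (pr p q u) v = β u (pr (n - p) (n - q) v)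
  β_L : ∀ u v, β (L u) v = β u (L v)
  β_cj : ∀ u v, β (cj u) (cj v) = conj (β u v)

namespace GS

variable {n : ℕ} {V : Type*} [AddCommGroup V] [Module ℂ V] (G : GS n V)

/-- the operator `w s` (the Hodge star up to the Weil operator) -/
def W : Module.End ℂ V := G.w * G.dg (cc n)

/-- its inverse -/
def WI : Module.End ℂ V := G.dg (fun p q => conj (cc n p q)) * G.wI

theorem W_WI : G.W * G.WI = 1 := by
  unfold W WI
  rw [mul_assoc, ← mul_assoc (G.dg _), dg_mul]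
  simp only [cc_mul_conj]
  rw [dg_one, one_mul, w_wI]

theorem WI_W : G.WI * G.W = 1 := by
  unfold W WI
  rw [mul_assoc, ← mul_assoc G.wI, wI_w, one_mul, dg_mul]
  simp only [mul_comm (conj _), cc_mul_conj]
  rw [dg_one]

theorem W_WI_apply (u : V) : G.W (G.WI u) = u := LinearMap.congr_fun G.W_WI u
theorem WI_W_apply (u : V) : G.WI (G.W u) = u := LinearMap.congr_fun G.WI_W u

theorem W_pr (p q : ℤ) (u : V) : G.W (G.pr p q u) = G.pr (n - q) (n - p) (G.W u) := by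
  change G.w (G.dg _ (G.pr p q u)) = G.pr _ _ (G.w (G.dg _ u))
  rw [← w_pr, (G.sh_dg _).apply, add_zero, add_zero]

theorem L_W : G.L * G.W = G.W * G.Λ := by
  unfold W
  rw [← mul_assoc, show G.L * G.w = -(G.w * G.Λ) from G.tri.L_wey, mul_assoc, G.sh_Λ.dg, neg_mul,
    mul_assoc, ← mul_neg, ← mul_neg]
  congr 2
  refine G.ext_pr fun p q => ?_
  rw [neg_mul, dg_pr, dg_pr, cc_pq, neg_smul, neg_neg]

variable {G}

/-- commutator with `Λ` -/
def br (G : GS n V) (X : Module.End ℂ V) : Module.End ℂ V := G.Λ * X - X * G.Λ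

theorem Sh.br {a b : ℤ} {X : Module.End ℂ V} (h : G.Sh a b X) :
    G.Sh (a + -1) (b + -1) (G.br X) :=
  (G.sh_Λ.mul h).sub ((h.mul G.sh_Λ).cast (add_comm _ _) (add_comm _ _))

theorem par_X_W {a b : ℤ} {X : Module.End ℂ V} (h : G.Sh a b X) (hab : a + b = 1)
    (hL : G.L * X = X * G.L) {γ : ℂ}
    (hγ : ∀ p q, (-1 : ℂ) ^ (p + q) * cc n p q = γ * cc n (p + (a + -1)) (q + (b + -1))) :
    G.par * X * G.W = G.W * (γ • G.br X) := by
  have h1 : X * G.w = -(G.w * G.br X) := G.tri.mul_wey hL (by rw [h.H, hab]; simp)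
  unfold W
  rw [mul_assoc, ← mul_assoc X, h1, neg_mul, mul_neg, mul_assoc, ← mul_assoc G.par, par_w,
    mul_assoc, mul_assoc, ← mul_neg, mul_smul_comm, h.br.dg, ← mul_assoc, h.br.par]
  congr 1
  refine G.ext_pr fun p q => ?_
  have e : (-1 : ℂ) ^ (a + -1 + (b + -1)) = -1 := by
    rw [show a + -1 + (b + -1) = -1 by omega]; norm_num
  rw [e]
  simp only [neg_mul, smul_mul_assoc, neg_smul, one_smul, neg_neg, mul_assoc, dg_pr, par,
    mul_smul_comm, smul_smul]
  rw [mul_comm (cc n p q), hγ]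

theorem W_prim {p q : ℤ} {r : ℕ} (hr : p + q + r = n) {u : V} (h : G.Ty p q u) (hΛ : G.Λ u = 0) :
    G.W u = (cc n p q * ((-1 : ℂ) ^ r * ((r.factorial : ℂ))⁻¹)) • (G.L ^ r) u := by
  change G.w (G.dg _ u) = _
  rw [h.dg, map_smul, w_prim hr h hΛ, smul_smul]

end GS

namespace PS

variable {n : ℕ} {V : Type*} [AddCommGroup V] [Module ℂ V] (G : PS n V)

/-- the Hermitian product, linear in the first variable -/
def hp (u v : V) : ℂ := G.β u (G.cj (G.W v))

theorem hp_add_right (u v v' : V) : G.hp u (v + v') = G.hp u v + G.hp u v' := by simp [hp]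
theorem hp_smul_left (c : ℂ) (u v : V) : G.hp (c • u) v = c * G.hp u v := by simp [hp]
theorem hp_smul_right (c : ℂ) (u v : V) : G.hp u (c • v) = conj c * G.hp u v := by
  simp [hp, map_smulₛₗ]
theorem hp_sum_left {ι : Type*} (s : Finset ι) (u : ι → V) (v : V) :
    G.hp (∑ i ∈ s, u i) v = ∑ i ∈ s, G.hp (u i) v := by simp [hp, map_sum, LinearMap.sum_apply]
theorem hp_sum_right {ι : Type*} (s : Finset ι) (u : V) (v : ι → V) :
    G.hp u (∑ i ∈ s, v i) = ∑ i ∈ s, G.hp u (v i) := by simp [hp, map_sum]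
theorem hp_zero_left (v : V) : G.hp 0 v = 0 := by simp [hp]
theorem hp_zero_right (u : V) : G.hp u 0 = 0 := by simp [hp]

theorem β_eq_hp (u v : V) : G.β u v = G.hp u (G.WI (G.cj v)) := by
  rw [hp, G.W_WI_apply, G.cj_cj]

theorem cj_dg (c : ℤ → ℤ → ℂ) (u : V) :
    G.cj (G.dg c u) = G.dg (fun p q => conj (c q p)) (G.cj u) := by
  conv_lhs => rw [← G.sum_pr u]
  conv_rhs => rw [← G.sum_pr u]
  simp only [map_sum]
  refine Finset.sum_congr rfl fun x _ => ?_
  rw [(G.ty_pr x.1 x.2 u).dg, map_smulₛₗ, G.cj_pr, (G.ty_pr x.2 x.1 _).dg]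

theorem cj_par (u : V) : G.cj (G.par u) = G.par (G.cj u) := by
  unfold GS.par
  rw [cj_dg]
  congr 2
  funext p q
  simp [add_comm]

theorem β_dg (c : ℤ → ℤ → ℂ) (u v : V) :
    G.β (G.dg c u) v = G.β u (G.dg (fun p q => c (n - p) (n - q)) v) := by
  conv_lhs => rw [← G.sum_pr u]
  conv_rhs => rw [← G.sum_pr u]
  simp only [map_sum, LinearMap.sum_apply]
  refine Finset.sum_congr rfl fun x _ => ?_
  rw [(G.ty_pr x.1 x.2 u).dg, map_smul, LinearMap.smul_apply, G.β_pr, G.β_pr,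
    ← Module.End.mul_apply (G.pr _ _) (G.dg _), G.pr_dg, LinearMap.smul_apply, map_smul]
  simp

theorem β_par (u v : V) : G.β (G.par u) v = G.β u (G.par v) := by
  unfold GS.par
  rw [β_dg]
  congr 3
  funext p q
  rw [neg_one_zpow_eq, neg_one_zpow_eq]
  exact I_zpow_congr (n - p - q) (by ring)

theorem cj_pow {a : Module.End ℂ V} (h : ∀ u, G.cj (a u) = a (G.cj u)) (m : ℕ) (u : V) :
    G.cj ((a ^ m) u) = (a ^ m) (G.cj u) := by
  induction m with
  | zero => rfl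
  | succ m ih => rw [pow_succ', Module.End.mul_apply, Module.End.mul_apply, h, ih]

theorem cj_ex {a : Module.End ℂ V} (ha : IsNilpotent a) (h : ∀ u, G.cj (a u) = a (G.cj u))
    (u : V) : G.cj (ex a u) = ex a (G.cj u) := by
  obtain ⟨k, hk⟩ := ha
  rw [GS.ex_apply hk, GS.ex_apply hk, map_sum]
  refine Finset.sum_congr rfl fun i _ => ?_
  rw [map_smulₛₗ, G.cj_pow h]
  simp

theorem cj_w (u : V) : G.cj (G.w u) = G.w (G.cj u) := by
  change G.cj (ex G.Λ (ex (-G.L) (ex G.Λ u))) = ex G.Λ (ex (-G.L) (ex G.Λ (G.cj u)))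
  rw [G.cj_ex G.tri.nΛ G.cj_Λ, G.cj_ex G.tri.nL.neg (fun u => by simp [G.cj_L]),
    G.cj_ex G.tri.nΛ G.cj_Λ]

theorem cj_W (u : V) : G.cj (G.W u) = G.W (G.cj u) := by
  change G.cj (G.w (G.dg _ u)) = G.w (G.dg _ (G.cj u))
  rw [cj_w, cj_dg]
  simp only [conj_cc]


theorem cj_ty {p q : ℤ} {u : V} (h : G.Ty p q u) : G.Ty q p (G.cj u) := by
  unfold GS.Ty at *; rw [← G.cj_pr, h]

theorem hp_pr (p q : ℤ) (u v : V) : G.hp (G.pr p q u) v = G.hp u (G.pr p q v) := by
  rw [hp, hp, G.β_pr, G.W_pr, G.cj_pr]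

theorem hp_L (u v : V) : G.hp (G.L u) v = G.hp u (G.Λ v) := by
  rw [hp, hp, G.β_L, ← G.cj_L, ← Module.End.mul_apply G.L, G.L_W]; rfl

theorem hp_cj (u v : V) : G.hp (G.cj u) (G.cj v) = conj (G.hp u v) := by
  rw [hp, hp, G.β_cj, cj_W]

theorem adj_gen {a b : ℤ} {X Xb : Module.End ℂ V} (h : G.Sh a b X) (hab : a + b = 1)
    (hL : G.L * X = X * G.L) {γ : ℂ}
    (hγ : ∀ p q, (-1 : ℂ) ^ (p + q) * cc n p q = γ * cc n (p + (a + -1)) (q + (b + -1)))
    (hc : ∀ u, G.cj (X u) = Xb (G.cj u)) {ε : ℝ}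
    (hβ : ∀ u v, G.β (Xb u) v = ε * G.β (G.par u) (Xb v)) (u v : V) :
    G.hp (Xb u) v = G.hp u ((ε * γ) • G.br X v) := by
  rw [mul_smul, hp_smul_right, conj_ofReal, hp, hp, hβ, β_par, ← hc, ← cj_par]
  exact congrArg (fun x => ε * G.β u (G.cj x)) (LinearMap.congr_fun (GS.par_X_W h hab hL hγ) v)

/-- `X` of type `(1,0)` commuting with `L`: the adjoint of `X̄` is `ε i [Λ, X]` -/
theorem adj10 {X Xb : Module.End ℂ V} (h : G.Sh 1 0 X) (hL : G.L * X = X * G.L)
    (hc : ∀ u, G.cj (X u) = Xb (G.cj u)) {ε : ℝ}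
    (hβ : ∀ u v, G.β (Xb u) v = ε * G.β (G.par u) (Xb v)) (u v : V) :
    G.hp (Xb u) v = G.hp u ((ε * I) • G.br X v) :=
  G.adj_gen h (by norm_num) hL (fun p q => by simpa using cc_q n p q) hc hβ u v

/-- `X` of type `(0,1)` commuting with `L`: the adjoint of `X̄` is `- ε i [Λ, X]` -/
theorem adj01 {X Xb : Module.End ℂ V} (h : G.Sh 0 1 X) (hL : G.L * X = X * G.L)
    (hc : ∀ u, G.cj (X u) = Xb (G.cj u)) {ε : ℝ}
    (hβ : ∀ u v, G.β (Xb u) v = ε * G.β (G.par u) (Xb v)) (u v : V) :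
    G.hp (Xb u) v = G.hp u ((ε * -I) • G.br X v) :=
  G.adj_gen h (by norm_num) hL (fun p q => by simpa using cc_p n p q) hc hβ u v

end PS

end

end Crest.Agent.X262.Kah
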