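import Crest.Agent.X262.Kah.FibB
import Crest.Agent.X262.Frm.Grd
import Crest.Agent.X262.Man.Lin
import Crest.Agent.X262.Kah.PS
import Crest.Agent.X262.Frm.Typ

-- ▼ part X262/Kah/FibC
section

/-!
# X262 / Kah (helper60), file FibC: projectors on types, top coefficient

* `pr p q` projector on the forms of type `(p,q)`; `prj_eq` : it is `Frm.prj P p q` for the Hodge
  projection `P`;
* `tpC n` the complex top coefficient, `vol n = ∏ (i dz_a dz̄_a)`, `omg n = ∑ i dz_a dz̄_a`.
-/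

set_option autoImplicit false
set_option linter.unusedSectionVars false
set_option linter.unusedSimpArgs false

open Module Complex
open scoped ComplexConjugate

noncomputable section

namespace Crest.Agent.X262.Kah.Fib

open Crest.Agent.R208.F Crest.Agent.R208.CW
open Crest.Agent.R275.Geo (Cn)

variable {n : ℕ} {p q p' q' : ℕ} {x y : V n}

/-! ### projectors -/

/-- the projector on the forms of type `(p,q)` -/
def pr (p q : ℕ) : Module.End ℂ (V n) :=
  bas.constr ℂ fun S => if tp S = p ∧ tq S = q then bas S else 0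

theorem pr_bas (p q : ℕ) (S : K n) : pr p q (bas S) = if tp S = p ∧ tq S = q then bas S else 0 :=
  bas.constr_basis ℂ _ S

theorem pr_of_mem (hx : x ∈ Ty p q) (p' q' : ℕ) :
    pr p' q' x = if p = p' ∧ q = q' then x else 0 := by
  refine Ty.ind (P := fun x => pr p' q' x = if p = p' ∧ q = q' then x else 0) (by simp)
    (fun _ _ h1 h2 => by rw [map_add, h1, h2]; split_ifs <;> simp)
    (fun _ _ h1 => by rw [map_smul, h1]; split_ifs <;> simp) (fun S h1 h2 => ?_) hx
  rw [pr_bas, h1, h2]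

theorem pr_self (hx : x ∈ Ty p q) : pr p q x = x := by rw [pr_of_mem hx, if_pos ⟨rfl, rfl⟩]

theorem pr_ne (hx : x ∈ Ty p q) (h : ¬ (p = p' ∧ q = q')) : pr p' q' x = 0 := by
  rw [pr_of_mem hx, if_neg h]

/-- induction over homogeneous forms -/
theorem ind_Ty {P : V n → Prop} (h0 : P 0) (hadd : ∀ x y, P x → P y → P (x + y))
    (h : ∀ p q, ∀ x ∈ Ty p q, P x) (x : V n) : P x := by
  rw [← bas.sum_repr x]
  exact Finset.sum_induction _ P hadd h0 fun S _ => h _ _ _ (Submodule.smul_mem _ _ (bas_mem S))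

theorem ext_Ty {W : Type*} [AddCommGroup W] [Module ℂ W] {S T : V n →ₗ[ℂ] W}
    (h : ∀ p q, ∀ x ∈ Ty p q, S x = T x) : S = T := bas.ext fun U => h _ _ _ (bas_mem U)

theorem pr_mem (p q : ℕ) (x : V n) : pr p q x ∈ Ty p q := by
  induction x using ind_Ty with
  | h0 => simp
  | hadd x y hx hy => rw [map_add]; exact Submodule.add_mem _ hx hy
  | h p' q' x hx =>
    rw [pr_of_mem hx]
    split_ifs with h
    · exact h.1 ▸ h.2 ▸ hx
    · exact Submodule.zero_mem _

theorem mem_Ty_iff_pr : x ∈ Ty p q ↔ pr p q x = x := ⟨pr_self, fun h => h ▸ pr_mem p q x⟩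

theorem pr_pr (p q p' q' : ℕ) (x : V n) :
    pr p' q' (pr p q x) = if p = p' ∧ q = q' then pr p q x else 0 := pr_of_mem (pr_mem p q x) p' q'


theorem pr_eq_zero (h : n < p ∨ n < q) : (pr p q : Module.End ℂ (V n)) = 0 :=
  LinearMap.ext fun x => Ty.eq_zero (pr_mem p q x) h

theorem sum_pr : ∑ pq ∈ Finset.range (n + 1) ×ˢ Finset.range (n + 1),
    (pr pq.1 pq.2 : Module.End ℂ (V n)) = 1 := by
  refine bas.ext fun S => ?_
  rw [LinearMap.sum_apply, Finset.sum_eq_single (tp S, tq S)]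
  · exact pr_self (bas_mem S)
  · intro b _ hb
    exact pr_ne (bas_mem S) fun h => hb (Prod.ext h.1.symm h.2.symm)
  · intro h
    have := tp_le S
    have := tq_le S
    simp only [Finset.mem_product, Finset.mem_range] at h
    omega



theorem repr_pr (p q : ℕ) (x : V n) (S : K n) :
    bas.repr (pr p q x) S = if tp S = p ∧ tq S = q then bas.repr x S else 0 := by
  rw [repr_diag (T := pr p q) (f := fun S => if tp S = p ∧ tq S = q then 1 else 0)
    fun S => by rw [pr_bas]; split_ifs <;> simp]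
  split_ifs <;> simp

/-- an additive map raising the type by `(s,t)` -/
theorem pr_up {m s t : ℕ} {T : V m →+ V n} (hT : ∀ p q, ∀ x ∈ Ty p q, T x ∈ Ty (p + s) (q + t))
    (p q : ℕ) (x : V m) : pr (p + s) (q + t) (T x) = T (pr p q x) := by
  induction x using ind_Ty with
  | h0 => simp
  | hadd x y hx hy => simp only [map_add, hx, hy]
  | h p' q' x hx =>
    rw [pr_of_mem (hT _ _ _ hx), pr_of_mem hx]
    simp only [Nat.add_right_cancel_iff]
    split_ifs <;> simp















theorem pr_pbC {m : ℕ} {L : Cn m →ₗ[ℝ] Cn n} (hL : ∀ v, L (I • v) = I • L v) (p q : ℕ) (x : V n) :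
    pr p q (pbC L x) = pbC L (pr p q x) :=
  pr_up (s := 0) (t := 0) (T := (pbC L : V n →+ V m)) (fun _ _ _ h => Ty.pb_mem hL h) p q x



theorem pr_conj (p q : ℕ) (x : V n) : pr p q (Cx.conj x) = Cx.conj (pr q p x) := by
  induction x using ind_Ty with
  | h0 => simp
  | hadd x y hx hy => simp only [map_add, hx, hy]
  | h p' q' x hx =>
    rw [pr_of_mem (Ty.conj_mem hx), pr_of_mem hx]
    simp only [and_comm]
    split_ifs <;> simp

theorem pr_zero_zero (x : V n) : pr 0 0 x = au x • 1 := by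
  induction x using ind_Ty with
  | h0 => simp
  | hadd x y hx hy => simp only [map_add, hx, hy, add_smul]
  | h p q x hx =>
    rw [pr_of_mem hx]
    split_ifs with h
    · obtain ⟨rfl, rfl⟩ := h; exact Ty.eq_au hx
    · rw [Ty.au_eq_zero hx (by omega), zero_smul]

/-! ### comparison with `Frm` -/

theorem cv_eq_ioC {E : Type*} [AddCommGroup E] [Module ℝ E] (l : E →ₗ[ℝ] ℂ) :
    cv l = Frm.ioC l := rfl


section frm
variable {P : Module.End ℂ (Frm.W (Cn n))}

theorem mem_frm (h1 : ∀ a, P (zc a) = zc a) (h2 : ∀ a, P (zcb a) = 0) (hx : x ∈ Ty p q) :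
    x ∈ Frm.Ty P p q := by
  have key : ∀ l : List (Ix n), mon l ∈ Frm.Ty P (l.countP Sum.isLeft) (l.countP Sum.isRight) := by
    intro l
    induction l with
    | nil => exact Frm.Ty_one P
    | cons i l ih =>
      rw [mon_cons]
      rcases i with a | a
      · simpa [List.countP_cons, add_comm, dz, cv_eq_ioC] using Frm.Ty_mul (Frm.Ty_ioC_10 (h1 a)) ih
      · simpa [List.countP_cons, add_comm, dzb, cv_eq_ioC] using Frm.Ty_mul (Frm.Ty_ioC_01 (h2 a)) ih
  refine Ty.ind (P := fun x => x ∈ Frm.Ty P p q) (Submodule.zero_mem _)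
    (fun _ _ => Submodule.add_mem _) (fun _ _ => Submodule.smul_mem _ _) (fun S k1 k2 => ?_) hx
  have := key S.toList
  rwa [(bas_countP S).1, (bas_countP S).2, k1, k2, ← bas_apply] at this

theorem prj_eq (h1 : ∀ a, P (zc a) = zc a) (h2 : ∀ a, P (zcb a) = 0) (p q : ℕ) :
    Frm.prj P p q = pr p q :=
  ext_Ty fun _ _ _ hx => by rw [Frm.prj_of_mem (mem_frm h1 h2 hx), pr_of_mem hx]

theorem frm_Ty_eq (h1 : ∀ a, P (zc a) = zc a) (h2 : ∀ a, P (zcb a) = 0) (p q : ℕ) :
    Frm.Ty P p q = Ty p q := by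
  ext x
  refine ⟨fun h => ?_, mem_frm h1 h2⟩
  rw [mem_Ty_iff_pr, ← prj_eq h1 h2, Frm.prj_self h]

end frm

/-! ### the top coefficient -/

variable (n) in
/-- the coefficient of `dx₀ dy₀ dx₁ dy₁ ⋯` -/
def tpC : V n →ₗ[ℂ] ℂ where
  toFun c := ⟨Man.topC n c.re, Man.topC n c.im⟩
  map_add' a b := by apply Complex.ext <;> simp
  map_smul' z a := by apply Complex.ext <;> simp

@[simp] theorem tpC_re (c : V n) : (tpC n c).re = Man.topC n c.re := rfl
@[simp] theorem tpC_im (c : V n) : (tpC n c).im = Man.topC n c.im := rfl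

theorem tpC_ofR (r : Ext (Cn n)) : tpC n (Cx.ofR r) = Man.topC n r := by
  apply Complex.ext <;> simp

theorem finrank_Cn : finrank ℝ (Cn n) = 2 * n := by
  rw [← (Man.cL0 n).finrank_eq, finrank_euclideanSpace, Fintype.card_fin]

theorem topC_ii (v : Cn n) (c : Ext (Cn n)) : Man.topC n (ii v c) = 0 := by
  rw [Man.topC_apply, top_pb, ← evA_ii]
  refine AlternatingMap.map_linearDependent _ _ fun h => ?_
  have := h.fintype_card_le_finrank
  rw [finrank_Cn, Fintype.card_fin] at this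
  omega

theorem tpC_ic (v : Cn n) (c : V n) : tpC n (ic v c) = 0 := by
  apply Complex.ext <;> simp [topC_ii]

theorem tpC_ct (i : Ix n) (c : V n) : tpC n (ct i c) = 0 := by
  obtain ⟨s, t, v, w, h⟩ := ct_eq i
  simp [h, tpC_ic]


theorem tpC_conj (c : V n) : tpC n (Cx.conj c) = conj (tpC n c) := by
  apply Complex.ext <;> simp

theorem tpC_pbC_real (L : Cn n →ₗ[ℝ] Cn n) (c : V n) :
    tpC n (pbC L c) = (LinearMap.det L : ℝ) * tpC n c := by
  apply Complex.ext <;> simp [Man.topC_pb]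

theorem tpC_pbC (L : Cn n →ₗ[ℂ] Cn n) (c : V n) :
    tpC n (pbC (L.restrictScalars ℝ) c) = (normSq (LinearMap.det L) : ℝ) * tpC n c := by
  rw [tpC_pbC_real, LinearMap.det_restrictScalars, Algebra.norm_complex_apply]

theorem tpC_bas {S : K n} (h : S ≠ Finset.univ) : tpC n (bas S) = 0 := by
  obtain ⟨i, hi⟩ : ∃ i, i ∉ S := by
    by_contra hh
    exact h (Finset.eq_univ_of_forall fun i => by_contra fun hi => hh ⟨i, hi⟩)
  rw [bas_apply, ← ct_mon_cons (i := i) (by simpa using hi), tpC_ct]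

theorem tpC_eq_repr (c : V n) : tpC n c = bas.repr c Finset.univ * tpC n (bas Finset.univ) := by
  conv_lhs => rw [← bas.sum_repr c, map_sum]
  rw [Finset.sum_eq_single Finset.univ]
  · simp
  · intro S _ h; rw [map_smul, tpC_bas h, smul_zero]
  · simp

theorem tpC_pr (c : V n) : tpC n (pr n n c) = tpC n c := by
  rw [tpC_eq_repr, repr_pr, if_pos ⟨tp_univ, tq_univ⟩, ← tpC_eq_repr]

theorem tpC_of_mem (hx : x ∈ Ty p q) (h : ¬ (p = n ∧ q = n)) : tpC n x = 0 := by
  rw [← tpC_pr, pr_ne hx h, map_zero]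





theorem tpC_th_mul (i : Ix n) (x y : V n) : tpC n (th i * x * y) = tpC n (invC x * (th i * y)) := by
  rw [th_mul, mul_assoc]

theorem I_dz_dzb (a : Fin n) : I • (dz a * dzb a) = (2 : ℂ) • Cx.ofR (Man.sq (Man.zc a)) := by
  have h := Man.dz_cj_mul (Man.zc a)
  have h1 : dzb a * dz a = ⟨0, (2 : ℝ) • Man.sq (Man.zc a)⟩ := h
  have h2 : dz a * dzb a = - (dzb a * dz a) := th_anti (.inl a) (.inr a)
  rw [h2, h1]
  refine Cx.ext ?_ ?_
  · rw [Cx.csmul_re, Cx.csmul_re]; simp
  · rw [Cx.csmul_im, Cx.csmul_im]; simp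

variable (n) in
/-- the standard Kähler form `∑ i dz_a dz̄_a = 2 ∑ dx_a dy_a` -/
def omg : V n := ∑ a, I • (dz a * dzb a)

variable (n) in
/-- the volume form `∏ i dz_a dz̄_a` -/
def vol : V n := (List.ofFn fun a : Fin n => I • (dz a * dzb a)).prod

theorem omg_eq : omg n = (2 : ℂ) • Cx.ofR (Man.om0 n) := by
  simp only [omg, I_dz_dzb, Man.om0, Man.herm, map_sum, Finset.smul_sum]

theorem I_dz_dzb_mem (a : Fin n) : I • (dz a * dzb a) ∈ Ty 1 1 :=
  Submodule.smul_mem _ _ (by simpa using Ty.mul (dz_mem a) (dzb_mem a))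



theorem omg_pow : omg n ^ n = (n.factorial : ℂ) • vol n ∧ omg n ^ (n + 1) = 0 := by
  have h := Man.sum_pow_length (List.ofFn fun a : Fin n => I • (dz a * dzb a))
    (fun u hu => by
      obtain ⟨a, rfl⟩ := List.mem_ofFn.1 hu
      refine even_commC ?_
      rw [Ty.invC_eq (I_dz_dzb_mem a)]; simp)
    (fun u hu => by
      obtain ⟨a, rfl⟩ := List.mem_ofFn.1 hu
      have h : mon [Sum.inl a, .inr a, .inl a, .inr a] = 0 := mon_eq_zero (by simp)
      simp only [mon_cons, mon_nil, mul_one, th_inl, th_inr] at h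
      rw [smul_mul_assoc, mul_smul_comm, mul_assoc, h, smul_zero, smul_zero])
  rw [List.length_ofFn, List.sum_ofFn] at h
  rw [Nat.cast_smul_eq_nsmul]
  exact h

theorem tpC_omg_pow : tpC n (omg n ^ n) = 2 ^ n * n.factorial := by
  rw [omg_eq, smul_pow, map_smul, ← map_pow, tpC_ofR, Man.topC_om0_pow, smul_eq_mul]
  norm_cast

theorem tpC_vol : tpC n (vol n) = 2 ^ n := by
  have h := tpC_omg_pow (n := n)
  rw [omg_pow.1, map_smul, smul_eq_mul, mul_comm] at h
  exact mul_right_cancel₀ (by exact_mod_cast n.factorial_ne_zero) h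




theorem tpC_univ_ne : tpC n (bas Finset.univ) ≠ 0 := fun h => by
  have := tpC_vol (n := n)
  rw [tpC_eq_repr, h, mul_zero] at this
  exact pow_ne_zero n two_ne_zero this.symm





theorem tpC_bas_mul_ne {S T : K n} (h : T ≠ S) : tpC n (bas T * bas Sᶜ) = 0 := by
  rw [bas_apply, bas_apply, ← mon_append]
  by_cases hl : (T.toList ++ Sᶜ.toList).Nodup
  · obtain ⟨s, -, hs⟩ := mon_eq_bas hl
    rw [hs, map_smul, tpC_bas, smul_zero]
    intro hu
    refine h (Finset.ext fun i => ⟨fun hi => ?_, fun hi => ?_⟩)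
    · by_contra hS
      exact List.disjoint_of_nodup_append hl (by simpa using hi : i ∈ T.toList) (by simpa using hS)
    · have : i ∈ (T.toList ++ Sᶜ.toList).toFinset := hu ▸ Finset.mem_univ i
      simpa [hi] using this
  · rw [mon_eq_zero hl, map_zero]

theorem tpC_bas_mul_self (S : K n) : tpC n (bas S * bas Sᶜ) ≠ 0 := by
  rw [bas_apply, bas_apply, ← mon_append]
  have hl : (S.toList ++ Sᶜ.toList).Nodup :=
    List.nodup_append.2 ⟨S.nodup_toList, Sᶜ.nodup_toList, fun a ha b hb hab => by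
      subst hab; simp at ha hb; exact hb ha⟩
  obtain ⟨s, hs, h⟩ := mon_eq_bas hl
  have hu : (S.toList ++ Sᶜ.toList).toFinset = Finset.univ := by simp
  rw [h, hu, map_smul]
  refine smul_ne_zero (fun h0 => ?_) tpC_univ_ne
  rw [h0, mul_zero] at hs
  exact zero_ne_one hs

/-- the top pairing is non-degenerate -/
theorem eq_zero_of_tpC (h : ∀ y, tpC n (x * y) = 0) : x = 0 := by
  refine bas.ext_elem fun S => ?_
  have := h (bas Sᶜ)
  rw [← bas.sum_repr x, Finset.sum_mul, map_sum, Finset.sum_eq_single S] at this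
  · rw [smul_mul_assoc, map_smul] at this
    simpa using (smul_eq_zero.1 this).resolve_right (tpC_bas_mul_self S)
  · intro T _ hT; rw [smul_mul_assoc, map_smul, tpC_bas_mul_ne hT, smul_zero]
  · simp

end Crest.Agent.X262.Kah.Fib
end
namespace Crest.Agent.X262.Kah.Fib.Ty
end Crest.Agent.X262.Kah.Fib.Ty
end

-- ▼ part X262/Kah/Fk
section

/-!
# X262 / Kah (helper20), file Fk: Fock modules and the pointwise Hermitian product

* `Fk n V`     : creation / annihilation operators, types, conjugation, pairing, vacuum;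
* `Lg g`, `Lam g` : `L = i ∑ g_{ab} e_a ē_b`, `Λ = - i ∑ (g⁻¹)_{dc} ī_d i_c`;
* `ps hg`      : the paired Lefschetz module of a positive definite matrix `g`;
* `hp_herm`, `hp_pos` : its Hermitian product is positive definite.
-/

set_option autoImplicit false
set_option linter.unusedSectionVars false

open Finset Complex
open scoped ComplexConjugate ComplexOrder Matrix MatrixOrder

namespace Crest.Agent.X262.Kah

noncomputable section

/-- Fock module -/
structure Fk (n : ℕ) (V : Type*) [AddCommGroup V] [Module ℂ V] where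
  pr : ℤ → ℤ → Module.End ℂ V
  pr_pr : ∀ p q, pr p q * pr p q = pr p q
  pr_ne : ∀ p q p' q', (p, q) ≠ (p', q') → pr p q * pr p' q' = 0
  pr_out : ∀ p q, (p, q) ∉ box n → pr p q = 0
  pr_sum : ∑ x ∈ box n, pr x.1 x.2 = 1
  e : Fin n → Module.End ℂ V
  eb : Fin n → Module.End ℂ V
  i : Fin n → Module.End ℂ V
  ib : Fin n → Module.End ℂ V
  e_pr : ∀ a p q, e a * pr p q = pr (p + 1) q * e a
  eb_pr : ∀ a p q, eb a * pr p q = pr p (q + 1) * eb a
  i_pr : ∀ a p q, i a * pr p q = pr (p + -1) q * i a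
  ib_pr : ∀ a p q, ib a * pr p q = pr p (q + -1) * ib a
  e_e : ∀ a b, e a * e b + e b * e a = 0
  e_eb : ∀ a b, e a * eb b + eb b * e a = 0
  eb_eb : ∀ a b, eb a * eb b + eb b * eb a = 0
  i_ib : ∀ a b, i a * ib b + ib b * i a = 0
  e_i : ∀ a b, e a * i b + i b * e a = if a = b then 1 else 0
  eb_ib : ∀ a b, eb a * ib b + ib b * eb a = if a = b then 1 else 0
  e_ib : ∀ a b, e a * ib b + ib b * e a = 0
  eb_i : ∀ a b, eb a * i b + i b * eb a = 0
  num : ∀ p q, (∑ a, e a * i a) * pr p q = (p : ℂ) • pr p q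
  numb : ∀ p q, (∑ a, eb a * ib a) * pr p q = (q : ℂ) • pr p q
  cj : V →ₛₗ[starRingEnd ℂ] V
  cj_cj : ∀ u, cj (cj u) = u
  cj_pr : ∀ p q u, cj (pr p q u) = pr q p (cj u)
  cj_e : ∀ a u, cj (e a u) = eb a (cj u)
  cj_i : ∀ a u, cj (i a u) = ib a (cj u)
  β : V →ₗ[ℂ] V →ₗ[ℂ] ℂ
  β_pr : ∀ p q u v, β (pr p q u) v = β u (pr (n - p) (n - q) v)
  β_cj : ∀ u v, β (cj u) (cj v) = conj (β u v)
  β_e : ∀ a u v, β (e a u) v = β ((∑ x ∈ box n, (-1 : ℂ) ^ (x.1 + x.2) • pr x.1 x.2) u) (e a v)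
  β_eb : ∀ a u v, β (eb a u) v = β ((∑ x ∈ box n, (-1 : ℂ) ^ (x.1 + x.2) • pr x.1 x.2) u) (eb a v)
  vac : V
  cj_vac : cj vac = vac
  pr_vac : pr 0 0 vac = vac
  span_vac : ∀ u, ∃ c : ℂ, pr 0 0 u = c • vac
  vol : ∀ g : Matrix (Fin n) (Fin n) ℂ, g.PosDef →
    0 < β vac (((I • ∑ a, ∑ b, g a b • (e a * eb b)) ^ n) vac)

namespace Fk

variable {n : ℕ} {V : Type*} [AddCommGroup V] [Module ℂ V] (F : Fk n V)

/-- exterior multiplication by `ω = i ∑ g_{ab} dz_a ∧ dz̄_b` -/
def Lg (g : Matrix (Fin n) (Fin n) ℂ) : Module.End ℂ V := I • ∑ a, ∑ b, g a b • (F.e a * F.eb b)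

/-- the dual Lefschetz operator -/
def Lam (g : Matrix (Fin n) (Fin n) ℂ) : Module.End ℂ V :=
  (-I) • ∑ d, ∑ c, g⁻¹ d c • (F.ib d * F.i c)

theorem cj_eb (a : Fin n) (u : V) : F.cj (F.eb a u) = F.e a (F.cj u) := by
  conv_lhs => rw [← F.cj_cj u, ← F.cj_e, F.cj_cj]

theorem cj_ib (a : Fin n) (u : V) : F.cj (F.ib a u) = F.i a (F.cj u) := by
  conv_lhs => rw [← F.cj_cj u, ← F.cj_i, F.cj_cj]

theorem ibi_e (d c a : Fin n) :
    F.ib d * F.i c * F.e a - F.e a * (F.ib d * F.i c) = if a = c then F.ib d else 0 := by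
  have h1 : F.i c * F.e a = (if a = c then 1 else 0) - F.e a * F.i c := by
    rw [← F.e_i a c]; abel
  have h2 : F.ib d * F.e a = - (F.e a * F.ib d) := eq_neg_of_add_eq_zero_right (F.e_ib a d)
  rw [mul_assoc, h1, mul_sub, ← mul_assoc (F.ib d), h2]
  split_ifs <;> noncomm_ring

theorem ibi_eb (d c b : Fin n) :
    F.ib d * F.i c * F.eb b - F.eb b * (F.ib d * F.i c) = if b = d then - F.i c else 0 := by
  have h1 : F.i c * F.eb b = - (F.eb b * F.i c) := eq_neg_of_add_eq_zero_right (F.eb_i b c)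
  have h2 : F.ib d * F.eb b = (if b = d then 1 else 0) - F.eb b * F.ib d := by
    rw [← F.eb_ib b d]; abel
  rw [mul_assoc, h1, mul_neg, ← mul_assoc (F.ib d), h2]
  split_ifs <;> noncomm_ring

theorem Lam_e (g : Matrix (Fin n) (Fin n) ℂ) (a : Fin n) :
    F.Lam g * F.e a - F.e a * F.Lam g = (-I) • ∑ d, g⁻¹ d a • F.ib d := by
  unfold Lam
  rw [smul_mul_assoc, mul_smul_comm, ← smul_sub, Finset.sum_mul, Finset.mul_sum,
    ← Finset.sum_sub_distrib]
  congr 1
  refine Finset.sum_congr rfl fun d _ => ?_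
  rw [Finset.sum_mul, Finset.mul_sum, ← Finset.sum_sub_distrib]
  simp only [smul_mul_assoc, mul_smul_comm, ← smul_sub, ibi_e]
  rw [Finset.sum_eq_single a (fun c _ h => by rw [if_neg (Ne.symm h), smul_zero]) (by simp),
    if_pos rfl]

theorem Lam_eb (g : Matrix (Fin n) (Fin n) ℂ) (b : Fin n) :
    F.Lam g * F.eb b - F.eb b * F.Lam g = I • ∑ c, g⁻¹ b c • F.i c := by
  unfold Lam
  rw [smul_mul_assoc, mul_smul_comm, ← smul_sub, Finset.sum_mul, Finset.mul_sum,
    ← Finset.sum_sub_distrib, neg_smul, ← smul_neg]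
  congr 1
  rw [Finset.sum_eq_single b _ (by simp)]
  · rw [Finset.sum_mul, Finset.mul_sum, ← Finset.sum_sub_distrib]
    simp only [smul_mul_assoc, mul_smul_comm, ← smul_sub, ibi_eb, if_true, smul_neg,
      Finset.sum_neg_distrib, neg_neg]
  · intro d _ h
    rw [Finset.sum_mul, Finset.mul_sum, ← Finset.sum_sub_distrib]
    simp only [smul_mul_assoc, mul_smul_comm, ← smul_sub, ibi_eb, if_neg (Ne.symm h), smul_zero,
      Finset.sum_const_zero]


theorem Lg_eb (g : Matrix (Fin n) (Fin n) ℂ) (c : Fin n) : F.Lg g * F.eb c = F.eb c * F.Lg g := by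
  unfold Lg
  simp only [smul_mul_assoc, mul_smul_comm, Finset.sum_mul, Finset.mul_sum]
  congr 1
  refine Finset.sum_congr rfl fun a _ => Finset.sum_congr rfl fun b _ => ?_
  have h1 : F.eb b * F.eb c = - (F.eb c * F.eb b) := eq_neg_of_add_eq_zero_left (F.eb_eb b c)
  have h2 : F.e a * F.eb c = - (F.eb c * F.e a) := eq_neg_of_add_eq_zero_left (F.e_eb a c)
  rw [mul_assoc, h1, mul_neg, ← mul_assoc, h2]
  noncomm_ring

theorem Lg_Lam {g : Matrix (Fin n) (Fin n) ℂ} (hg : IsUnit g.det) :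
    F.Lg g * F.Lam g - F.Lam g * F.Lg g =
      ∑ a, F.e a * F.i a + ∑ a, F.eb a * F.ib a - (n : ℂ) • 1 := by
  have key : ∀ a b, F.e a * F.eb b * F.Lam g - F.Lam g * (F.e a * F.eb b) =
      I • ((∑ d, g⁻¹ d a • F.ib d) * F.eb b) - I • (F.e a * ∑ c, g⁻¹ b c • F.i c) := by
    intro a b
    have : F.e a * F.eb b * F.Lam g - F.Lam g * (F.e a * F.eb b) =
        - ((F.Lam g * F.e a - F.e a * F.Lam g) * F.eb b) -
          F.e a * (F.Lam g * F.eb b - F.eb b * F.Lam g) := by noncomm_ring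
    rw [this, Lam_e, Lam_eb, smul_mul_assoc, mul_smul_comm, neg_smul, neg_neg]
  have s1 : ∑ a, ∑ b, g a b • ((∑ d, g⁻¹ d a • F.ib d) * F.eb b) = ∑ b, F.ib b * F.eb b := by
    rw [Finset.sum_comm]
    refine Finset.sum_congr rfl fun b _ => ?_
    simp only [Finset.sum_mul, smul_mul_assoc, Finset.smul_sum, smul_smul]
    rw [Finset.sum_comm]
    simp only [← Finset.sum_smul, mul_comm (g _ b), ← Matrix.mul_apply, Matrix.nonsing_inv_mul _ hg,
      Matrix.one_apply]
    simp
  have s2 : ∑ a, ∑ b, g a b • (F.e a * ∑ c, g⁻¹ b c • F.i c) = ∑ a, F.e a * F.i a := by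
    refine Finset.sum_congr rfl fun a _ => ?_
    simp only [Finset.mul_sum, mul_smul_comm, Finset.smul_sum, smul_smul]
    rw [Finset.sum_comm]
    simp only [← Finset.sum_smul, ← Matrix.mul_apply, Matrix.mul_nonsing_inv _ hg,
      Matrix.one_apply]
    simp
  have s3 : ∑ b, F.ib b * F.eb b = (n : ℂ) • 1 - ∑ a, F.eb a * F.ib a := by
    rw [eq_sub_iff_add_eq, ← Finset.sum_add_distrib]
    simp only [add_comm (F.ib _ * _), F.eb_ib, if_true]
    simp [Nat.cast_smul_eq_nsmul]
  have e1 : F.Lg g * F.Lam g - F.Lam g * F.Lg g = I • ∑ a, ∑ b, g a b •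
      (F.e a * F.eb b * F.Lam g - F.Lam g * (F.e a * F.eb b)) := by
    unfold Lg
    simp only [smul_mul_assoc, mul_smul_comm, Finset.sum_mul, Finset.mul_sum, smul_sub,
      Finset.sum_sub_distrib]
  rw [e1]
  simp only [key, smul_sub, Finset.sum_sub_distrib, smul_comm (g _ _) I, ← Finset.smul_sum]
  rw [s1, s2, s3]
  simp only [smul_smul I I, I_mul_I]
  module

/-- the Lefschetz module of an invertible matrix -/
def gs {g : Matrix (Fin n) (Fin n) ℂ} (hg : IsUnit g.det) : GS n V where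
  pr := F.pr
  pr_pr := F.pr_pr
  pr_ne := F.pr_ne
  pr_out := F.pr_out
  pr_sum := F.pr_sum
  L := F.Lg g
  Λ := F.Lam g
  L_pr p q := by
    unfold Lg
    simp only [smul_mul_assoc, mul_smul_comm, Finset.sum_mul, Finset.mul_sum, mul_assoc, F.eb_pr]
    simp only [← mul_assoc, F.e_pr]
  Λ_pr p q := by
    unfold Lam
    simp only [smul_mul_assoc, mul_smul_comm, Finset.sum_mul, Finset.mul_sum, mul_assoc, F.i_pr]
    simp only [← mul_assoc, F.ib_pr]
  comm p q := by
    rw [F.Lg_Lam hg, sub_mul, add_mul, F.num, F.numb, smul_mul_assoc, one_mul]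
    push_cast
    module

theorem det_unit {g : Matrix (Fin n) (Fin n) ℂ} (hg : g.PosDef) : IsUnit g.det :=
  (Matrix.isUnit_iff_isUnit_det g).1 hg.isUnit

variable {g : Matrix (Fin n) (Fin n) ℂ}

theorem sh_eb (hg : IsUnit g.det) (a : Fin n) : (F.gs hg).Sh 0 1 (F.eb a) := fun p q => by
  rw [add_zero]; exact F.eb_pr a p q
theorem sh_i (hg : IsUnit g.det) (a : Fin n) : (F.gs hg).Sh (-1) 0 (F.i a) := fun p q => by
  rw [add_zero]; exact F.i_pr a p q

/-- the paired Lefschetz module of a positive definite matrix -/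
def ps (hg : g.PosDef) : PS n V where
  toGS := F.gs (det_unit hg)
  cj := F.cj
  cj_cj := F.cj_cj
  cj_pr := F.cj_pr
  cj_L u := by
    change F.cj (F.Lg g u) = F.Lg g (F.cj u)
    unfold Lg
    simp only [LinearMap.smul_apply, LinearMap.sum_apply, map_smulₛₗ, map_sum, conj_I,
      Module.End.mul_apply, F.cj_e, F.cj_eb]
    rw [Finset.sum_comm, neg_smul, ← smul_neg, ← Finset.sum_neg_distrib]
    congr 1
    refine Finset.sum_congr rfl fun a _ => ?_
    rw [← Finset.sum_neg_distrib]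
    refine Finset.sum_congr rfl fun b _ => ?_
    have h1 := LinearMap.congr_fun (eq_neg_of_add_eq_zero_left (F.e_eb a b)) (F.cj u)
    rw [Module.End.mul_apply] at h1
    rw [h1, show conj (g b a) = g a b from hg.isHermitian.apply a b]
    simp
  cj_Λ u := by
    change F.cj (F.Lam g u) = F.Lam g (F.cj u)
    unfold Lam
    simp only [LinearMap.smul_apply, LinearMap.sum_apply, map_smulₛₗ, map_sum, conj_I, map_neg,
      Module.End.mul_apply, F.cj_i, F.cj_ib, neg_neg]
    rw [Finset.sum_comm, neg_smul, ← smul_neg, ← Finset.sum_neg_distrib]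
    congr 1
    refine Finset.sum_congr rfl fun a _ => ?_
    rw [← Finset.sum_neg_distrib]
    refine Finset.sum_congr rfl fun b _ => ?_
    have h1 := LinearMap.congr_fun (eq_neg_of_add_eq_zero_right (F.i_ib b a)) (F.cj u)
    rw [Module.End.mul_apply] at h1
    rw [h1, show conj (g⁻¹ b a) = g⁻¹ a b from hg.inv.isHermitian.apply a b]
    simp
  β := F.β
  β_pr := F.β_pr
  β_L u v := by
    change F.β (F.Lg g u) v = F.β u (F.Lg g v)
    unfold Lg
    simp only [LinearMap.smul_apply, LinearMap.sum_apply, map_smul, map_sum, Module.End.mul_apply]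
    congr 1
    refine Finset.sum_congr rfl fun a _ => Finset.sum_congr rfl fun b _ => ?_
    congr 1
    set G := F.gs (det_unit hg)
    have h1 : G.par (F.eb b u) = - F.eb b (G.par u) := by
      have := LinearMap.congr_fun (F.sh_eb (det_unit hg) b).par u
      simpa using this
    have h2 : G.par (G.par u) = u := by
      rw [← Module.End.mul_apply, GS.par, G.dg_mul]
      simp only [← mul_zpow]
      simp [G.dg_one]
    have h3 := LinearMap.congr_fun (eq_neg_of_add_eq_zero_left (F.e_eb a b)) v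
    rw [Module.End.mul_apply] at h3
    rw [F.β_e, h3]
    change F.β (G.par (F.eb b u)) _ = _
    rw [h1, map_neg, LinearMap.neg_apply, F.β_eb]
    change - F.β (G.par (G.par u)) _ = _
    rw [h2]
    simp
  β_cj := F.β_cj

theorem hp_e (hg : g.PosDef) (b : Fin n) (u v : V) :
    (F.ps hg).hp (F.e b u) v = (F.ps hg).hp u (∑ c, g⁻¹ b c • F.i c v) := by
  have := (F.ps hg).adj01 (X := F.eb b) (Xb := F.e b) (F.sh_eb (det_unit hg) b) (F.Lg_eb g b) (F.cj_eb b)
    (ε := 1) (fun u v => by rw [ofReal_one, one_mul]; exact F.β_e b u v) u v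
  rw [this]
  congr 1
  have h : (F.ps hg).br (F.eb b) = I • ∑ c, g⁻¹ b c • F.i c := F.Lam_eb g b
  rw [h, LinearMap.smul_apply, smul_smul]
  simp [LinearMap.sum_apply]

theorem hp_vac (hg : g.PosDef) : 0 < (F.ps hg).hp F.vac F.vac := by
  have h0 : (F.ps hg).Ty 0 0 F.vac := F.pr_vac
  have hΛ : (F.ps hg).Λ F.vac = 0 :=
    ((F.ps hg).sh_Λ.ty h0).eq_zero fun hb => by have := (mem_box.1 hb).1.1; simp at this
  rw [PS.hp, GS.W_prim (r := n) (by simp) h0 hΛ, map_smulₛₗ,
    (F.ps hg).cj_pow (F.ps hg).cj_L, map_smul]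
  have e : conj (cc n 0 0 * ((-1 : ℂ) ^ n * ((n.factorial : ℂ))⁻¹)) =
      (((n.factorial : ℝ)⁻¹ : ℝ) : ℂ) := by
    simp [cc, ← mul_assoc, ← mul_pow]
  rw [e, show (F.ps hg).cj F.vac = F.vac from F.cj_vac, smul_eq_mul]
  refine mul_pos ?_ (F.vol g hg)
  exact_mod_cast inv_pos.2 (Nat.cast_pos.2 n.factorial_pos : (0 : ℝ) < n.factorial)

theorem hp_step (hg : g.PosDef) {C : Matrix (Fin n) (Fin n) ℂ} (hC : g⁻¹ = Cᴴ * C) {p q : ℤ}
    {u : V} (hu : (F.ps hg).Ty p q u) (v : V) :
    (p : ℂ) * (F.ps hg).hp u v =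
      ∑ k, (F.ps hg).hp (∑ b, C k b • F.i b u) (∑ b, C k b • F.i b v) := by
  have h1 := LinearMap.congr_fun (F.num p q) u
  rw [Module.End.mul_apply, LinearMap.smul_apply, show F.pr p q u = u from hu,
    LinearMap.sum_apply] at h1
  rw [← PS.hp_smul_left, ← h1, PS.hp_sum_left]
  simp only [Module.End.mul_apply, hp_e, PS.hp_sum_left, PS.hp_sum_right, PS.hp_smul_left,
    PS.hp_smul_right, hC, Matrix.mul_apply, Matrix.conjTranspose_apply, map_sum, Finset.sum_mul,
    Finset.mul_sum]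
  rw [Finset.sum_comm]
  conv_rhs => rw [Finset.sum_comm]
  refine Finset.sum_congr rfl fun c _ => ?_
  rw [Finset.sum_comm]
  refine Finset.sum_congr rfl fun k _ => Finset.sum_congr rfl fun b _ => ?_
  simp only [map_mul, RCLike.star_def, conj_conj]
  ring

theorem hp_ty (hg : g.PosDef) (k : ℕ) : ∀ p q : ℤ, p + q = k → ∀ u, (F.ps hg).Ty p q u →
    (∀ v, (F.ps hg).Ty p q v → (F.ps hg).hp v u = conj ((F.ps hg).hp u v)) ∧
      (u ≠ 0 → 0 < (F.ps hg).hp u u) := by
  obtain ⟨C, hC⟩ := CStarAlgebra.nonneg_iff_eq_star_mul_self.mp hg.inv.posSemidef.nonneg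
  rw [Matrix.star_eq_conjTranspose] at hC
  have hCu : IsUnit C.det := by
    have := det_unit hg.inv
    rw [hC, Matrix.det_mul] at this
    exact isUnit_of_mul_isUnit_right this
  set G := F.ps hg with hG
  induction k with
  | zero =>
    intro p q hpq u hu
    by_cases hb : (p, q) ∈ box n
    swap
    · rw [hu.eq_zero hb]
      exact ⟨fun v _ => by simp [PS.hp_zero_left, PS.hp_zero_right], fun h => absurd rfl h⟩
    rw [mem_box] at hb
    obtain rfl : p = 0 := by omega
    obtain rfl : q = 0 := by omega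
    obtain ⟨c, hc⟩ := F.span_vac u
    rw [show F.pr 0 0 u = u from hu] at hc
    have hv := F.hp_vac hg
    rw [← hG] at hv
    refine ⟨fun v hv' => ?_, fun hne => ?_⟩
    · obtain ⟨c', hc'⟩ := F.span_vac v
      rw [show F.pr 0 0 v = v from hv'] at hc'
      rw [hc, hc']
      simp only [PS.hp_smul_left, PS.hp_smul_right, map_mul, conj_conj]
      rw [conj_eq_iff_im.2 (Complex.pos_iff.1 hv).2.symm]
      ring
    · rw [hc, PS.hp_smul_left, PS.hp_smul_right, ← mul_assoc, mul_conj]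
      refine mul_pos ?_ hv
      have : c ≠ 0 := fun h => hne (by rw [hc, h, zero_smul])
      exact_mod_cast normSq_pos.2 this
  | succ k ih =>
    have main : ∀ p q : ℤ, p + q = (k + 1 : ℕ) → 0 < p → ∀ u, G.Ty p q u →
        (∀ v, G.Ty p q v → G.hp v u = conj (G.hp u v)) ∧ (u ≠ 0 → 0 < G.hp u u) := by
      intro p q hpq hp u hu
      have hty : ∀ {v}, G.Ty p q v → ∀ j, G.Ty (p + -1) q (∑ b, C j b • F.i b v) := by
        intro v hv j
        refine Finset.sum_induction _ _ (fun _ _ => GS.Ty.add) (GS.Ty.zero _ _) fun b _ => ?_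
        have := ((F.sh_i (det_unit hg) b).ty hv).smul (C j b)
        rw [add_zero] at this
        exact this
      have hk : p + -1 + q = k := by push_cast at hpq; omega
      have hp0 : (p : ℂ) ≠ 0 := by exact_mod_cast hp.ne'
      refine ⟨fun v hv => ?_, fun hne => ?_⟩
      · apply mul_left_cancel₀ hp0
        have e : (p : ℂ) * conj (G.hp u v) = conj ((p : ℂ) * G.hp u v) := by simp
        rw [e, F.hp_step hg hC hu, F.hp_step hg hC hv, map_sum]
        exact Finset.sum_congr rfl fun j _ => (ih _ _ hk _ (hty hu j)).1 _ (hty hv j)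
      · have h1 : 0 < (p : ℂ) * G.hp u u := by
          rw [F.hp_step hg hC hu]
          have hnn : ∀ j, 0 ≤ G.hp (∑ b, C j b • F.i b u) (∑ b, C j b • F.i b u) := by
            intro j
            by_cases h0 : ∑ b, C j b • F.i b u = 0
            · rw [h0, PS.hp_zero_left]
            · exact ((ih _ _ hk _ (hty hu j)).2 h0).le
          by_cases hall : ∀ j, ∑ b, C j b • F.i b u = 0
          · exfalso
            have hi : ∀ a, F.i a u = 0 := by
              intro a
              have : ∑ j, C⁻¹ a j • ∑ b, C j b • F.i b u = F.i a u := by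
                simp only [Finset.smul_sum, smul_smul]
                rw [Finset.sum_comm]
                simp only [← Finset.sum_smul, ← Matrix.mul_apply, Matrix.nonsing_inv_mul _ hCu,
                  Matrix.one_apply]
                simp
              rw [← this]
              simp [hall]
            have h1 := LinearMap.congr_fun (F.num p q) u
            rw [Module.End.mul_apply, LinearMap.smul_apply, show F.pr p q u = u from hu,
              LinearMap.sum_apply] at h1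
            simp only [Module.End.mul_apply, hi, map_zero, Finset.sum_const_zero] at h1
            exact hne ((smul_eq_zero.1 h1.symm).resolve_left hp0)
          · push Not at hall
            obtain ⟨j, hj⟩ := hall
            exact Finset.sum_pos' (fun j _ => hnn j)
              ⟨j, Finset.mem_univ _, (ih _ _ hk _ (hty hu j)).2 hj⟩
        have hp' : (0 : ℂ) < p := by exact_mod_cast hp
        exact (mul_pos_iff_of_pos_left hp').1 h1
    intro p q hpq u hu
    by_cases hp : 0 < p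
    · exact main p q hpq hp u hu
    by_cases hb : (p, q) ∈ box n
    swap
    · rw [hu.eq_zero hb]
      exact ⟨fun v _ => by simp [PS.hp_zero_left, PS.hp_zero_right], fun h => absurd rfl h⟩
    rw [mem_box] at hb
    have hq : 0 < q := by push_cast at hpq; omega
    have m := main q p (by rw [add_comm]; exact hpq) hq _ (G.cj_ty hu)
    refine ⟨fun v hv => ?_, fun hne => ?_⟩
    · have := m.1 _ (G.cj_ty hv)
      rw [G.hp_cj, G.hp_cj, conj_conj] at this
      rw [← this, conj_conj]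
    · have := m.2 fun h => hne (by rw [← G.cj_cj u, h, map_zero])
      rw [G.hp_cj] at this
      have h2 := (Complex.pos_iff.1 this).2
      rwa [conj_eq_iff_im.2 (by simpa using h2.symm)] at this

theorem hp_ty' (hg : g.PosDef) (x : ℤ × ℤ) (hx : x ∈ box n) (u : V)
    (hu : (F.ps hg).Ty x.1 x.2 u) :
    (∀ v, (F.ps hg).Ty x.1 x.2 v → (F.ps hg).hp v u = conj ((F.ps hg).hp u v)) ∧
      (u ≠ 0 → 0 < (F.ps hg).hp u u) := by
  have hb := (mem_box (p := x.1) (q := x.2)).1 hx
  exact F.hp_ty hg (x.1 + x.2).toNat _ _ (by omega) u hu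

theorem hp_eq_sum (hg : g.PosDef) (u v : V) : (F.ps hg).hp u v =
    ∑ x ∈ box n, (F.ps hg).hp ((F.ps hg).pr x.1 x.2 u) ((F.ps hg).pr x.1 x.2 v) := by
  conv_lhs => rw [← (F.ps hg).sum_pr u, PS.hp_sum_left]
  refine Finset.sum_congr rfl fun x _ => ?_
  rw [← PS.hp_pr, (F.ps hg).ty_pr]

/-- the pointwise product is Hermitian -/
theorem hp_herm (hg : g.PosDef) (u v : V) : (F.ps hg).hp v u = conj ((F.ps hg).hp u v) := by
  rw [hp_eq_sum, hp_eq_sum, map_sum]
  exact Finset.sum_congr rfl fun x hx =>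
    (F.hp_ty' hg x hx _ ((F.ps hg).ty_pr _ _ u)).1 _ ((F.ps hg).ty_pr _ _ v)

/-- the pointwise product is positive definite -/
theorem hp_pos (hg : g.PosDef) {u : V} (hu : u ≠ 0) : 0 < (F.ps hg).hp u u := by
  rw [hp_eq_sum]
  refine Finset.sum_pos' (fun x hx => ?_) ?_
  · by_cases h0 : (F.ps hg).pr x.1 x.2 u = 0
    · rw [h0, PS.hp_zero_left]
    · exact ((F.hp_ty' hg x hx _ ((F.ps hg).ty_pr _ _ u)).2 h0).le
  · by_contra hall
    push Not at hall
    apply hu
    rw [← (F.ps hg).sum_pr u]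
    refine Finset.sum_eq_zero fun x hx => ?_
    by_contra h0
    exact hall x hx ((F.hp_ty' hg x hx _ ((F.ps hg).ty_pr _ _ u)).2 h0)

end Fk

end

end Crest.Agent.X262.Kah
end

-- ▼ part X262/Kah/FibD

/-!
# X262 / Kah (helper60), file FibD: the fibre of forms as a Fock module

* `prZ p q` type projections with integer indices; `om g = i ∑ g_{ab} dz_a dz̄_b`;
* `fib n : Fk n (V n)`; `fib_par`, `fib_Lg`, naturality under complex linear pull-backs.
-/

set_option autoImplicit false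
set_option linter.unusedSectionVars false
set_option linter.unusedSimpArgs false

open Module Complex
open scoped ComplexConjugate ComplexOrder Matrix MatrixOrder

noncomputable section

namespace Crest.Agent.X262.Kah.Fib

open Crest.Agent.R208.F Crest.Agent.R208.CW
open Crest.Agent.R275.Geo (Cn)

variable {n : ℕ} {x y : V n}

/-! ### Hodge types of `Frm` -/

theorem P10_zc (a : Fin n) : Frm.P10 (Frm.Jc (Cn n)) (zc a) = zc a :=
  Frm.P10_eq_self fun v => by simp

theorem P10_zcb (a : Fin n) : Frm.P10 (Frm.Jc (Cn n)) (zcb a) = 0 :=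
  Frm.P10_eq_zero fun v => by simp

theorem prj_Jc (p q : ℕ) : Frm.prj (Frm.P10 (Frm.Jc (Cn n))) p q = pr p q :=
  prj_eq P10_zc P10_zcb p q

theorem isType_iff {p q : ℕ} : Frm.IsType (Frm.Jc (Cn n)) p q x ↔ x ∈ Ty p q := by
  rw [Frm.IsType, frm_Ty_eq P10_zc P10_zcb]

/-! ### integer indices -/

/-- type projections, integer indices -/
def prZ (p q : ℤ) : Module.End ℂ (V n) := if 0 ≤ p ∧ 0 ≤ q then pr p.toNat q.toNat else 0

@[simp] theorem prZ_nat (p q : ℕ) : (prZ p q : Module.End ℂ (V n)) = pr p q := by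
  simp [prZ]


theorem prZ_of_mem {a b : ℕ} (hx : x ∈ Ty a b) (p q : ℤ) :
    prZ p q x = if (a : ℤ) = p ∧ (b : ℤ) = q then x else 0 := by
  unfold prZ
  by_cases h : 0 ≤ p ∧ 0 ≤ q
  · rw [if_pos h, pr_of_mem hx]
    exact if_congr (by omega) rfl rfl
  · rw [if_neg h, if_neg (by omega)]; rfl

theorem prZ_eq_self_iff {p q : ℕ} : prZ p q x = x ↔ x ∈ Ty p q := by
  rw [prZ_nat, mem_Ty_iff_pr]

theorem prZ_cases (p q : ℤ) (x : V n) :
    prZ p q x = 0 ∨ ∃ a b : ℕ, (a : ℤ) = p ∧ (b : ℤ) = q ∧ prZ p q x ∈ Ty a b := by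
  by_cases h : 0 ≤ p ∧ 0 ≤ q
  · refine Or.inr ⟨p.toNat, q.toNat, by omega, by omega, ?_⟩
    rw [prZ, if_pos h]; exact pr_mem _ _ _
  · left; rw [prZ, if_neg h]; rfl

theorem prZ_out {p q : ℤ} (h : (p, q) ∉ box n) : (prZ p q : Module.End ℂ (V n)) = 0 := by
  rw [mem_box] at h
  unfold prZ
  split_ifs with h'
  · exact pr_eq_zero (by omega)
  · rfl

theorem sum_box {a b : ℕ} (hx : x ∈ Ty a b) (c : ℤ → ℤ → ℂ) :
    (∑ z ∈ box n, c z.1 z.2 • prZ z.1 z.2) x = c a b • x := by
  rw [LinearMap.sum_apply, Finset.sum_eq_single ((a : ℤ), (b : ℤ))]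
  · rw [LinearMap.smul_apply, prZ_of_mem hx, if_pos ⟨rfl, rfl⟩]
  · intro z _ hz
    rw [LinearMap.smul_apply, prZ_of_mem hx, if_neg fun h => hz (Prod.ext h.1.symm h.2.symm),
      smul_zero]
  · intro h
    rw [prZ_out h, smul_zero, LinearMap.zero_apply]

theorem sum_prZ : ∑ z ∈ box n, (prZ z.1 z.2 : Module.End ℂ (V n)) = 1 := by
  refine ext_Ty fun a b x hx => ?_
  simpa using sum_box hx fun _ _ => 1

theorem par_apply (x : V n) :
    (∑ z ∈ box n, (-1 : ℂ) ^ (z.1 + z.2) • prZ z.1 z.2) x = invC x := by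
  induction x using ind_Ty with
  | h0 => rw [map_zero, map_zero]
  | hadd x y hx hy => rw [map_add, map_add, hx, hy]
  | h a b x hx =>
    rw [sum_box hx fun p q => (-1 : ℂ) ^ (p + q), Ty.invC_eq hx, ← Nat.cast_add, zpow_natCast]

/-- operators shifting the type -/
theorem prZ_shift {m : ℕ} {T : V m →+ V n} {s t : ℤ}
    (hT : ∀ a b : ℕ, ∀ x ∈ Ty a b, T x = 0 ∨ ∃ c d : ℕ, (c : ℤ) = a + s ∧ (d : ℤ) = b + t ∧ T x ∈ Ty c d)
    (p q : ℤ) (x : V m) : T (prZ p q x) = prZ (p + s) (q + t) (T x) := by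
  induction x using ind_Ty with
  | h0 => simp
  | hadd x y hx hy => simp only [map_add, hx, hy]
  | h a b x hx =>
    rw [prZ_of_mem hx]
    rcases hT a b x hx with h | ⟨c, d, h1, h2, h⟩
    · rw [h, map_zero]; split_ifs <;> simp [h]
    · rw [prZ_of_mem h, apply_ite T, map_zero]
      exact if_congr (by omega) rfl rfl

theorem ez_prZ (a : Fin n) (p q : ℤ) : ez a * prZ p q = prZ (p + 1) q * ez a :=
  LinearMap.ext fun x => by
    simpa using prZ_shift (T := (ez a).toAddMonoidHom) (s := 1) (t := 0)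
      (fun c d x hx => Or.inr ⟨c + 1, d, by simp, by simp, Ty.ez_mem a hx⟩) p q x

theorem ezb_prZ (a : Fin n) (p q : ℤ) : ezb a * prZ p q = prZ p (q + 1) * ezb a :=
  LinearMap.ext fun x => by
    simpa using prZ_shift (T := (ezb a).toAddMonoidHom) (s := 0) (t := 1)
      (fun c d x hx => Or.inr ⟨c, d + 1, by simp, by simp, Ty.ezb_mem a hx⟩) p q x

theorem iz_prZ (a : Fin n) (p q : ℤ) : iz a * prZ p q = prZ (p + -1) q * iz a :=
  LinearMap.ext fun x => by
    simpa using prZ_shift (T := (iz a).toAddMonoidHom) (s := -1) (t := 0)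
      (fun c d x hx => by
        cases c with
        | zero => exact Or.inl (Ty.iz_eq_zero a hx)
        | succ c => exact Or.inr ⟨c, d, by simp, by simp, Ty.iz_mem a hx⟩) p q x

theorem izb_prZ (a : Fin n) (p q : ℤ) : izb a * prZ p q = prZ p (q + -1) * izb a :=
  LinearMap.ext fun x => by
    simpa using prZ_shift (T := (izb a).toAddMonoidHom) (s := 0) (t := -1)
      (fun c d x hx => by
        cases d with
        | zero => exact Or.inl (Ty.izb_eq_zero a hx)
        | succ d => exact Or.inr ⟨c, d, by simp, by simp, Ty.izb_mem a hx⟩) p q x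

theorem prZ_pbC {m : ℕ} {L : Cn m →ₗ[ℝ] Cn n} (hL : ∀ v, L (I • v) = I • L v) (p q : ℤ) (x : V n) :
    prZ p q (pbC L x) = pbC L (prZ p q x) := by
  unfold prZ
  split_ifs
  · exact pr_pbC hL _ _ x
  · simp

theorem prZ_pbC' {m : ℕ} (L : Cn m →ₗ[ℂ] Cn n) (p q : ℤ) (x : V n) :
    prZ p q (pbC (L.restrictScalars ℝ) x) = pbC (L.restrictScalars ℝ) (prZ p q x) :=
  prZ_pbC (fun v => L.map_smul I v) p q x

theorem conj_prZ (p q : ℤ) (x : V n) : Cx.conj (prZ p q x) = prZ q p (Cx.conj x) := by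
  unfold prZ
  simp only [and_comm (a := 0 ≤ q)]
  split_ifs
  · exact (pr_conj _ _ x).symm
  · simp

theorem tpC_prZ (p q : ℤ) (x y : V n) :
    tpC n (prZ p q x * y) = tpC n (x * prZ (n - p) (n - q) y) := by
  induction x using ind_Ty with
  | h0 => simp
  | hadd x z hx hz => simp only [map_add, add_mul, hx, hz]
  | h a b x hx =>
    induction y using ind_Ty with
    | h0 => simp
    | hadd y z hy hz => simp only [map_add, mul_add, hy, hz]
    | h c d y hy =>
      rw [prZ_of_mem hx, prZ_of_mem hy]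
      by_cases h : a + c = n ∧ b + d = n
      · simp only [ite_mul, mul_ite, zero_mul, mul_zero]
        congr 1
        exact if_congr (by omega) rfl rfl
      · have h0 := tpC_of_mem (Ty.mul hx hy) h
        split_ifs <;> simp [h0]

/-! ### positive `(1,1)`-forms -/

/-- the form `i ∑ g_{ab} dz_a dz̄_b` -/
def om (g : Matrix (Fin n) (Fin n) ℂ) : V n := I • ∑ a, ∑ b, g a b • (dz a * dzb b)

theorem dz_dzb_mem (a b : Fin n) : dz a * dzb b ∈ Ty 1 1 := by
  simpa using Ty.mul (dz_mem a) (dzb_mem b)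

theorem om_mem (g : Matrix (Fin n) (Fin n) ℂ) : om g ∈ Ty 1 1 :=
  Submodule.smul_mem _ _ (Submodule.sum_mem _ fun a _ => Submodule.sum_mem _ fun b _ =>
    Submodule.smul_mem _ _ (dz_dzb_mem a b))

theorem invC_om (g : Matrix (Fin n) (Fin n) ℂ) : invC (om g) = om g := by
  rw [Ty.invC_eq (om_mem g)]; simp

theorem om_one : om (1 : Matrix (Fin n) (Fin n) ℂ) = omg n := by
  simp [om, omg, Matrix.one_apply, Finset.smul_sum]

theorem conj_om (g : Matrix (Fin n) (Fin n) ℂ) : Cx.conj (om g) = om gᴴ := by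
  have h : ∀ a b : Fin n, dzb a * dz b = - (dz b * dzb a) := fun a b => th_anti (.inr a) (.inl b)
  simp only [om, conj_smul, map_sum, map_mul, conj_dz, conj_dzb, h, conj_I, smul_neg,
    Finset.sum_neg_distrib, neg_smul, neg_neg, Matrix.conjTranspose_apply, star_def]
  rw [Finset.sum_comm]

/-- the matrix `L_{ba} = (L ε_a)_b` of a map `ℂᵐ → ℂⁿ` -/
def mat {m : ℕ} (L : Cn m →ₗ[ℝ] Cn n) : Matrix (Fin n) (Fin m) ℂ := Matrix.of fun b a => L (ep a) b

theorem pbC_om {m : ℕ} {L : Cn m →ₗ[ℝ] Cn n} (hL : ∀ v, L (I • v) = I • L v)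
    (g : Matrix (Fin n) (Fin n) ℂ) :
    pbC L (om g) = om ((mat L)ᵀ * g * (mat L).map conj) := by
  simp only [om, pbC_smul, map_sum, map_mul, pbC_dz hL, pbC_dzb hL, Finset.sum_mul, Finset.mul_sum,
    smul_mul_assoc, mul_smul_comm, Finset.smul_sum, smul_smul, Matrix.mul_apply, Finset.sum_smul,
    Matrix.transpose_apply, Matrix.map_apply, mat, Matrix.of_apply]
  rw [Finset.sum_comm]
  conv_lhs => enter [2, b]; rw [Finset.sum_comm]
  conv_lhs => enter [2, b, 2, d]; rw [Finset.sum_comm]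
  conv_rhs => rw [Finset.sum_comm]
  rw [Finset.sum_comm]
  refine Finset.sum_congr rfl fun d _ => ?_
  rw [Finset.sum_comm]
  refine Finset.sum_congr rfl fun c _ => Finset.sum_congr rfl fun b _ =>
    Finset.sum_congr rfl fun a _ => ?_
  congr 1
  ring

/-- the complex linear map with matrix `B` -/
def lin {m : ℕ} (B : Matrix (Fin n) (Fin m) ℂ) : Cn m →ₗ[ℂ] Cn n := Matrix.toEuclideanLin B

theorem mat_lin {m : ℕ} (B : Matrix (Fin n) (Fin m) ℂ) : mat ((lin B).restrictScalars ℝ) = B := by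
  ext b a
  simp [mat, lin, ep, Matrix.toEuclideanLin, Matrix.toLpLin_apply]

theorem det_lin (B : Matrix (Fin n) (Fin n) ℂ) : LinearMap.det (lin B) = B.det := by
  rw [lin, Matrix.toEuclideanLin, Matrix.toLpLin_eq_toLin, LinearMap.det_toLin]

theorem om_eq_pbC (B : Matrix (Fin n) (Fin n) ℂ) :
    om (Bᴴ * B) = pbC ((lin (B.map conj)).restrictScalars ℝ) (omg n) := by
  rw [← om_one, pbC_om fun v => (lin (B.map conj)).map_smul I v, mat_lin, Matrix.mul_one]
  congr 2
  ext a b; simp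

theorem tpC_om_pow {g : Matrix (Fin n) (Fin n) ℂ} (hg : g.PosSemidef) :
    tpC n (om g ^ n) = 2 ^ n * n.factorial * g.det := by
  obtain ⟨B, rfl⟩ := CStarAlgebra.nonneg_iff_eq_star_mul_self.mp hg.nonneg
  rw [Matrix.star_eq_conjTranspose, om_eq_pbC, ← map_pow, tpC_pbC, tpC_omg_pow, det_lin,
    Matrix.det_mul, Matrix.det_conjTranspose, ← RingHom.mapMatrix_apply, ← RingHom.map_det,
    normSq_conj, normSq_eq_conj_mul_self, star_def]
  ring

theorem tpC_om_pos {g : Matrix (Fin n) (Fin n) ℂ} (hg : g.PosDef) : 0 < tpC n (om g ^ n) := by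
  rw [tpC_om_pow hg.posSemidef]
  have h1 : (0 : ℂ) < 2 ^ n := pow_pos two_pos n
  have h2 : (0 : ℂ) < n.factorial := by exact_mod_cast n.factorial_pos
  exact mul_pos (mul_pos h1 h2) hg.det_pos

theorem Lg_apply (g : Matrix (Fin n) (Fin n) ℂ) (u : V n) :
    (I • ∑ a, ∑ b, g a b • (ez a * ezb b) : Module.End ℂ (V n)) u = om g * u := by
  simp only [om, LinearMap.smul_apply, LinearMap.sum_apply, Module.End.mul_apply, ez_apply,
    ezb_apply, smul_mul_assoc, Finset.sum_mul, mul_assoc]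

theorem Lg_pow_apply (g : Matrix (Fin n) (Fin n) ℂ) (k : ℕ) (u : V n) :
    ((I • ∑ a, ∑ b, g a b • (ez a * ezb b) : Module.End ℂ (V n)) ^ k) u = om g ^ k * u := by
  induction k with
  | zero => simp
  | succ k ih => rw [pow_succ', Module.End.mul_apply, ih, Lg_apply, pow_succ', mul_assoc]

/-! ### the Fock module -/

variable (n) in
/-- conjugation as a semilinear map -/
def cjL : V n →ₛₗ[starRingEnd ℂ] V n where
  toFun := Cx.conj
  map_add' := map_add _
  map_smul' := conj_smul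

@[simp] theorem cjL_apply (u : V n) : cjL n u = Cx.conj u := rfl

variable (n) in
/-- forms at a point of `ℂⁿ` as a Fock module -/
def fib : Fk n (V n) where
  pr := prZ
  pr_pr p q := ext_Ty fun a b x hx => by
    rw [Module.End.mul_apply, prZ_of_mem hx]
    split_ifs with h
    · rw [prZ_of_mem hx, if_pos h]
    · exact map_zero _
  pr_ne p q p' q' hne := ext_Ty fun a b x hx => by
    rw [Module.End.mul_apply, prZ_of_mem hx]
    split_ifs with h
    · rw [prZ_of_mem hx, if_neg fun h' => hne (Prod.ext (h'.1.symm.trans h.1) (h'.2.symm.trans h.2))]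
      rfl
    · exact map_zero _
  pr_out _ _ := prZ_out
  pr_sum := sum_prZ
  e := ez
  eb := ezb
  i := iz
  ib := izb
  e_pr := ez_prZ
  eb_pr := ezb_prZ
  i_pr := iz_prZ
  ib_pr := izb_prZ
  e_e := ez_ez
  e_eb := ez_ezb
  eb_eb := ezb_ezb
  i_ib := iz_izb
  e_i := ez_iz
  eb_ib := ezb_izb
  e_ib := ez_izb
  eb_i := ezb_iz
  num p q := LinearMap.ext fun x => by
    rcases prZ_cases p q x with h | ⟨a, b, h1, -, h⟩
    · rw [Module.End.mul_apply, LinearMap.smul_apply, h, map_zero, smul_zero]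
    · rw [← h1, Int.cast_natCast, h1]; exact h.1
  numb p q := LinearMap.ext fun x => by
    rcases prZ_cases p q x with h | ⟨a, b, -, h1, h⟩
    · rw [Module.End.mul_apply, LinearMap.smul_apply, h, map_zero, smul_zero]
    · rw [← h1, Int.cast_natCast, h1]; exact h.2
  cj := cjL n
  cj_cj := Cx.conj_conj
  cj_pr := conj_prZ
  cj_e a u := by simp
  cj_i := conj_iz
  β := (LinearMap.mul ℂ (V n)).compr₂ (tpC n)
  β_pr := tpC_prZ
  β_cj u v := by
    change tpC n (Cx.conj u * Cx.conj v) = conj (tpC n (u * v))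
    rw [← map_mul, tpC_conj]
  β_e a u v := by rw [par_apply]; exact tpC_th_mul (.inl a) u v
  β_eb a u v := by rw [par_apply]; exact tpC_th_mul (.inr a) u v
  vac := 1
  cj_vac := map_one (Cx.conj : V n →+* V n)
  pr_vac := by rw [prZ_of_mem one_mem_Ty, if_pos ⟨rfl, rfl⟩]
  span_vac u := ⟨au u, by simpa using (prZ_nat 0 0 ▸ pr_zero_zero u :)⟩
  vol g hg := by
    rw [Lg_pow_apply, mul_one]
    change 0 < tpC n (1 * _)
    rw [one_mul]
    exact tpC_om_pos hg

@[simp] theorem fib_pr (p q : ℤ) : (fib n).pr p q = prZ p q := rfl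
@[simp] theorem fib_e (a : Fin n) : (fib n).e a = ez a := rfl
@[simp] theorem fib_eb (a : Fin n) : (fib n).eb a = ezb a := rfl
@[simp] theorem fib_i (a : Fin n) : (fib n).i a = iz a := rfl
@[simp] theorem fib_ib (a : Fin n) : (fib n).ib a = izb a := rfl
@[simp] theorem fib_cj (u : V n) : (fib n).cj u = Cx.conj u := rfl
@[simp] theorem fib_β (u v : V n) : (fib n).β u v = tpC n (u * v) := rfl
@[simp] theorem fib_vac : (fib n).vac = 1 := rfl

theorem fib_Lg (g : Matrix (Fin n) (Fin n) ℂ) (u : V n) : (fib n).Lg g u = om g * u := Lg_apply g u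



theorem fib_Lam (g : Matrix (Fin n) (Fin n) ℂ) (u : V n) :
    (fib n).Lam g u = (-I) • ∑ d, ∑ c, g⁻¹ d c • izb d (iz c u) := by
  simp only [Fk.Lam, LinearMap.smul_apply, LinearMap.sum_apply, Module.End.mul_apply, fib_i, fib_ib]

section nat
variable {L : Cn n →ₗ[ℝ] Cn n} {g g' : Matrix (Fin n) (Fin n) ℂ}

theorem Lg_pbC {m : ℕ} {L : Cn m →ₗ[ℝ] Cn n} (hL : ∀ v, L (I • v) = I • L v)
    {g' : Matrix (Fin m) (Fin m) ℂ} (h : g' = (mat L)ᵀ * g * (mat L).map conj) (u : V n) :
    (fib m).Lg g' (pbC L u) = pbC L ((fib n).Lg g u) := by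
  rw [fib_Lg, fib_Lg, map_mul, pbC_om hL, h]

theorem inv_conj (h : g' = (mat L)ᵀ * g * (mat L).map conj) (hg' : IsUnit g'.det) :
    (mat L).map conj * g'⁻¹ * (mat L)ᵀ = g⁻¹ := by
  have h0 := hg'
  rw [h, Matrix.det_mul, Matrix.det_mul, IsUnit.mul_iff, IsUnit.mul_iff] at h0
  rw [h, Matrix.mul_inv_rev, Matrix.mul_inv_rev, ← Matrix.mul_assoc, Matrix.mul_nonsing_inv _ h0.2,
    Matrix.one_mul, Matrix.mul_assoc, Matrix.nonsing_inv_mul _ h0.1.1, Matrix.mul_one]

theorem Lam_pbC (hL : ∀ v, L (I • v) = I • L v) (h : g' = (mat L)ᵀ * g * (mat L).map conj)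
    (hg' : IsUnit g'.det) (u : V n) :
    (fib n).Lam g' (pbC L u) = pbC L ((fib n).Lam g u) := by
  rw [fib_Lam, fib_Lam, ← inv_conj h hg', pbC_smul]
  congr 1
  simp only [iz_pbC hL, map_sum, map_smul, izb_pbC hL, Finset.smul_sum, smul_smul, pbC_smul,
    Matrix.mul_apply, Finset.sum_mul, Finset.sum_smul, Matrix.transpose_apply, Matrix.map_apply,
    mat, Matrix.of_apply]
  conv_lhs => enter [2, d, 2, c]; rw [Finset.sum_comm]
  conv_lhs => enter [2, d]; rw [Finset.sum_comm]
  rw [Finset.sum_comm]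
  refine Finset.sum_congr rfl fun e _ => ?_
  conv_lhs => enter [2, d]; rw [Finset.sum_comm]
  rw [Finset.sum_comm]
  refine Finset.sum_congr rfl fun b _ => ?_
  rw [Finset.sum_comm]
  refine Finset.sum_congr rfl fun c _ => Finset.sum_congr rfl fun d _ => ?_
  congr 1
  ring

end nat

end Crest.Agent.X262.Kah.Fib
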