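import Crest.Agent.X262.Kah.BunB
import Crest.Agent.X262.Kah.FibD
import Crest.Agent.X262.Kah.KP
import Crest.Agent.R273.Kah_333
import Crest.Agent.X262.Kah.BunK

-- ▼ part X262/Kah/BunD1
section

/-!
# X262 / Kah (helper60), file BunD1: the algebraic Kaehler package of smooth forms

* `tpT n : Tp n` the top coefficient; `KF A` closed positive `(1,1)`-forms; `KF.ofKah`;
* `prF A p q`, `K.LF`, `K.LamF : EF A`; `K.kaA P : KA n (FS A)`.
-/

set_option autoImplicit false
set_option linter.unusedSectionVars false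
set_option linter.unusedVariables false

open Set Filter Topology Complex
open scoped ContDiff ComplexConjugate ComplexOrder Matrix

namespace Crest.Agent.X262.Kah

open Crest.Agent.R208.F Crest.Agent.R208.CW Crest.Agent.R275.Geo Crest.Agent.X262.Kah.Fib

noncomputable section

variable {n : ℕ} {M : Type} [TopologicalSpace M] {A : Atl n M}

/-- the top coefficient -/
def tpT (n : ℕ) : Tp n where
  t := tpC n
  pb L c := by rw [tpC_pbC, Complex.normSq_eq_norm_sq]
  cj := tpC_conj

@[simp] theorem tpT_t (c : Fb n) : (tpT n).t c = tpC n c := rfl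

/-- the coefficients of a `(1,1)`-form -/
def gOf (a b : Fin n) : Fb n →ₗ[ℂ] ℂ := (-I) • (au ∘ₗ izb b ∘ₗ iz a)

theorem gOf_dz (a b c d : Fin n) :
    au (izb b (iz a (dz c * dzb d))) = if a = c ∧ b = d then 1 else 0 := by
  have h1 : iz a (dz c * dzb d) = if a = c then dzb d else 0 := by
    have := ct_th_mul (.inl a) (.inl c) (dzb d)
    have h := ct_th (.inl a) (.inr d)
    simp only [ct_inl, th_inl, th_inr, Sum.inl.injEq, reduceCtorEq, if_false] at this h
    rw [this, h, mul_zero, sub_zero]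
  have h2 : izb b (dzb d) = if b = d then 1 else 0 := by simpa using ct_th (.inr b) (.inr d)
  rw [h1]
  by_cases hac : a = c
  · rw [if_pos hac, h2]
    by_cases hbd : b = d
    · simp [hac, hbd, au_one]
    · simp [hbd]
  · simp [hac]

theorem gOf_om (g : Matrix (Fin n) (Fin n) ℂ) (a b : Fin n) : gOf a b (om g) = g a b := by
  simp only [gOf, om, LinearMap.smul_apply, LinearMap.comp_apply, map_smul, map_sum, gOf_dz,
    smul_eq_mul, ite_and, mul_ite, mul_one, mul_zero]
  simp
  linear_combination (- g a b) * I_mul_I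

theorem om_inj {g g' : Matrix (Fin n) (Fin n) ℂ} (h : om g = om g') : g = g' := by
  ext a b
  rw [← gOf_om g, h, gOf_om]

/-- the type projections as fields -/
def prF (A : Atl n M) (p q : ℤ) : EF A := EF.cst A (prZ p q) fun L c => prZ_pbC' L p q c

@[simp] theorem prF_apply (p q : ℤ) (u : FS A) (i : A.ι) (z : Cn n) :
    (EF.op A (prF A p q) u).1 i z = prZ p q (u.1 i z) := rfl

theorem dbF_prF (p q : ℤ) (u : FS A) :
    dbF A (EF.op A (prF A p q) u) = EF.op A (prF A p (q + 1)) (dbF A u) :=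
  dbF_cst (fun a c => LinearMap.congr_fun (ezb_prZ a p q) c) u

theorem dlF_prF (p q : ℤ) (u : FS A) :
    dlF A (EF.op A (prF A p q) u) = EF.op A (prF A (p + 1) q) (dlF A u) :=
  dlF_cst (fun a c => LinearMap.congr_fun (ez_prZ a p q) c) u

theorem prF_ne {p q p' q' : ℤ} (h : (p, q) ≠ (p', q')) (u : FS A) :
    EF.op A (prF A p q) (EF.op A (prF A p' q') u) = 0 :=
  FS.ext' fun i z _ => LinearMap.congr_fun ((fib n).pr_ne p q p' q' h) (u.1 i z)

theorem prF_eq_iff {p q : ℕ} {u : FS A} : EF.op A (prF A p q) u = u ↔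
    ∀ i, ∀ z ∈ (A.e i).target, u.1 i z ∈ Ty p q :=
  ⟨fun h i z _ => prZ_eq_self_iff.1 (congrArg (fun v : FS A => v.1 i z) h),
    fun h => FS.ext' fun i z hz => prZ_eq_self_iff.2 (h i z hz)⟩

/-- a closed form of pure type is `∂̄`-closed -/
theorem dbF_of_closed {p q : ℤ} {u : FS A} (hu : EF.op A (prF A p q) u = u) (h : dF A u = 0) :
    dbF A u = 0 := by
  have h1 := congrArg (EF.op A (prF A p (q + 1))) h
  rw [dF_eq, map_add, map_zero, ← dbF_prF, hu, ← hu, dlF_prF, prF_ne (by simp), zero_add] at h1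
  rw [← hu]; exact h1


/-- closed positive `(1,1)`-forms -/
structure KF (A : Atl n M) where
  om : FS A
  g : A.ι → Cn n → Matrix (Fin n) (Fin n) ℂ
  pos : ∀ i, ∀ z ∈ (A.e i).target, (g i z).PosDef
  eq : ∀ i, ∀ z ∈ (A.e i).target, om.1 i z = Fib.om (g i z)
  closed : dF A om = 0

namespace KF

variable (K : KF A)

theorem unit {i : A.ι} {z : Cn n} (hz : z ∈ (A.e i).target) : IsUnit (K.g i z).det :=
  Fk.det_unit (K.pos i z hz)

theorem g_sm (i : A.ι) (a b : Fin n) : ContDiffOn ℝ ∞ (fun z => K.g i z a b) (A.e i).target :=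
  fun z hz => ((CD_fun (gOf a b) (K.om.sm hz)).congr_of_eventuallyEq (by
    filter_upwards [(A.e i).open_target.mem_nhds hz] with y hy
    rw [K.eq i y hy, gOf_om])).contDiffWithinAt

theorem ginv_sm (i : A.ι) (a b : Fin n) :
    ContDiffOn ℝ ∞ (fun z => (K.g i z)⁻¹ a b) (A.e i).target :=
  Crest.Agent.R273.Mol_106.contDiffOn_inv (K := K.g i) (K.g_sm i)
    (fun z hz => (K.unit hz).ne_zero) a b

theorem g_tr {i j : A.ι} {z : Cn n} (hz : z ∈ A.ov i j) :
    K.g i z = (mat (Dtr A i j z))ᵀ * K.g j (tr A i j z) * (mat (Dtr A i j z)).map conj :=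
  om_inj (by
    rw [← pbC_om (L := Dtr A i j z) (Dr_I (tr_holo hz).self_of_nhds), ← K.eq i z hz.1, ← K.eq j _ (tr_mem hz)]
    exact K.om.tr' hz)

theorem om_pr : EF.op A (prF A (1 : ℕ) (1 : ℕ)) K.om = K.om :=
  prF_eq_iff.2 fun i z hz => K.eq i z hz ▸ om_mem _

theorem dbF_om : dbF A K.om = 0 := dbF_of_closed K.om_pr K.closed

theorem invF_om : invF A K.om = K.om := FS.ext' fun i z hz => by
  rw [invF_apply, K.eq i z hz, invC_om]


/-- the Lefschetz operator -/
def LF : EF A :=
  ⟨fun i z => (fib n).Lg (K.g i z),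
    fun i z hz c => ((K.om.sm hz).mul (CD.const c)).congr (by
      filter_upwards [(A.e i).open_target.mem_nhds hz] with y hy
      rw [fib_Lg, K.eq i y hy]),
    fun i j z hz c => Lg_pbC (Dr_I (tr_holo hz).self_of_nhds) (K.g_tr hz) c⟩

/-- the dual Lefschetz operator -/
def LamF : EF A :=
  ⟨fun i z => (fib n).Lam (K.g i z),
    fun i z hz c => by
      simp only [fib_Lam]
      exact (CD.sum fun d _ => CD.sum fun e _ => CD_fsmul
        ((K.ginv_sm i d e).contDiffAt ((A.e i).open_target.mem_nhds hz)) (CD.const _)).csmul _,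
    fun i j z hz c => Lam_pbC (Dr_I (tr_holo hz).self_of_nhds) (K.g_tr hz) (K.unit hz.1) c⟩

theorem LF_apply (u : FS A) : EF.op A K.LF u = K.om * u := FS.ext' fun i z hz => by
  rw [FS.mul_apply, K.eq i z hz, ← fib_Lg]; rfl

/-- the Lefschetz module of smooth forms -/
def gsA : GS n (FS A) where
  pr p q := EF.op A (prF A p q)
  pr_pr p q := LinearMap.ext fun u => FS.ext' fun i z _ =>
    LinearMap.congr_fun ((fib n).pr_pr p q) (u.1 i z)
  pr_ne p q p' q' h := LinearMap.ext fun u => prF_ne h u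
  pr_out p q h := LinearMap.ext fun u => FS.ext' fun i z _ =>
    LinearMap.congr_fun ((fib n).pr_out p q h) (u.1 i z)
  pr_sum := LinearMap.ext fun u => FS.ext' fun i z _ => by
    rw [LinearMap.sum_apply, FS.sum_apply]
    have := LinearMap.congr_fun (fib n).pr_sum (u.1 i z)
    rw [LinearMap.sum_apply] at this
    exact this
  L := EF.op A K.LF
  Λ := EF.op A K.LamF
  L_pr p q := LinearMap.ext fun u => FS.ext' fun i z hz =>
    LinearMap.congr_fun (((fib n).gs (K.unit hz)).L_pr p q) (u.1 i z)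
  Λ_pr p q := LinearMap.ext fun u => FS.ext' fun i z hz =>
    LinearMap.congr_fun (((fib n).gs (K.unit hz)).Λ_pr p q) (u.1 i z)
  comm p q := LinearMap.ext fun u => FS.ext' fun i z hz =>
    LinearMap.congr_fun (((fib n).gs (K.unit hz)).comm p q) (u.1 i z)

theorem gsA_par (u : FS A) : K.gsA.par u = invF A u := FS.ext' fun i z _ => by
  rw [invF_apply, ← par_apply, GS.par, GS.dg, LinearMap.sum_apply, LinearMap.sum_apply,
    FS.sum_apply]
  rfl

variable (A) in
/-- conjugation as a semilinear map -/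
def cjS : FS A →ₛₗ[starRingEnd ℂ] FS A where
  toFun := cjF A
  map_add' := map_add _
  map_smul' := cjF_smul

variable [T2Space M] [Finite A.ι] (P : Part A)

/-- the paired Lefschetz module of smooth forms -/
def psA : PS n (FS A) where
  toGS := K.gsA
  cj := cjS A
  cj_cj := cjF_cjF
  cj_pr p q u := FS.ext' fun i z _ => conj_prZ p q (u.1 i z)
  cj_L u := FS.ext' fun i z hz => ((fib n).ps (K.pos i z hz)).cj_L (u.1 i z)
  cj_Λ u := FS.ext' fun i z hz => ((fib n).ps (K.pos i z hz)).cj_Λ (u.1 i z)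
  β := (LinearMap.mul ℂ (FS A)).compr₂ (IntF P (tpT n))
  β_pr p q u v := IntF_congr P (tpT n) fun i z _ => tpC_prZ p q (u.1 i z) (v.1 i z)
  β_L u v := IntF_congr P (tpT n) fun i z hz =>
    ((fib n).ps (K.pos i z hz)).β_L (u.1 i z) (v.1 i z)
  β_cj u v := by
    change IntF P (tpT n) (cjF A u * cjF A v) = conj (IntF P (tpT n) (u * v))
    rw [← map_mul, IntF_cjF]

/-- the algebraic Kaehler package of smooth forms -/
def kaA : KA n (FS A) where
  toPS := K.psA P
  del := dlF A
  db := dbF A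
  sh_del p q := LinearMap.ext fun u => by rw [add_zero]; exact dlF_prF p q u
  sh_db p q := LinearMap.ext fun u => by rw [add_zero]; exact dbF_prF p q u
  db_db := dbF_dbF
  del_db := dlF_dbF
  L_db u := by
    change EF.op A K.LF _ = dbF A (EF.op A K.LF u)
    rw [LF_apply, LF_apply, dbF_mul, dbF_om, invF_om, zero_mul, zero_add]
  cj_del := cjF_dlF
  β_db u v := by
    change IntF P (tpT n) (dbF A u * v) = - IntF P (tpT n) (K.gsA.par u * dbF A v)
    rw [gsA_par, IntF_dbF_mul]




end KF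

/-! ### Kaehler metrics -/

section kah

open Crest.Agent.R273.Kah_333 (Kah)

theorem mat_Dtr {i j : A.ι} {z : Cn n} (hz : z ∈ A.ov i j) :
    mat (Dtr A i j z) = Crest.Agent.R275.Core144.Jm A i j ((A.e i).symm z) := by
  ext b a
  rw [Dtr_eq hz]
  change _ = (fderiv ℂ (tr A i j) (A.e i ((A.e i).symm z)) (EuclideanSpace.single a 1)) b
  rw [(A.e i).right_inv hz.1]
  rfl

theorem CD_om {k : WithTop ℕ∞} {g : Cn n → Matrix (Fin n) (Fin n) ℂ} {z : Cn n}
    (h : ∀ a b, ContDiffAt ℝ k (fun y => g y a b) z) : CD k (fun y => om (g y)) z :=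
  (CD.sum fun a _ => CD.sum fun b _ => CD_fsmul (h a b) (CD.const _)).csmul I

theorem dbC_om {g : Cn n → Matrix (Fin n) (Fin n) ℂ} {z : Cn n}
    (h : ∀ a b, ContDiffAt ℝ 1 (fun y => g y a b) z)
    (hs : ∀ a b c, dbj c (fun y => g y a b) z = dbj b (fun y => g y a c) z) :
    dbC (fun y => om (g y)) z = 0 := by
  unfold om
  rw [dbC_csmul _ (CD.sum fun a _ => CD.sum fun b _ => CD_fsmul (h a b) (CD.const _)),
    dbC_sum _ fun a _ => CD.sum fun b _ => CD_fsmul (h a b) (CD.const _), Finset.sum_eq_zero,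
    smul_zero]
  intro a _
  rw [dbC_sum _ fun b _ => CD_fsmul (h a b) (CD.const _)]
  have := sum_anti dzb dzb_anti (fun c b => dbj c (fun y => g y a b) z • dz a)
    fun c b => by rw [hs]
  rw [Finset.sum_comm] at this
  rw [← neg_eq_zero, ← this, ← Finset.sum_neg_distrib]
  refine Finset.sum_congr rfl fun b _ => ?_
  rw [dbC_fsmul (h a b) (CD.const _), dbC_const, smul_zero, add_zero, Finset.sum_mul,
    ← Finset.sum_neg_distrib]
  refine Finset.sum_congr rfl fun c _ => ?_
  have h1 : dz a * dzb b = - (dzb b * dz a) := th_anti (.inl a) (.inr b)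
  rw [h1, smul_mul_assoc, mul_smul_comm, mul_smul_comm, mul_neg, smul_neg, neg_neg]

/-- the Kaehler form of a Kaehler metric -/
def omF (K : Kah A) : FS A :=
  FS.mk' (fun i z => om (K.g i ((A.e i).symm z)))
    (fun i z hz => CD_om fun a b => (K.sm i a b).contDiffAt ((A.e i).open_target.mem_nhds hz))
    fun i j z hz => by
      rw [pbC_om (L := Dtr A i j z) (Dr_I (tr_holo hz).self_of_nhds), symm_tr hz, mat_Dtr hz,
        ← K.tr i j _ ⟨(A.e i).map_target hz.1, hz.2⟩]

theorem omF_apply (K : Kah A) {i : A.ι} {z : Cn n} (hz : z ∈ (A.e i).target) :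
    (omF K).1 i z = om (K.g i ((A.e i).symm z)) := FS.mk'_apply hz

theorem dbF_omF (K : Kah A) : dbF A (omF K) = 0 := FS.ext' fun i z hz => by
  rw [dbF_apply _ hz, omF, dbC_congr (FS.mk'_ev hz)]
  exact dbC_om (fun a b => ((K.sm i a b).contDiffAt
    ((A.e i).open_target.mem_nhds hz)).of_le one_le_inf) fun a b c => K.closed' i z hz a b c

/-- a Kaehler metric as a closed positive form -/
def KF.ofKah (K : Kah A) : KF A where
  om := omF K
  g i z := K.g i ((A.e i).symm z)
  pos i z hz := K.pos i _ ((A.e i).map_target hz)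
  eq i z hz := omF_apply K hz
  closed := by
    have h : cjF A (omF K) = omF K := FS.ext' fun i z hz => by
      rw [cjF_apply, omF_apply K hz, conj_om, (K.pos i _ ((A.e i).map_target hz)).isHermitian.eq]
    rw [dF_eq, dlF_def, h, dbF_omF, map_zero, add_zero]

end kah

end

end Crest.Agent.X262.Kah
end

-- ▼ part X262/Kah/BunE

/-!
# X262 / Kah (helper60), file BunE: the Kaehler package of a compact Kaehler manifold

* `K.kp P : KP n (FS A)` for a closed positive `(1,1)`-form `K : KF A`; `kp P K` for `K : Kah A`.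
-/

set_option autoImplicit false
set_option linter.unusedSectionVars false
set_option linter.unusedVariables false

open Set Complex
open scoped ComplexConjugate ComplexOrder

namespace Crest.Agent.X262.Kah

open Crest.Agent.R208.F Crest.Agent.R208.CW Crest.Agent.R275.Geo Crest.Agent.X262.Kah.Fib

noncomputable section

variable {n : ℕ} {M : Type} [TopologicalSpace M] {A : Atl n M}

/-- pointwise type of a form -/
def TyF (p q : ℕ) (u : FS A) : Prop := ∀ i, ∀ z ∈ (A.e i).target, u.1 i z ∈ Ty p q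

theorem TyF.mul {p q p' q' : ℕ} {u v : FS A} (hu : TyF p q u) (hv : TyF p' q' v) :
    TyF (p + p') (q + q') (u * v) := fun i z hz => Ty.mul (hu i z hz) (hv i z hz)

theorem TyF.one : TyF 0 0 (1 : FS A) := fun i z hz => by rw [FS.one_apply hz]; exact one_mem_Ty

theorem TyF.cj {p q : ℕ} {u : FS A} (hu : TyF p q u) : TyF q p (cjF A u) :=
  fun i z hz => Ty.conj_mem (hu i z hz)


namespace KF

variable (K : KF A) [T2Space M] [Finite A.ι] (P : Part A)

/-- the operators of `kaA` are fields -/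
def fld : Fld P (tpT n) (K.kaA P) where
  Lf := K.LF
  Lamf := K.LamF
  prf := prF A
  L := rfl
  Lam := rfl
  pr _ _ := rfl
  db := rfl
  del := rfl
  cj _ := rfl
  β _ _ := rfl
  fib i z hz := ⟨(fib n).ps (K.pos i z hz), rfl, rfl, fun _ _ => rfl, fun _ => rfl, fun _ _ => rfl,
    (fib n).hp_herm _, fun _ hc => (fib n).hp_pos _ hc⟩

variable [CompactSpace M]

/-- **the Kaehler package of smooth forms** -/
def kp : KP n (FS A) := (K.kaA P).toKP (K.fld P)

theorem kp_L (u : FS A) : (K.kp P).L u = K.om * u := K.LF_apply u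
theorem kp_db : (K.kp P).db = dbF A := rfl
theorem kp_d (u : FS A) : (K.kp P).d u = dF A u := (dF_eq u).symm
theorem kp_d' : (K.kp P).d = dF A := LinearMap.ext (K.kp_d P)
theorem kp_cj (u : FS A) : (K.kp P).cj u = cjF A u := rfl
theorem kp_par (u : FS A) : (K.kp P).par u = invF A u := K.gsA_par u
theorem kp_Ty {p q : ℕ} {u : FS A} : (K.kp P).Ty p q u ↔ TyF p q u := prF_eq_iff


theorem kp_ty_one : (K.kp P).Ty 0 0 1 := (K.kp_Ty P (p := 0) (q := 0)).2 TyF.one

end KF

/-- the Kaehler package of a Kaehler metric -/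
def kp [T2Space M] [Finite A.ι] [CompactSpace M] (P : Part A)
    (K : Crest.Agent.R273.Kah_333.Kah A) : KP n (FS A) := (KF.ofKah K).kp P

end

end Crest.Agent.X262.Kah
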