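import Crest.Agent.X262.Kah.BunA
import Crest.Agent.R273.MolF_106

/-!
# X262 / Kah (helper93), file BunB: `∂`, `∂̄`, integration and Stokes on `FS A`

* `dbF`, `dlF` : `∂̄`, `∂` on `FS A`; `dF_eq`, `dbF_dbF`, `dlF_dlF`, `dlF_dbF`, Leibniz rules;
* `Tp n`       : top functionals (`t (L^* c) = |det L|² t c`); `IntF P t` : the integral;
* `IntF_dbF`, `IntF_dlF`, `IntF_dF` : Stokes.
-/

set_option autoImplicit false
set_option linter.unusedSectionVars false
set_option linter.unusedVariables false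

open Set Filter Topology Complex
open scoped ContDiff ComplexConjugate

namespace Crest.Agent.X262.Kah

open Crest.Agent.R208.F Crest.Agent.R208.CW Crest.Agent.R275.Geo Crest.Agent.X262.Kah.Fib
open Crest.Agent.R275 Crest.Agent.R275.Pai323 Crest.Agent.R273.DnInt_505
open Crest.Agent.R275.SerG398 (lint dens)

noncomputable section

variable {n : ℕ} {M : Type} [TopologicalSpace M] {A : Atl n M}

theorem FS.sm1 (u : FS A) {i : A.ι} {z : Cn n} (hz : z ∈ (A.e i).target) : CD 1 (u.1 i) z :=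
  (u.sm hz).of_le one_le_inf

theorem FS.sm2 (u : FS A) {i : A.ι} {z : Cn n} (hz : z ∈ (A.e i).target) : CD 2 (u.1 i) z :=
  (u.sm hz).of_le two_le_inf

/-- `∂̄` of a form -/
def dbF0 (u : FS A) : FS A :=
  FS.mk' (fun i => dbC (u.1 i)) (fun i z hz => CD_dbC (u.sm hz) (by simp)) fun i j z hz => by
    have h1 : u.1 i =ᶠ[𝓝 z] pullC (tr A i j) (u.1 j) := by
      filter_upwards [(isOpen_ov' i j).mem_nhds hz] with y hy using u.tr' hy
    rw [dbC_congr h1, dbC_pullC (tr_holo hz) ((tr_contDiffAt hz).of_le two_le_inf)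
      (u.sm1 (tr_mem hz))]
    rfl

theorem dbF0_apply (u : FS A) {i : A.ι} {z : Cn n} (hz : z ∈ (A.e i).target) :
    (dbF0 u).1 i z = dbC (u.1 i) z := FS.cut_of_mem (u := fun i => dbC (u.1 i)) hz

/-- `∂̄` -/
def dbF (A : Atl n M) : Module.End ℂ (FS A) where
  toFun := dbF0
  map_add' u v := FS.ext' fun i z hz => by
    rw [FS.add_apply, dbF0_apply _ hz, dbF0_apply _ hz, dbF0_apply _ hz]
    exact dbC_add (u.sm1 hz) (v.sm1 hz)
  map_smul' c u := FS.ext' fun i z hz => by
    rw [RingHom.id_apply, FS.smul_apply, dbF0_apply _ hz, dbF0_apply _ hz]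
    exact dbC_csmul c (u.sm1 hz)

theorem dbF_apply (u : FS A) {i : A.ι} {z : Cn n} (hz : z ∈ (A.e i).target) :
    (dbF A u).1 i z = dbC (u.1 i) z := dbF0_apply u hz

theorem dbF_ev (u : FS A) {i : A.ι} {z : Cn n} (hz : z ∈ (A.e i).target) :
    (dbF A u).1 i =ᶠ[𝓝 z] dbC (u.1 i) := FS.cut_ev (fun i => dbC (u.1 i)) hz

/-- `∂` -/
def dlF (A : Atl n M) : Module.End ℂ (FS A) where
  toFun u := cjF A (dbF A (cjF A u))
  map_add' u v := by simp only [map_add]
  map_smul' c u := by simp only [cjF_smul, map_smul, RingHom.id_apply, conj_conj]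

theorem dlF_def (u : FS A) : dlF A u = cjF A (dbF A (cjF A u)) := rfl

theorem cjF_dlF (u : FS A) : cjF A (dlF A u) = dbF A (cjF A u) := cjF_cjF _


theorem dlF_apply (u : FS A) {i : A.ι} {z : Cn n} (hz : z ∈ (A.e i).target) :
    (dlF A u).1 i z = dlC (u.1 i) z := by
  rw [dlF_def, cjF_apply, dbF_apply _ hz, dlC_eq]
  rfl

theorem dF_eq (u : FS A) : dF A u = dlF A u + dbF A u := FS.ext' fun i z hz => by
  rw [FS.add_apply, dF_apply _ hz, dlF_apply _ hz, dbF_apply _ hz, dC_eq (u.sm1 hz)]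

theorem dbF_dbF (u : FS A) : dbF A (dbF A u) = 0 := FS.ext' fun i z hz => by
  rw [dbF_apply _ hz, dbC_congr (dbF_ev u hz), dbC_dbC (u.sm2 hz)]
  rfl

theorem dlF_dlF (u : FS A) : dlF A (dlF A u) = 0 := by
  rw [dlF_def (dlF A u), cjF_dlF, dbF_dbF, map_zero]

theorem dlF_dbF (u : FS A) : dlF A (dbF A u) = -dbF A (dlF A u) := by
  have h := dF_dF u
  rw [dF_eq, dF_eq, map_add, map_add, dlF_dlF, dbF_dbF, zero_add, add_zero] at h
  exact eq_neg_of_add_eq_zero_left h

theorem dbF_mul (u v : FS A) : dbF A (u * v) = dbF A u * v + invF A u * dbF A v :=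
  FS.ext' fun i z hz => by
    rw [FS.add_apply, FS.mul_apply, FS.mul_apply, dbF_apply _ hz, dbF_apply _ hz, dbF_apply _ hz,
      invF_apply]
    exact dbC_mul (u.sm1 hz) (v.sm1 hz)



/-- a constant field commutes with the partial derivatives: shifts under `∂̄` -/
theorem dbF_cst {T T' : Module.End ℂ (Fb n)} {hT hT'} (h : ∀ a c, dzb a * T c = T' (dzb a * c))
    (u : FS A) : dbF A (EF.op A (EF.cst A T hT) u) = EF.op A (EF.cst A T' hT') (dbF A u) :=
  FS.ext' fun i z hz => by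
    rw [dbF_apply _ hz, EF.op_apply, dbF_apply _ hz]
    show dbC (fun y => T (u.1 i y)) z = T' (dbC (u.1 i) z)
    simp only [dbC, pzbC_lin T _ (u.sm1 hz), h, map_sum]

theorem pzC_lin {om : Cn n → Fb n} {z : Cn n} (T : Module.End ℂ (Fb n)) (a : Fin n)
    (h : CD 1 om z) : pzC a (fun y => T (om y)) z = T (pzC a om z) := by
  simp only [pzC, pdC_lin T _ h, map_smul, map_sub]

theorem dlF_cst {T T' : Module.End ℂ (Fb n)} {hT hT'} (h : ∀ a c, dz a * T c = T' (dz a * c))
    (u : FS A) : dlF A (EF.op A (EF.cst A T hT) u) = EF.op A (EF.cst A T' hT') (dlF A u) :=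
  FS.ext' fun i z hz => by
    rw [dlF_apply _ hz, EF.op_apply, dlF_apply _ hz]
    show dlC (fun y => T (u.1 i y)) z = T' (dlC (u.1 i) z)
    simp only [dlC, pzC_lin T _ (u.sm1 hz), h, map_sum]

/-! ### integration -/

/-- top functionals -/
structure Tp (n : ℕ) where
  t : Fb n →ₗ[ℂ] ℂ
  pb : ∀ (L : Cn n →ₗ[ℂ] Cn n) (c : Fb n),
    t (pbC (L.restrictScalars ℝ) c) = ((‖LinearMap.det L‖ ^ 2 : ℝ) : ℂ) * t c
  cj : ∀ c, t (Cx.conj c) = conj (t c)

/-- the density of a form -/
def dnF (t : Tp n) (u : FS A) (i : A.ι) (x : M) : ℂ := t.t (u.1 i (A.e i x))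

theorem smAt_fun (t : Fb n →ₗ[ℂ] ℂ) {i : A.ι} {u : Cn n → Fb n}
    (hu : ∀ z ∈ (A.e i).target, CD ∞ u z) : A.SmAt i (fun x => t (u (A.e i x))) := by
  intro z hz
  refine ((CD_fun t (hu z hz)).congr_of_eventuallyEq ?_).contDiffWithinAt
  filter_upwards [(A.e i).open_target.mem_nhds hz] with y hy
  rw [(A.e i).right_inv hy]

theorem pb_dens (t : Tp n) {i j : A.ι} {x : M} (hx : x ∈ (A.e i).source ∩ (A.e j).source)
    (c : Fb n) : t.t (pbC (Dtr A i j (A.e i x)) c) = dens A i j x * t.t c := by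
  rw [Dtr_eq (mem_ov hx), t.pb, SerG398.dens, det_J]
  rfl

theorem isDn_dnF (t : Tp n) (u : FS A) : IsDn A (dnF t u) where
  sm i := smAt_fun t.t fun z hz => u.sm hz
  tr i j x hx := by
    unfold dnF
    rw [u.tr' (mem_ov hx), pb_dens t hx, tr_e hx.1]

variable [T2Space M] [Finite A.ι] (P : Part A) (t : Tp n)

/-- the integral of a form -/
def IntF : FS A →ₗ[ℂ] ℂ where
  toFun u := IntP P (dnF t u)
  map_add' u v := by
    rw [← IntP_add P (isDn_dnF t u).sm (isDn_dnF t v).sm]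
    exact IntP_congr P fun i x _ => map_add t.t _ _
  map_smul' c u := by
    rw [RingHom.id_apply, smul_eq_mul, ← IntP_const_mul]
    exact IntP_congr P fun i x _ => map_smul t.t _ _

theorem IntF_apply (u : FS A) : IntF P t u = IntP P (dnF t u) := rfl

theorem IntF_congr {u v : FS A} (h : ∀ i, ∀ z ∈ (A.e i).target, t.t (u.1 i z) = t.t (v.1 i z)) :
    IntF P t u = IntF P t v := IntP_congr P fun i x hx => h i _ ((A.e i).map_source hx)

theorem IntF_cjF (u : FS A) : IntF P t (cjF A u) = conj (IntF P t u) := by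
  rw [IntF_apply, IntF_apply, ← IntP_conj]
  exact IntP_congr P fun i x _ => t.cj _

/-- the integral does not depend on the partition of unity -/
theorem IntF_loc {u : FS A} {j : A.ι} {K : Set M} (hK : IsCompact K) (hKs : K ⊆ (A.e j).source)
    (h0 : ∀ i, ∀ x ∈ (A.e i).source, x ∉ K → u.1 i (A.e i x) = 0) :
    IntF P t u = lint A j (dnF t u j) :=
  Crest.Agent.R273.Mol_106.IntP_loc P (isDn_dnF t u) hK hKs fun i x hx hxK => by
    rw [dnF, h0 i x hx hxK, map_zero]

/-- the pieces of a form -/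
def psiF (j : A.ι) (u : FS A) : FS A := fnF (fun x => (P.ψ j x : ℂ)) (sm_psiC P j) * u

theorem sum_psiF [Fintype A.ι] (u : FS A) : ∑ j, psiF P j u = u := FS.ext' fun i z hz => by
  rw [FS.sum_apply]
  simp only [psiF, fnF_mul]
  rw [← Finset.sum_smul, ← ofReal_sum, sum_psi_fin, ofReal_one, one_smul]

theorem psiF_ev (j : A.ι) (u : FS A) {i : A.ι} {x : M} (hx : x ∈ (A.e i).source)
    (hxK : x ∉ tsupport (P.χ j)) : (psiF P j u).1 i =ᶠ[𝓝 (A.e i x)] fun _ => 0 := by
  have h1 : Tendsto (A.e i).symm (𝓝 (A.e i x)) (𝓝 x) := by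
    have := (A.e i).symm.continuousAt (x := A.e i x) ((A.e i).map_source hx)
    rwa [ContinuousAt, (A.e i).left_inv hx] at this
  filter_upwards [h1.eventually ((isClosed_tsupport (P.χ j)).isOpen_compl.mem_nhds hxK)] with y hy
  have : P.ψ j ((A.e i).symm y) = 0 :=
    image_eq_zero_of_notMem_tsupport fun h => hy (tsupport_psi P j h)
  rw [psiF, fnF_mul, this, ofReal_zero, zero_smul]

theorem integrable_db {j : A.ι} {f : M → ℂ} (h : CC A j f) (a : Fin n) :
    MeasureTheory.Integrable (Geo.rd A j (A.db j a f)) := by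
  rw [show Geo.rd A j (A.db j a f) = _ from funext fun x => rd_db h a x]
  have h2 : ∀ p : RI n, MeasureTheory.Integrable
      (fun x => fderiv ℝ (Geo.rd A j f) x (Tor812.ev p)) := fun p =>
    (h.isCC.fderiv_apply (Tor812.ev p)).smooth.continuous.integrable_of_hasCompactSupport
      (h.isCC.fderiv_apply (Tor812.ev p)).hasCompactSupport
  exact ((h2 _).add ((h2 _).const_mul I)).const_mul _

/-- **Stokes** for `∂̄` -/
theorem IntF_dbF (u : FS A) : IntF P t (dbF A u) = 0 := by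
  classical
  have := Fintype.ofFinite A.ι
  rw [← sum_psiF P u, map_sum, map_sum]
  refine Finset.sum_eq_zero fun j _ => ?_
  set v := psiF P j u with hv
  rw [IntF_loc P t (P.χ_cpt j) (P.χ_sub j) fun i x hx hxK => by
    rw [dbF_apply _ ((A.e i).map_source hx), dbC_congr (psiF_ev P j u hx hxK), dbC_const]]
  let f : Fin n → M → ℂ := fun a x =>
    if x ∈ (A.e j).source then t.t (dzb a * v.1 j (A.e j x)) else 0
  have hf0 : ∀ a, ∀ z ∈ (A.e j).target, (fun y => f a ((A.e j).symm y)) =ᶠ[𝓝 z]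
      fun y => (t.t ∘ₗ ezb a) (v.1 j y) := fun a z hz => by
    filter_upwards [(A.e j).open_target.mem_nhds hz] with y hy
    simp only [f, if_pos ((A.e j).map_target hy), (A.e j).right_inv hy]
    rfl
  have hf : ∀ a, CC A j (f a) := fun a => by
    refine CC.of_zero_off (fun z hz => ?_) (P.χ_cpt j) (P.χ_sub j) fun x hx => ?_
    · exact ((CD_fun _ (v.sm hz)).congr_of_eventuallyEq (hf0 a z hz)).contDiffWithinAt
    · by_cases hs : x ∈ (A.e j).source
      · simp only [f, if_pos hs]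
        rw [(psiF_ev P j u hs hx).self_of_nhds, mul_zero, map_zero]
      · exact if_neg hs
  have h1 : lint A j (dnF t (dbF A v) j) = lint A j (fun x => ∑ a, A.db j a (f a) x) := by
    refine lint_congr fun x hx => ?_
    have hz := (A.e j).map_source hx
    rw [dnF, dbF_apply _ hz, dbC, map_sum]
    refine Finset.sum_congr rfl fun a _ => ?_
    rw [Atl.db, dbj_congr (hf0 a _ hz), dbj_fun _ a (v.sm1 hz)]
    rfl
  rw [h1, lint_sum _ fun a _ => integrable_db (hf a) a]
  exact Finset.sum_eq_zero fun a _ => lint_db (hf a) a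

/-- **Stokes** for `∂` -/
theorem IntF_dlF (u : FS A) : IntF P t (dlF A u) = 0 := by
  rw [dlF_def, IntF_cjF, IntF_dbF, map_zero]

/-- **Stokes** -/
theorem IntF_dF (u : FS A) : IntF P t (dF A u) = 0 := by
  rw [dF_eq, map_add, IntF_dlF, IntF_dbF, add_zero]

theorem IntF_dbF_mul (u v : FS A) :
    IntF P t (dbF A u * v) = -IntF P t (invF A u * dbF A v) := by
  have h := IntF_dbF P t (u * v)
  rw [dbF_mul, map_add] at h
  exact eq_neg_of_add_eq_zero_left h


theorem IntF_dF_mul (u v : FS A) :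
    IntF P t (dF A u * v) = -IntF P t (invF A u * dF A v) := by
  have h := IntF_dF P t (u * v)
  rw [dF_mul, map_add] at h
  exact eq_neg_of_add_eq_zero_left h

end

end Crest.Agent.X262.Kah
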