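import Crest.Agent.X262.Kah.FibA

/-!
# X262 / Kah (helper60), file FibB: monomial basis, number operators, types

* `mon l`, `bas : Basis (K n) ℂ (V n)` with `K n = Finset (Fin n ⊕ Fin n)`, bidegree `tp S`, `tq S`;
* `Nz`, `Nzb` number operators; `Ty p q` forms of type `(p,q)`; `pr p q` the projectors.
-/

set_option autoImplicit false
set_option linter.unusedSectionVars false
set_option linter.unusedSimpArgs false

open Module Complex
open scoped ComplexConjugate

noncomputable section

namespace Crest.Agent.X262.Kah.Fib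

open Crest.Agent.R208.F Crest.Agent.R208.CW
open Crest.Agent.R275.Geo (Cn)

variable {n : ℕ}

/-! ### monomials -/

/-- product of generators -/
def mon (l : List (Ix n)) : V n := (l.map th).prod

@[simp] theorem mon_nil : mon ([] : List (Ix n)) = 1 := rfl

@[simp] theorem mon_cons (i : Ix n) (l : List (Ix n)) : mon (i :: l) = th i * mon l := by
  simp [mon]

theorem mon_append (l m : List (Ix n)) : mon (l ++ m) = mon l * mon m := by simp [mon]

theorem mon_perm {l m : List (Ix n)} (h : l.Perm m) : ∃ s : ℂ, s * s = 1 ∧ mon l = s • mon m := by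
  induction h with
  | nil => exact ⟨1, by simp, by simp⟩
  | cons i _ ih =>
    obtain ⟨s, hs, h⟩ := ih
    exact ⟨s, hs, by rw [mon_cons, mon_cons, h, mul_smul_comm]⟩
  | swap i j l =>
    exact ⟨-1, by simp, by
      rw [mon_cons, mon_cons, mon_cons, mon_cons, ← mul_assoc, th_anti, ← mul_assoc]; simp⟩
  | trans _ _ ih1 ih2 =>
    obtain ⟨s, hs, h⟩ := ih1
    obtain ⟨t, ht, h'⟩ := ih2
    exact ⟨s * t, by linear_combination (t * t) * hs + ht, by rw [h, h', smul_smul]⟩

theorem exists_perm_cons {α : Type*} {i : α} {l : List α} (h : i ∈ l) :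
    ∃ m, l.Perm (i :: m) := by
  obtain ⟨s, t, rfl⟩ := List.append_of_mem h
  exact ⟨s ++ t, List.perm_middle⟩

theorem th_mul_mon {i : Ix n} {l : List (Ix n)} (h : i ∈ l) : th i * mon l = 0 := by
  obtain ⟨m, hm⟩ := exists_perm_cons h
  obtain ⟨s, -, hs⟩ := mon_perm hm
  rw [hs, mon_cons, mul_smul_comm, ← mul_assoc, th_sq, zero_mul, smul_zero]

theorem mon_eq_zero {l : List (Ix n)} (h : ¬ l.Nodup) : mon l = 0 := by
  induction l with
  | nil => simp at h
  | cons i l ih =>
    rw [mon_cons]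
    by_cases hi : i ∈ l
    · exact th_mul_mon hi
    · rw [ih fun hl => h (List.nodup_cons.2 ⟨hi, hl⟩), mul_zero]

theorem ct_mon_of_not_mem {i : Ix n} {l : List (Ix n)} (h : i ∉ l) : ct i (mon l) = 0 := by
  induction l with
  | nil => exact ct_one i
  | cons j l ih =>
    rw [List.mem_cons, not_or] at h
    rw [mon_cons, ct_th_mul, if_neg h.1, ih h.2, mul_zero, sub_zero]

theorem ct_mon_cons {i : Ix n} {l : List (Ix n)} (h : i ∉ l) : ct i (mon (i :: l)) = mon l := by
  rw [mon_cons, ct_th_mul, if_pos rfl, ct_mon_of_not_mem h, mul_zero, sub_zero]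

theorem ct_mon_of_perm {i : Ix n} {l m : List (Ix n)} (hl : l.Nodup) (h : l.Perm (i :: m)) :
    ∃ s : ℂ, s * s = 1 ∧ ct i (mon l) = s • mon m ∧ th i * ct i (mon l) = mon l := by
  obtain ⟨s, hs, h'⟩ := mon_perm h
  have h2 : ct i (mon l) = s • mon m := by
    rw [h', map_smul, ct_mon_cons (List.nodup_cons.1 (h.nodup_iff.1 hl)).1]
  exact ⟨s, hs, h2, by rw [h2, mul_smul_comm, ← mon_cons, ← h']⟩

theorem th_ct_mon {i : Ix n} {l : List (Ix n)} [Decidable (i ∈ l)] (hl : l.Nodup) :
    th i * ct i (mon l) = if i ∈ l then mon l else 0 := by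
  split_ifs with h
  · obtain ⟨m, hm⟩ := exists_perm_cons h
    obtain ⟨s, -, -, hs⟩ := ct_mon_of_perm hl hm
    exact hs
  · rw [ct_mon_of_not_mem h, mul_zero]

/-- iterated contraction -/
def cl : List (Ix n) → Module.End ℂ (V n)
  | [] => 1
  | i :: l => cl l * ct i

theorem cl_mon {l : List (Ix n)} (hl : l.Nodup) : cl l (mon l) = 1 := by
  induction l with
  | nil => rfl
  | cons i l ih =>
    rw [List.nodup_cons] at hl
    rw [cl, Module.End.mul_apply, ct_mon_cons hl.1, ih hl.2]

theorem au_cl_mon {l m : List (Ix n)} (hm : m.Nodup) (h : ¬ l.Perm m) : au (cl l (mon m)) = 0 := by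
  induction l generalizing m with
  | nil =>
    cases m with
    | nil => exact absurd List.Perm.nil h
    | cons j m => rw [mon_cons]; exact au_th_mul _ _
  | cons i l ih =>
    rw [cl, Module.End.mul_apply]
    by_cases hi : i ∈ m
    · obtain ⟨m', hm'⟩ := exists_perm_cons hi
      obtain ⟨s, -, hs, -⟩ := ct_mon_of_perm hm hm'
      rw [hs, map_smul, map_smul, ih (List.nodup_cons.1 (hm'.nodup_iff.1 hm)).2, smul_zero]
      exact fun hp => h ((hp.cons i).trans hm'.symm)
    · rw [ct_mon_of_not_mem hi, map_zero, map_zero]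

/-! ### the basis -/

/-- index set of the monomial basis -/
abbrev K (n : ℕ) : Type := Finset (Ix n)

theorem mon_mem_span (l : List (Ix n)) :
    mon l ∈ Submodule.span ℂ (Set.range fun S : K n => mon S.toList) := by
  by_cases hl : l.Nodup
  · obtain ⟨s, -, hs⟩ := mon_perm (List.toFinset_toList hl).symm
    rw [hs]
    exact Submodule.smul_mem _ _ (Submodule.subset_span ⟨l.toFinset, rfl⟩)
  · rw [mon_eq_zero hl]; exact Submodule.zero_mem _

theorem span_mon (c : V n) : c ∈ Submodule.span ℂ (Set.range fun S : K n => mon S.toList) := by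
  induction c using indV with
  | h1 => exact mon_mem_span []
  | h0 => exact Submodule.zero_mem _
  | hadd x y hx hy => exact Submodule.add_mem _ hx hy
  | hsm z x hx => exact Submodule.smul_mem _ _ hx
  | hmul i x hx =>
    induction hx using Submodule.span_induction with
    | mem y hy => obtain ⟨S, rfl⟩ := hy; exact mon_cons i _ ▸ mon_mem_span _
    | zero => rw [mul_zero]; exact Submodule.zero_mem _
    | add y z _ _ hy hz => rw [mul_add]; exact Submodule.add_mem _ hy hz
    | smul z y _ hy => rw [mul_smul_comm]; exact Submodule.smul_mem _ _ hy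

theorem au_cl_ne {S T : K n} (h : S ≠ T) : au (cl S.toList (mon T.toList)) = 0 :=
  au_cl_mon T.nodup_toList fun hp => h (by
    rw [← S.toList_toFinset, ← T.toList_toFinset]; exact List.toFinset_eq_of_perm _ _ hp)

theorem au_cl_self (S : K n) : au (cl S.toList (mon S.toList)) = 1 := by
  rw [cl_mon S.nodup_toList, au_one]

theorem li_mon : LinearIndependent ℂ fun S : K n => mon S.toList :=
  LinearIndependent.of_pairwise_dual_eq_zero_one _ (fun S => au ∘ₗ cl S.toList)
    (fun _ _ h => au_cl_ne h) au_cl_self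

/-- the monomial basis -/
def bas : Basis (K n) ℂ (V n) := Basis.mk li_mon fun c _ => span_mon c

theorem bas_apply (S : K n) : bas S = mon S.toList := Basis.mk_apply _ _ _

theorem bas_empty : bas (∅ : K n) = 1 := by rw [bas_apply, Finset.toList_empty, mon_nil]

theorem bas_repr (c : V n) (S : K n) : bas.repr c S = au (cl S.toList c) := by
  have : (Finsupp.lapply S ∘ₗ (bas (n := n)).repr.toLinearMap : V n →ₗ[ℂ] ℂ)
      = au ∘ₗ cl S.toList := by
    refine bas.ext fun T => ?_
    simp only [LinearMap.comp_apply, LinearEquiv.coe_coe, Basis.repr_self, Finsupp.lapply_apply]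
    rw [bas_apply]
    by_cases h : S = T
    · subst h; rw [au_cl_self, Finsupp.single_eq_same]
    · rw [au_cl_ne h, Finsupp.single_eq_of_ne h]
  exact LinearMap.congr_fun this c

theorem mon_eq_bas {l : List (Ix n)} (hl : l.Nodup) :
    ∃ s : ℂ, s * s = 1 ∧ mon l = s • bas l.toFinset := by
  rw [bas_apply]; exact mon_perm (List.toFinset_toList hl).symm

instance : FiniteDimensional ℂ (V n) := (bas (n := n)).finiteDimensional_of_finite


/-- holomorphic degree -/
def tp (S : K n) : ℕ := S.toLeft.card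
/-- antiholomorphic degree -/
def tq (S : K n) : ℕ := S.toRight.card

theorem tp_le (S : K n) : tp S ≤ n := by
  simpa [tp] using S.toLeft.card_le_univ

theorem tq_le (S : K n) : tq S ≤ n := by
  simpa [tq] using S.toRight.card_le_univ

theorem tp_add_tq (S : K n) : tp S + tq S = S.card := Finset.card_toLeft_add_card_toRight

theorem eq_empty_of_tp {S : K n} (hp : tp S = 0) (hq : tq S = 0) : S = ∅ := by
  rw [← Finset.card_eq_zero, ← tp_add_tq, hp, hq]


theorem tp_univ : tp (Finset.univ : K n) = n := by simp [tp]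
theorem tq_univ : tq (Finset.univ : K n) = n := by simp [tq]

/-! ### number operators -/

/-- holomorphic number operator -/
def Nz : Module.End ℂ (V n) := ∑ a, ez a * iz a
/-- antiholomorphic number operator -/
def Nzb : Module.End ℂ (V n) := ∑ a, ezb a * izb a

theorem Nz_apply (c : V n) : Nz c = ∑ a, dz a * iz a c := by simp [Nz, LinearMap.sum_apply]
theorem Nzb_apply (c : V n) : Nzb c = ∑ a, dzb a * izb a c := by simp [Nzb, LinearMap.sum_apply]

theorem th_ct_mul (i : Ix n) (x y : V n) :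
    th i * ct i (x * y) = th i * ct i x * y + x * (th i * ct i y) := by
  rw [ct_mul, mul_add, ← mul_assoc, ← mul_assoc, th_mul i (invC x), invC_invC, mul_assoc x]

theorem Nz_mul (x y : V n) : Nz (x * y) = Nz x * y + x * Nz y := by
  simp only [Nz_apply, Finset.sum_mul, Finset.mul_sum, ← Finset.sum_add_distrib]
  exact Finset.sum_congr rfl fun a _ => th_ct_mul (.inl a) x y

theorem Nzb_mul (x y : V n) : Nzb (x * y) = Nzb x * y + x * Nzb y := by
  simp only [Nzb_apply, Finset.sum_mul, Finset.mul_sum, ← Finset.sum_add_distrib]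
  exact Finset.sum_congr rfl fun a _ => th_ct_mul (.inr a) x y

theorem Nz_one : Nz (1 : V n) = 0 := by
  rw [Nz_apply]; exact Finset.sum_eq_zero fun a _ => by rw [← ct_inl, ct_one, mul_zero]

theorem Nzb_one : Nzb (1 : V n) = 0 := by
  rw [Nzb_apply]; exact Finset.sum_eq_zero fun a _ => by rw [← ct_inr, ct_one, mul_zero]

theorem Nz_dz (b : Fin n) : Nz (dz b) = dz b := by
  simp only [Nz_apply, ← ct_inl, ← th_inl, ct_th, Sum.inl.injEq, mul_ite, mul_one, mul_zero]
  simp

theorem Nz_dzb (b : Fin n) : Nz (dzb b) = 0 := by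
  simp only [Nz_apply, ← ct_inl, ← th_inr, ct_th]
  simp

theorem Nzb_dz (b : Fin n) : Nzb (dz b) = 0 := by
  simp only [Nzb_apply, ← ct_inr, ← th_inl, ct_th]
  simp

theorem Nzb_dzb (b : Fin n) : Nzb (dzb b) = dzb b := by
  simp only [Nzb_apply, ← ct_inr, ← th_inr, ct_th, Sum.inr.injEq, mul_ite, mul_one, mul_zero]
  simp

theorem Nz_bas (S : K n) : Nz (bas S) = (tp S : ℂ) • bas S := by
  have key : ∀ a : Fin n, dz a * iz a (bas S) = if a ∈ S.toLeft then bas S else 0 := by
    intro a
    classical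
    rw [bas_apply, ← ct_inl, ← th_inl, th_ct_mon S.nodup_toList]
    simp
  simp only [Nz_apply, key, Finset.sum_ite_mem, Finset.univ_inter, Finset.sum_const, tp,
    Nat.cast_smul_eq_nsmul]

theorem Nzb_bas (S : K n) : Nzb (bas S) = (tq S : ℂ) • bas S := by
  have key : ∀ a : Fin n, dzb a * izb a (bas S) = if a ∈ S.toRight then bas S else 0 := by
    intro a
    classical
    rw [bas_apply, ← ct_inr, ← th_inr, th_ct_mon S.nodup_toList]
    simp
  simp only [Nzb_apply, key, Finset.sum_ite_mem, Finset.univ_inter, Finset.sum_const, tq,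
    Nat.cast_smul_eq_nsmul]

theorem repr_diag {T : Module.End ℂ (V n)} {f : K n → ℂ} (h : ∀ S, T (bas S) = f S • bas S)
    (c : V n) (S : K n) : bas.repr (T c) S = f S * bas.repr c S := by
  have : (Finsupp.lapply S ∘ₗ (bas (n := n)).repr.toLinearMap ∘ₗ T : V n →ₗ[ℂ] ℂ)
      = f S • (Finsupp.lapply S ∘ₗ (bas (n := n)).repr.toLinearMap) := by
    refine bas.ext fun U => ?_
    simp only [LinearMap.comp_apply, h, map_smul, LinearEquiv.coe_coe, Basis.repr_self,
      Finsupp.lapply_apply, LinearMap.smul_apply, smul_eq_mul]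
    by_cases hU : S = U
    · rw [hU]
    · rw [Finsupp.single_eq_of_ne hU, mul_zero, mul_zero]
  exact LinearMap.congr_fun this c

/-! ### types -/

/-- forms of type `(p,q)` -/
def Ty (p q : ℕ) : Submodule ℂ (V n) where
  carrier := {c | Nz c = (p : ℂ) • c ∧ Nzb c = (q : ℂ) • c}
  add_mem' := by
    rintro x y ⟨h1, h2⟩ ⟨k1, k2⟩
    exact ⟨by rw [map_add, h1, k1, smul_add], by rw [map_add, h2, k2, smul_add]⟩
  zero_mem' := ⟨by simp, by simp⟩
  smul_mem' := by
    rintro z x ⟨h1, h2⟩
    exact ⟨by rw [map_smul, h1, smul_comm], by rw [map_smul, h2, smul_comm]⟩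

variable {p q p' q' : ℕ} {x y : V n}


theorem bas_mem (S : K n) : bas S ∈ Ty (tp S) (tq S) := ⟨Nz_bas S, Nzb_bas S⟩

theorem mem_Ty_iff : x ∈ Ty p q ↔ ∀ S, bas.repr x S ≠ 0 → tp S = p ∧ tq S = q := by
  constructor
  · rintro ⟨h1, h2⟩ S hS
    have k1 := repr_diag Nz_bas x S
    have k2 := repr_diag Nzb_bas x S
    rw [h1, map_smul, Finsupp.smul_apply, smul_eq_mul] at k1
    rw [h2, map_smul, Finsupp.smul_apply, smul_eq_mul] at k2
    exact ⟨(Nat.cast_injective (mul_right_cancel₀ hS k1)).symm,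
      (Nat.cast_injective (mul_right_cancel₀ hS k2)).symm⟩
  · intro h
    rw [← bas.sum_repr x]
    refine Submodule.sum_mem _ fun S _ => ?_
    by_cases hS : bas.repr x S = 0
    · rw [hS, zero_smul]; exact Submodule.zero_mem _
    · obtain ⟨rfl, rfl⟩ := h S hS
      exact Submodule.smul_mem _ _ (bas_mem S)

/-- induction on forms of type `(p,q)` -/
theorem Ty.ind {P : V n → Prop} (h0 : P 0) (hadd : ∀ x y, P x → P y → P (x + y))
    (hsm : ∀ (z : ℂ) x, P x → P (z • x)) (hb : ∀ S, tp S = p → tq S = q → P (bas S))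
    (hx : x ∈ Ty p q) : P x := by
  rw [← bas.sum_repr x]
  refine Finset.sum_induction _ P hadd h0 fun S _ => ?_
  by_cases hS : bas.repr x S = 0
  · rw [hS, zero_smul]; exact h0
  · obtain ⟨h1, h2⟩ := mem_Ty_iff.1 hx S hS
    exact hsm _ _ (hb S h1 h2)

theorem one_mem_Ty : (1 : V n) ∈ Ty 0 0 := ⟨by simp [Nz_one], by simp [Nzb_one]⟩
theorem dz_mem (a : Fin n) : dz a ∈ Ty 1 0 := ⟨by simp [Nz_dz], by simp [Nzb_dz]⟩
theorem dzb_mem (a : Fin n) : dzb a ∈ Ty 0 1 := ⟨by simp [Nz_dzb], by simp [Nzb_dzb]⟩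


theorem Ty.mul (hx : x ∈ Ty p q) (hy : y ∈ Ty p' q') : x * y ∈ Ty (p + p') (q + q') :=
  ⟨by rw [Nz_mul, hx.1, hy.1, smul_mul_assoc, mul_smul_comm, ← add_smul, Nat.cast_add],
    by rw [Nzb_mul, hx.2, hy.2, smul_mul_assoc, mul_smul_comm, ← add_smul, Nat.cast_add]⟩

theorem Ty.pow (hx : x ∈ Ty p q) (k : ℕ) : x ^ k ∈ Ty (k * p) (k * q) := by
  induction k with
  | zero => simpa using one_mem_Ty
  | succ k ih => rw [pow_succ, Nat.succ_mul, Nat.succ_mul]; exact Ty.mul ih hx

theorem Ty.eq_zero (hx : x ∈ Ty p q) (h : n < p ∨ n < q) : x = 0 := by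
  refine Ty.ind (P := fun x => x = 0) rfl (fun _ _ h1 h2 => by rw [h1, h2, add_zero])
    (fun _ _ h1 => by rw [h1, smul_zero]) (fun S h1 h2 => ?_) hx
  have := tp_le S
  have := tq_le S
  omega


theorem mon_mem (l : List (Ix n)) : mon l ∈ Ty (l.countP Sum.isLeft) (l.countP Sum.isRight) := by
  induction l with
  | nil => exact one_mem_Ty
  | cons i l ih =>
    rw [mon_cons]
    rcases i with a | a
    · simpa [List.countP_cons, add_comm] using Ty.mul (dz_mem a) ih
    · simpa [List.countP_cons, add_comm] using Ty.mul (dzb_mem a) ih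

theorem bas_countP (S : K n) :
    S.toList.countP Sum.isLeft = tp S ∧ S.toList.countP Sum.isRight = tq S := by
  have h := mon_mem S.toList
  rw [← bas_apply] at h
  have := mem_Ty_iff.1 h S (by simp)
  exact ⟨this.1.symm, this.2.symm⟩

/-- an algebra endomorphism acting by scalars on the generators -/
theorem Ty.map_eq {f : V n →+* V n} (hf : ∀ (z : ℂ) x, f (z • x) = z • f x) {s t : ℂ}
    (h1 : ∀ a, f (dz a) = s • dz a) (h2 : ∀ a, f (dzb a) = t • dzb a) (hx : x ∈ Ty p q) :
    f x = (s ^ p * t ^ q) • x := by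
  have key : ∀ l : List (Ix n),
      f (mon l) = (s ^ l.countP Sum.isLeft * t ^ l.countP Sum.isRight) • mon l := by
    intro l
    induction l with
    | nil => simp
    | cons i l ih =>
      rw [mon_cons, map_mul, ih]
      rcases i with a | a
      · simp only [th_inl, h1, smul_mul_assoc, mul_smul_comm, smul_smul]
        congr 1; simp [List.countP_cons]; ring
      · simp only [th_inr, h2, smul_mul_assoc, mul_smul_comm, smul_smul]
        congr 1; simp [List.countP_cons]; ring
  refine Ty.ind (P := fun x => f x = (s ^ p * t ^ q) • x) (by simp)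
    (fun _ _ h1 h2 => by rw [map_add, h1, h2, smul_add])
    (fun _ _ h1 => by rw [hf, h1, smul_comm]) (fun S h1 h2 => ?_) hx
  rw [bas_apply, key, (bas_countP S).1, (bas_countP S).2, h1, h2]

theorem Ty.invC_eq (hx : x ∈ Ty p q) : invC x = ((-1 : ℂ) ^ (p + q)) • x := by
  rw [pow_add]
  exact Ty.map_eq invC_smul (fun a => by simpa using invC_th (.inl a))
    (fun a => by simpa using invC_th (.inr a)) hx

theorem Ty.eq_au (hx : x ∈ Ty 0 0) : x = au x • 1 := by
  refine Ty.ind (P := fun x => x = au x • 1) (by simp)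
    (fun _ _ h1 h2 => by rw [map_add, add_smul, ← h1, ← h2])
    (fun _ _ h1 => by rw [map_smul, smul_assoc, ← h1]) (fun S h1 h2 => ?_) hx
  rw [eq_empty_of_tp h1 h2, bas_empty, au_one, one_smul]


theorem Ty.au_eq_zero (hx : x ∈ Ty p q) (h : p ≠ 0 ∨ q ≠ 0) : au x = 0 := by
  have h1 : au x = bas.repr x ∅ := by rw [bas_repr, Finset.toList_empty]; rfl
  by_contra h2
  have := mem_Ty_iff.1 hx ∅ (h1 ▸ h2)
  have h3 := tp_add_tq (∅ : K n)
  rw [Finset.card_empty] at h3
  omega

theorem Ty.conj_mem (hx : x ∈ Ty p q) : Cx.conj x ∈ Ty q p := by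
  have h1 : ∀ c : V n, Nz (Cx.conj c) = Cx.conj (Nzb c) := fun c => by
    simp only [Nz_apply, Nzb_apply, map_sum, map_mul, conj_dzb, conj_izb]
  have h2 : ∀ c : V n, Nzb (Cx.conj c) = Cx.conj (Nz c) := fun c => by
    simp only [Nz_apply, Nzb_apply, map_sum, map_mul, conj_dz, conj_iz]
  exact ⟨by rw [h1, hx.2, conj_smul, map_natCast], by rw [h2, hx.1, conj_smul, map_natCast]⟩

theorem Ty.pb_mem {m : ℕ} {L : Cn m →ₗ[ℝ] Cn n} (hL : ∀ v, L (I • v) = I • L v) (hx : x ∈ Ty p q) :
    pbC L x ∈ Ty p q := by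
  have key : ∀ l : List (Ix n),
      pbC L (mon l) ∈ Ty (l.countP Sum.isLeft) (l.countP Sum.isRight) := by
    intro l
    induction l with
    | nil => rw [mon_nil, map_one]; exact one_mem_Ty
    | cons i l ih =>
      rw [mon_cons, map_mul]
      rcases i with a | a
      · have : pbC L (dz a) ∈ Ty 1 0 := by
          rw [pbC_dz hL]; exact Submodule.sum_mem _ fun b _ => Submodule.smul_mem _ _ (dz_mem b)
        simpa [List.countP_cons, add_comm] using Ty.mul this ih
      · have : pbC L (dzb a) ∈ Ty 0 1 := by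
          rw [pbC_dzb hL]; exact Submodule.sum_mem _ fun b _ => Submodule.smul_mem _ _ (dzb_mem b)
        simpa [List.countP_cons, add_comm] using Ty.mul this ih
  refine Ty.ind (P := fun x => pbC L x ∈ Ty p q) (by simp)
    (fun _ _ h1 h2 => by rw [map_add]; exact Submodule.add_mem _ h1 h2)
    (fun _ _ h1 => by rw [pbC_smul]; exact Submodule.smul_mem _ _ h1) (fun S h1 h2 => ?_) hx
  have := key S.toList
  rwa [(bas_countP S).1, (bas_countP S).2, h1, h2, ← bas_apply] at this

theorem comm_ct (i j : Ix n) (c : V n) :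
    th i * ct i (ct j c) = ct j (th i * ct i c) - if j = i then ct j c else 0 := by
  rw [ct_th_mul, ct_comm j i]
  split_ifs with h
  · subst h; simp [ct_ct]
  · simp

theorem Nz_iz (a : Fin n) (c : V n) : Nz (iz a c) = iz a (Nz c) - iz a c := by
  have := fun b => comm_ct (.inl b) (.inl a) c
  simp only [th_inl, ct_inl, Sum.inl.injEq] at this
  simp only [Nz_apply, this, map_sum, Finset.sum_sub_distrib]
  simp

theorem Nzb_iz (a : Fin n) (c : V n) : Nzb (iz a c) = iz a (Nzb c) := by
  have := fun b => comm_ct (.inr b) (.inl a) c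
  simp only [th_inr, ct_inl, ct_inr, reduceCtorEq, if_false, sub_zero] at this
  simp only [Nzb_apply, this, map_sum]

theorem Nz_izb (a : Fin n) (c : V n) : Nz (izb a c) = izb a (Nz c) := by
  have := fun b => comm_ct (.inl b) (.inr a) c
  simp only [th_inl, ct_inl, ct_inr, reduceCtorEq, if_false, sub_zero] at this
  simp only [Nz_apply, this, map_sum]

theorem Nzb_izb (a : Fin n) (c : V n) : Nzb (izb a c) = izb a (Nzb c) - izb a c := by
  have := fun b => comm_ct (.inr b) (.inr a) c
  simp only [th_inr, ct_inr, Sum.inr.injEq] at this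
  simp only [Nzb_apply, this, map_sum, Finset.sum_sub_distrib]
  simp

theorem Ty.ez_mem (a : Fin n) (hx : x ∈ Ty p q) : ez a x ∈ Ty (p + 1) q := by
  simpa [add_comm] using Ty.mul (dz_mem a) hx

theorem Ty.ezb_mem (a : Fin n) (hx : x ∈ Ty p q) : ezb a x ∈ Ty p (q + 1) := by
  simpa [add_comm] using Ty.mul (dzb_mem a) hx

theorem Ty.iz_mem (a : Fin n) (hx : x ∈ Ty (p + 1) q) : iz a x ∈ Ty p q :=
  ⟨by rw [Nz_iz, hx.1, map_smul, Nat.cast_succ, add_smul, one_smul, add_sub_cancel_right],
    by rw [Nzb_iz, hx.2, map_smul]⟩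

theorem Ty.izb_mem (a : Fin n) (hx : x ∈ Ty p (q + 1)) : izb a x ∈ Ty p q :=
  ⟨by rw [Nz_izb, hx.1, map_smul],
    by rw [Nzb_izb, hx.2, map_smul, Nat.cast_succ, add_smul, one_smul, add_sub_cancel_right]⟩

theorem Ty.iz_eq_zero (a : Fin n) (hx : x ∈ Ty 0 q) : iz a x = 0 := by
  refine Ty.ind (P := fun x => iz a x = 0) (by simp)
    (fun _ _ h1 h2 => by rw [map_add, h1, h2, add_zero])
    (fun _ _ h1 => by rw [map_smul, h1, smul_zero]) (fun S h1 _ => ?_) hx
  rw [bas_apply, ← ct_inl]
  refine ct_mon_of_not_mem fun h => ?_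
  have : a ∈ S.toLeft := by simpa using h
  rw [tp, Finset.card_eq_zero] at h1
  simp [h1] at this

theorem Ty.izb_eq_zero (a : Fin n) (hx : x ∈ Ty p 0) : izb a x = 0 := by
  have := congrArg Cx.conj (Ty.iz_eq_zero a (Ty.conj_mem hx))
  rwa [conj_iz, Cx.conj_conj, map_zero] at this


theorem Ty.izb_mem' (a : Fin n) (hx : x ∈ Ty p q) : izb a x ∈ Ty p (q - 1) := by
  cases q with
  | zero => rw [Ty.izb_eq_zero a hx]; exact Submodule.zero_mem _
  | succ q => exact Ty.izb_mem a hx

/-- matrix entries of an operator which shifts the type -/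
theorem toMatrix_type {m : ℕ} {T : V m →ₗ[ℂ] V n} {S : K n} {U : K m}
    (hT : T (bas U) ∈ Ty p q) (h : LinearMap.toMatrix bas bas T S U ≠ 0) :
    tp S = p ∧ tq S = q := by
  rw [LinearMap.toMatrix_apply] at h
  exact mem_Ty_iff.1 hT S h

end Crest.Agent.X262.Kah.Fib
end
private theorem rz_965520cc8d : type_of% @_root_.Crest.Agent.X262.Kah.Fib.cl.eq_def := @_root_.Crest.Agent.X262.Kah.Fib.cl.eq_def -- L97
private theorem rz_9b271a64ec : type_of% @_root_.Crest.Agent.X262.Kah.Fib.cl.eq_1 := @_root_.Crest.Agent.X262.Kah.Fib.cl.eq_1 -- L97
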