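import Crest.Agent.X262.Man.Emb
import Crest.Agent.X262.Kah.FS

/-!
# Row 262, KAH (helper35), file BrgA: ambient forms and forms read in the charts

* `SA X`   : ambient forms which are smooth along `X`;
* `res ε`  : `SA ε.X →ₐ FS A`, onto, kernel = forms with zero restriction, commutes with `d`;
* `ZF A`   : even closed forms; `toH ε : ZF A →ₐ H ε.X`, onto, kernel = exact forms;
* `res0_pull` : pull-back by a holomorphic map, read in the charts.
-/

set_option autoImplicit false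
set_option linter.unusedSectionVars false

open Set Filter Topology Function
open scoped ContDiff ComplexConjugate

noncomputable section

namespace Crest.Agent.X262.Kah

open Crest.Agent.R208.F Crest.Agent.R208.FI Crest.Agent.R208.CW
open Crest.Agent.R275.Geo (Cn RI rc Atl)
open Crest.Agent.R273.Map_835 (HolMap rd dm)
open Crest.Agent.X262.Man (Emb)

variable {n m : ℕ} {M N : Type} [TopologicalSpace M] [TopologicalSpace N] {A : Atl n M}
  {B : Atl m N}

theorem tgt_mem {i : A.ι} {z : Cn n} (hz : z ∈ (A.e i).target) : (A.e i).target ∈ 𝓝 z :=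
  (A.e i).open_target.mem_nhds hz

section amb

variable {E : Type} [NormedAddCommGroup E] [NormedSpace ℝ E] [FiniteDimensional ℝ E]

/-- ambient forms which are smooth along `X` -/
def SA (X : Set E) : Subalgebra ℂ (E → CF E) where
  carrier := {om | Smo X om}
  mul_mem' ha hb := ha.mul hb
  add_mem' ha hb := ha.add hb
  algebraMap_mem' _ := Smo.const _

theorem SA_smo {X : Set E} (w : SA X) : Smo X w.1 := w.2

theorem smo_of {X : Set E} {w : E → CF E} (h : ∀ x, CD ∞ w x) : Smo X w := fun x _ => h x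

theorem CD_conj {G : Type*} [NormedAddCommGroup G] [NormedSpace ℝ G] {k : WithTop ℕ∞}
    {om : G → CF E} {x : G} (h : CD k om x) : CD k (fun y => Cx.conj (om y)) x :=
  ⟨h.re, h.im.neg⟩

theorem Smo_conj {X : Set E} {om : E → CF E} (h : Smo X om) : Smo X fun y => Cx.conj (om y) :=
  fun x hx => CD_conj (h x hx)

theorem Smo_inv {X : Set E} {om : E → CF E} (h : Smo X om) : Smo X fun y => invC (om y) :=
  fun x hx => (h x hx).invC

theorem dC_conj (om : E → CF E) (x : E) :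
    dC (fun y => Cx.conj (om y)) x = Cx.conj (dC om x) :=
  Cx.ext rfl (d_neg (om := fun y => (om y).im))

theorem invC_conj {F : Type*} [AddCommGroup F] [Module ℝ F] (c : CF F) :
    invC (Cx.conj c) = Cx.conj (invC c) := Cx.ext rfl (by simp)

theorem conj_mem_Z {X : Set E} {om : E → CF E} (h : om ∈ Z X) :
    (fun y => Cx.conj (om y)) ∈ Z X :=
  ⟨fun x => by rw [invC_conj, h.1], Smo_conj h.2.1, fun x hx => by
    rw [dC_conj, rs, pbC_conj]
    exact (congrArg Cx.conj (h.2.2 x hx)).trans (map_zero _)⟩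

end amb

variable {E : Type} [NormedAddCommGroup E] [NormedSpace ℝ E] [FiniteDimensional ℝ E]
  {E' : Type} [NormedAddCommGroup E'] [NormedSpace ℝ E'] [FiniteDimensional ℝ E']
  (ε : Emb A E) (ε' : Emb B E') {i k : A.ι} {z : Cn n}

theorem pullC_par_tr (hz : z ∈ A.ov i k) (w : E → CF E) :
    pullC (ε.par i) w z = pbC (Dtr A i k z) (pullC (ε.par k) w (tr A i k z)) :=
  Cx.ext (ε.pull_par_tr hz fun y => (w y).re) (ε.pull_par_tr hz fun y => (w y).im)

theorem CD_par {w : E → CF E} (h : Smo ε.X w) (hz : z ∈ (A.e i).target) :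
    CD ∞ (pullC (ε.par i) w) z :=
  CD.pullC (ε.contDiffAt_par hz) (le_refl _) (h _ (ε.par_mem i z))

/-- an ambient form read in the charts -/
def res0 (w : E → CF E) (h : Smo ε.X w) : FS A :=
  FS.mk' (fun i => pullC (ε.par i) w) (fun _ _ hz => CD_par ε h hz)
    fun _ _ _ hz => pullC_par_tr ε hz w

theorem res0_apply {w : E → CF E} (h : Smo ε.X w) (hz : z ∈ (A.e i).target) :
    (res0 ε w h).1 i z = pullC (ε.par i) w z := FS.mk'_apply hz

theorem res0_ev {w : E → CF E} (h : Smo ε.X w) (hz : z ∈ (A.e i).target) :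
    (res0 ε w h).1 i =ᶠ[𝓝 z] pullC (ε.par i) w := FS.mk'_ev hz

/-- **restriction** of ambient forms -/
def res : SA ε.X →ₐ[ℂ] FS A :=
  AlgHom.ofLinearMap
    { toFun := fun w => res0 ε w.1 (SA_smo w)
      map_add' := fun a b => FS.ext' fun i z hz => by
        rw [FS.add_apply, res0_apply ε _ hz, res0_apply ε _ hz, res0_apply ε _ hz]
        exact map_add (pbC _) _ _
      map_smul' := fun c a => FS.ext' fun i z hz => by
        rw [RingHom.id_apply, FS.smul_apply, res0_apply ε _ hz, res0_apply ε _ hz]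
        exact pbC_smul _ _ _ }
    (FS.ext' fun i z hz => by
      rw [FS.one_apply hz]
      exact (res0_apply ε (SA_smo 1) hz).trans (map_one (pbC _)))
    fun a b => FS.ext' fun i z hz => by
      rw [FS.mul_apply]
      refine (res0_apply ε (SA_smo (a * b)) hz).trans ?_
      refine Eq.trans ?_
        (congrArg₂ (· * ·) (res0_apply ε (SA_smo a) hz) (res0_apply ε (SA_smo b) hz)).symm
      exact map_mul (pbC _) _ _



theorem res0_d {w : E → CF E} (h : Smo ε.X w) : res0 ε (dC w) h.dC = dF A (res0 ε w h) :=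
  FS.ext' fun i z hz => by
    rw [res0_apply ε _ hz, dF_apply _ hz, dC_congr (res0_ev ε h hz)]
    exact (dC_pullC ((ε.contDiffAt_par hz).of_le two_le) (h.cd1 (ε.par_mem i z))).symm

theorem res0_conj {w : E → CF E} (h : Smo ε.X w) :
    res0 ε (fun y => Cx.conj (w y)) (Smo_conj h) = cjF A (res0 ε w h) :=
  FS.ext' fun i z hz => by
    rw [res0_apply ε _ hz, cjF_apply, res0_apply ε _ hz]
    exact pbC_conj _ _

theorem res0_inv {w : E → CF E} (h : Smo ε.X w) :
    res0 ε (fun y => invC (w y)) (Smo_inv h) = invF A (res0 ε w h) :=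
  FS.ext' fun i z hz => by
    rw [res0_apply ε _ hz, invF_apply, res0_apply ε _ hz]
    exact pbC_invC _ _

theorem res0_add {a b : E → CF E} (ha : Smo ε.X a) (hb : Smo ε.X b) :
    res0 ε (a + b) (ha.add hb) = res0 ε a ha + res0 ε b hb :=
  map_add (res ε) ⟨a, ha⟩ ⟨b, hb⟩

theorem res0_mul {a b : E → CF E} (ha : Smo ε.X a) (hb : Smo ε.X b) :
    res0 ε (a * b) (ha.mul hb) = res0 ε a ha * res0 ε b hb :=
  map_mul (res ε) ⟨a, ha⟩ ⟨b, hb⟩

theorem res0_smul (c : ℂ) {a : E → CF E} (ha : Smo ε.X a) :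
    res0 ε (c • a) (ha.csmul c) = c • res0 ε a ha :=
  map_smul (res ε) c ⟨a, ha⟩

variable [CompactSpace M]

theorem res0_eq_iff {a b : E → CF E} (ha : Smo ε.X a) (hb : Smo ε.X b) :
    res0 ε a ha = res0 ε b hb ↔ ∀ x ∈ ε.X, rs ε.X x (a x) = rs ε.X x (b x) := by
  rw [ε.forall_par]
  refine ⟨fun h i z hz => (ε.rs_iff hz).2 ?_, fun h => FS.ext' fun i z hz => ?_⟩
  · exact (res0_apply ε ha hz).symm.trans ((congrArg (fun u : FS A => u.1 i z) h).trans
      (res0_apply ε hb hz))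
  · rw [res0_apply ε ha hz, res0_apply ε hb hz]
    exact (ε.rs_iff hz).1 (h i z hz)

/-- every form is the restriction of a smooth ambient form -/
theorem exists_res0 (u : FS A) :
    ∃ (w : E → CF E) (h : ∀ x, CD ∞ w x), res0 ε w (smo_of h) = u := by
  obtain ⟨a, ha, ha'⟩ := ε.exists_form (w := fun i z => (u.1 i z).re)
    (fun i z hz => (u.sm hz).re) fun i k z hz => congrArg Cx.re (u.tr' hz)
  obtain ⟨b, hb, hb'⟩ := ε.exists_form (w := fun i z => (u.1 i z).im)
    (fun i z hz => (u.sm hz).im) fun i k z hz => congrArg Cx.im (u.tr' hz)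
  refine ⟨fun x => ⟨a x, b x⟩, fun x => ⟨ha.contDiffAt, hb.contDiffAt⟩,
    FS.ext' fun i z hz => ?_⟩
  rw [res0_apply ε _ hz]
  exact Cx.ext (ha' i z hz) (hb' i z hz)


/-- a form with `invF u = s • u` has an ambient extension with the same property -/
theorem exists_res0_par {u : FS A} {s : ℂ} (hs : s * s = 1) (hu : invF A u = s • u) :
    ∃ (w : E → CF E) (h : ∀ x, CD ∞ w x), (∀ x, invC (w x) = s • w x) ∧
      res0 ε w (smo_of h) = u := by
  obtain ⟨w, h, e⟩ := exists_res0 ε u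
  refine ⟨fun x => (1 / 2 : ℂ) • (w x + s • invC (w x)),
    fun x => ((h x).add ((h x).invC.csmul s)).csmul _, fun x => ?_, FS.ext' fun i z hz => ?_⟩
  · rw [invC_smul, map_add, invC_smul, invC_invC, smul_comm s, smul_add s, smul_smul s s, hs,
      one_smul, add_comm]
  · have h1 : pullC (ε.par i) w z = u.1 i z := by rw [← e, res0_apply ε _ hz]
    have h2 : invC (u.1 i z) = s • u.1 i z := congrArg (fun v : FS A => v.1 i z) hu
    rw [res0_apply ε _ hz, pullC, pbC_smul, map_add, pbC_smul, pbC_invC]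
    rw [pullC] at h1
    rw [h1, h2, smul_smul, hs, one_smul, ← two_smul ℂ, smul_smul]
    norm_num

/-! ### cohomology -/

theorem dF_one : dF A 1 = 0 := by
  have h := dF_mul (1 : FS A) 1
  have e : invF A 1 = 1 := FS.ext' fun i z hz => by rw [invF_apply, FS.one_apply hz, map_one]
  rw [e, one_mul, mul_one, one_mul] at h
  exact left_eq_add.1 h

theorem invF_one : invF A 1 = 1 :=
  FS.ext' fun i z hz => by rw [invF_apply, FS.one_apply hz, map_one]


theorem invF_cjF (u : FS A) : invF A (cjF A u) = cjF A (invF A u) :=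
  FS.ext' fun _ _ _ => invC_conj _

variable (A) in
/-- even closed forms -/
def ZF : Subalgebra ℂ (FS A) where
  carrier := {u | invF A u = u ∧ dF A u = 0}
  mul_mem' ha hb := ⟨by rw [invF_mul, ha.1, hb.1], by
    rw [dF_mul, ha.2, hb.2, zero_mul, mul_zero, add_zero]⟩
  add_mem' ha hb := ⟨by rw [map_add, ha.1, hb.1], by rw [map_add, ha.2, hb.2, add_zero]⟩
  algebraMap_mem' c := by
    rw [Algebra.algebraMap_eq_smul_one]
    exact ⟨by rw [map_smul, invF_one], by rw [map_smul, dF_one, smul_zero]⟩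

theorem mem_ZF {u : FS A} : u ∈ ZF A ↔ invF A u = u ∧ dF A u = 0 := Iff.rfl

theorem cjF_mem {u : FS A} (h : u ∈ ZF A) : cjF A u ∈ ZF A :=
  ⟨by rw [invF_cjF, h.1], by rw [← cjF_dF, h.2, map_zero]⟩

theorem res0_zero : res0 ε (fun _ => 0) (Smo.const 0) = 0 := map_zero (res ε)

theorem res0_mem {w : E → CF E} (h : w ∈ Z ε.X) : res0 ε w h.2.1 ∈ ZF A := by
  refine ⟨?_, ?_⟩
  · rw [← res0_inv]
    congr 1
    exact funext h.1
  · rw [← res0_d, ← res0_zero ε, res0_eq_iff]
    intro x hx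
    rw [h.2.2 x hx, map_zero]

theorem exists_Z (u : ZF A) : ∃ (w : E → CF E) (h : w ∈ Z ε.X), res0 ε w h.2.1 = u.1 := by
  obtain ⟨w, h, h1, e⟩ := exists_res0_par ε (u := u.1) (s := 1) (one_mul 1)
    (by rw [one_smul]; exact u.2.1)
  refine ⟨w, ⟨fun x => by rw [h1, one_smul], smo_of h, fun x hx => ?_⟩, e⟩
  have h2 : res0 ε (dC w) (smo_of h).dC = res0 ε (fun _ => 0) (Smo.const 0) := by
    rw [res0_d ε (smo_of h), e, u.2.2, res0_zero]
  rw [(res0_eq_iff ε _ _).1 h2 x hx, map_zero]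

/-- the class of an even closed form -/
def toH0 (u : ZF A) : H ε.X := cls (exists_Z ε u).choose (exists_Z ε u).choose_spec.choose

theorem toH0_eq {u : ZF A} {w : E → CF E} (h : w ∈ Z ε.X) (e : res0 ε w h.2.1 = u.1) :
    toH0 ε u = cls w h :=
  cls_congr ((res0_eq_iff ε _ _).1 ((exists_Z ε u).choose_spec.choose_spec.trans e.symm))

/-- **the class** of an even closed form -/
def toH : ZF A →ₐ[ℂ] H ε.X :=
  AlgHom.ofLinearMap
    { toFun := toH0 ε
      map_add' := fun a b => by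
        obtain ⟨v, hv, e⟩ := exists_Z ε a
        obtain ⟨w, hw, e'⟩ := exists_Z ε b
        rw [toH0_eq ε hv e, toH0_eq ε hw e', ← cls_add]
        exact toH0_eq ε _ ((res0_add ε hv.2.1 hw.2.1).trans (by rw [e, e']; rfl))
      map_smul' := fun c a => by
        obtain ⟨v, hv, e⟩ := exists_Z ε a
        rw [toH0_eq ε hv e, RingHom.id_apply, ← cls_smul]
        exact toH0_eq ε _ ((res0_smul ε c hv.2.1).trans (by rw [e]; rfl)) }
    (toH0_eq ε (one_mem (Z ε.X)) (map_one (res ε)))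
    fun a b => by
      obtain ⟨v, hv, e⟩ := exists_Z ε a
      obtain ⟨w, hw, e'⟩ := exists_Z ε b
      change toH0 ε (a * b) = toH0 ε a * toH0 ε b
      rw [toH0_eq ε hv e, toH0_eq ε hw e', ← cls_mul]
      exact toH0_eq ε _ ((res0_mul ε hv.2.1 hw.2.1).trans (by rw [e, e']; rfl))

theorem toH_eq {u : ZF A} {w : E → CF E} (h : w ∈ Z ε.X) (e : res0 ε w h.2.1 = u.1) :
    toH ε u = cls w h := toH0_eq ε h e

theorem toH_res {w : E → CF E} (h : w ∈ Z ε.X) :
    toH ε ⟨res0 ε w h.2.1, res0_mem ε h⟩ = cls w h := toH_eq ε h rfl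

theorem toH_surj : Surjective (toH ε) := fun c => by
  obtain ⟨w, h, rfl⟩ := H.exists_rep c
  exact ⟨_, toH_res ε h⟩

theorem toH_eq_zero_iff {u : ZF A} : toH ε u = 0 ↔ ∃ v, dF A v = u.1 := by
  obtain ⟨w, h, e⟩ := exists_Z ε u
  rw [toH_eq ε h e, cls_eq_zero_iff, ← e]
  refine ⟨fun ⟨ξ, h1, h2⟩ => ⟨res0 ε ξ h1, ?_⟩, fun ⟨v, hv⟩ => ?_⟩
  · rw [← res0_d, eq_comm, res0_eq_iff]
    exact h2
  · obtain ⟨ξ, h1, rfl⟩ := exists_res0 ε v
    rw [← res0_d, eq_comm, res0_eq_iff] at hv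
    exact ⟨ξ, smo_of h1, hv⟩

theorem toH_eq_iff {u v : ZF A} : toH ε u = toH ε v ↔ ∃ w, dF A w = u.1 - v.1 := by
  rw [← sub_eq_zero, ← map_sub, toH_eq_zero_iff]
  rfl

theorem toH_conj {u : ZF A} {w : E → CF E} (h : w ∈ Z ε.X) (e : toH ε u = cls w h) :
    toH ε ⟨cjF A u.1, cjF_mem u.2⟩ = cls (fun y => Cx.conj (w y)) (conj_mem_Z h) := by
  rw [← toH_res ε h, toH_eq_iff] at e
  obtain ⟨v, hv⟩ := e
  rw [← toH_res ε (conj_mem_Z h), toH_eq_iff]
  refine ⟨cjF A v, ?_⟩
  rw [← cjF_dF, hv, map_sub]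
  exact congrArg _ (res0_conj ε h.2.1).symm

/-! ### holomorphic maps -/

omit [CompactSpace M] in
theorem smap_diff {g : E → E'} (hg : SMap ε.X ε'.X g) (y : M) : DifferentiableAt ℝ g (ε.j y) :=
  hg.diff (ε.mem y)

/-- the pull-back by a holomorphic map, read in the charts -/
theorem res0_pull {p : M → N} (hp : HolMap A B p) {g : E → E'} (hg : SMap ε.X ε'.X g)
    (hj : ∀ y, g (ε.j y) = ε'.j (p y)) {w : E' → CF E'} (h : Smo ε'.X w) {k : B.ι}
    (hz : z ∈ dm A B p i k) :
    (res0 ε (pullC g w) (h.pullC hg.smooth hg.maps)).1 i z =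
      pbC ((fderiv ℝ (rd A B p i k) z : Cn n →L[ℝ] Cn m) : Cn n →ₗ[ℝ] Cn m)
        ((res0 ε' w h).1 k (rd A B p i k z)) := by
  have hk : rd A B p i k z ∈ (B.e k).target := (B.e k).map_source hz.2
  rw [res0_apply ε _ hz.1, res0_apply ε' h hk]
  exact Cx.ext (ε.pull_pull ε' hp hj (smap_diff ε ε' hg) hz fun y => (w y).re)
    (ε.pull_pull ε' hp hj (smap_diff ε ε' hg) hz fun y => (w y).im)

theorem rd_lin {p : M → N} (hp : HolMap A B p) {k : B.ι} (hz : z ∈ dm A B p i k) (v : Cn n) :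
    ((fderiv ℝ (rd A B p i k) z : Cn n →L[ℝ] Cn m) : Cn n →ₗ[ℝ] Cn m) (Complex.I • v) =
      Complex.I • ((fderiv ℝ (rd A B p i k) z : Cn n →L[ℝ] Cn m) : Cn n →ₗ[ℝ] Cn m) v := by
  rw [(hp.diffAt hz).fderiv_restrictScalars ℝ]
  exact map_smul (fderiv ℂ (rd A B p i k) z) Complex.I v

theorem exists_dm (p : M → N) (hz : z ∈ (A.e i).target) : ∃ k, z ∈ dm A B p i k :=
  (B.cover (p ((A.e i).symm z))).imp fun _ hk => ⟨hz, hk⟩

end Crest.Agent.X262.Kah
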