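import Crest.Agent.R208.CW0b
import Crest.Agent.R275.Geo_509

/-!
# X262 / Kah (helper60), file FibA: the fibre algebra `V n = CF (Cn n)`

* `cv l`, `ic v`, `au` : complex covectors, contraction, augmentation on `CF E`;
* `dz a`, `dzb a`, `ez a`, `ezb a`, `iz a`, `izb a` and the uniform versions `th i`, `ml i`, `ct i`
  (`i : Fin n ⊕ Fin n`); canonical anticommutation relations; conjugation; linear pull-back.
-/

set_option autoImplicit false
set_option linter.unusedSectionVars false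
set_option linter.unusedSimpArgs false

open Module Complex
open scoped ComplexConjugate

noncomputable section

namespace Crest.Agent.X262.Kah.Fib

open Crest.Agent.R208.F Crest.Agent.R208.CW
open Crest.Agent.R275.Geo (Cn)

/-! ### covectors and contractions on `CF E` -/

section gen
variable {E F : Type*} [AddCommGroup E] [Module ℝ E] [AddCommGroup F] [Module ℝ F]

/-- a complex valued real-linear form, as an element of `CF E` -/
def cv (l : E →ₗ[ℝ] ℂ) : CF E := ⟨io (reLm ∘ₗ l), io (imLm ∘ₗ l)⟩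

@[simp] theorem cv_re (l : E →ₗ[ℝ] ℂ) : (cv l).re = io (reLm ∘ₗ l) := rfl
@[simp] theorem cv_im (l : E →ₗ[ℝ] ℂ) : (cv l).im = io (imLm ∘ₗ l) := rfl

theorem cv_add (l m : E →ₗ[ℝ] ℂ) : cv (l + m) = cv l + cv m := by
  refine Cx.ext ?_ ?_ <;> simp [LinearMap.comp_add]


theorem cv_smul (z : ℂ) (l : E →ₗ[ℝ] ℂ) : cv (z • l) = z • cv l := by
  refine Cx.ext ?_ ?_
  · simp only [cv_re, cv_im, Cx.csmul_re, ← map_smul, ← map_sub]
    congr 1
  · simp only [cv_re, cv_im, Cx.csmul_im, ← map_smul, ← map_add]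
    congr 1

/-- `cv` as a linear map -/
def cvL : (E →ₗ[ℝ] ℂ) →ₗ[ℂ] CF E where
  toFun := cv
  map_add' := cv_add
  map_smul' := cv_smul

theorem cv_sum {ι : Type*} (s : Finset ι) (l : ι → E →ₗ[ℝ] ℂ) :
    cv (∑ i ∈ s, l i) = ∑ i ∈ s, cv (l i) := map_sum (cvL (E := E)) l s

theorem cv_ofReal (l : Module.Dual ℝ E) : cv (ofRealAm.toLinearMap ∘ₗ l) = Cx.ofR (io l) := by
  refine Cx.ext ?_ ?_
  · simp only [cv_re, Cx.ofR_re]; congr 1
  · simp only [cv_im, Cx.ofR_im]
    have : imLm ∘ₗ ofRealAm.toLinearMap ∘ₗ l = 0 := by ext v; simp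
    rw [this, map_zero]

theorem invC_cv (l : E →ₗ[ℝ] ℂ) : invC (cv l) = - cv l := by
  refine Cx.ext ?_ ?_ <;> simp [inv_io]

theorem cv_mul (l : E →ₗ[ℝ] ℂ) (c : CF E) : cv l * c = invC c * cv l := odd_commC (invC_cv l) c

theorem cv_anti (l m : E →ₗ[ℝ] ℂ) : cv l * cv m = - (cv m * cv l) := by
  rw [cv_mul, invC_cv, neg_mul]

theorem cv_sq (l : E →ₗ[ℝ] ℂ) : cv l * cv l = 0 := by
  have h := cv_anti l l
  have h2 : (2 : ℂ) • (cv l * cv l) = 0 := by
    rw [two_smul]; exact eq_neg_iff_add_eq_zero.1 h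
  exact (smul_eq_zero.1 h2).resolve_left two_ne_zero

theorem conj_cv (l : E →ₗ[ℝ] ℂ) : Cx.conj (cv l) = cv (conjAe.toLinearMap ∘ₗ l) := by
  refine Cx.ext ?_ ?_
  · simp only [Cx.conj_re, cv_re]; congr 1
  · simp only [Cx.conj_im, cv_im, ← map_neg]; congr 1

theorem pbC_cv (A : E →ₗ[ℝ] F) (l : F →ₗ[ℝ] ℂ) : pbC A (cv l) = cv (l ∘ₗ A) := by
  refine Cx.ext ?_ ?_ <;> simp [LinearMap.comp_assoc]

theorem conj_smul (z : ℂ) (c : CF E) : Cx.conj (z • c) = conj z • Cx.conj c := by
  refine Cx.ext ?_ ?_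
  · simp
  · simp; abel


theorem conj_pbC (A : E →ₗ[ℝ] F) (c : CF F) : Cx.conj (pbC A c) = pbC A (Cx.conj c) := by
  refine Cx.ext ?_ ?_ <;> simp

/-- contraction with a (real) vector -/
def ic (v : E) : Module.End ℂ (CF E) where
  toFun c := ⟨ii v c.re, ii v c.im⟩
  map_add' a b := by refine Cx.ext ?_ ?_ <;> simp
  map_smul' z a := by refine Cx.ext ?_ ?_ <;> simp

@[simp] theorem ic_re (v : E) (c : CF E) : (ic v c).re = ii v c.re := rfl
@[simp] theorem ic_im (v : E) (c : CF E) : (ic v c).im = ii v c.im := rfl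

theorem ic_add (v w : E) : ic (v + w) = ic v + ic w := by
  ext c <;> simp

theorem ic_smul (r : ℝ) (v : E) : ic (r • v) = (r : ℂ) • ic v := by
  refine LinearMap.ext fun c => Cx.ext ?_ ?_
  · rw [LinearMap.smul_apply, Cx.csmul_re]; simp
  · rw [LinearMap.smul_apply, Cx.csmul_im]; simp

theorem ic_zero : ic (0 : E) = 0 := by
  ext c <;> simp

theorem ic_sum {ι : Type*} (s : Finset ι) (v : ι → E) : ic (∑ i ∈ s, v i) = ∑ i ∈ s, ic (v i) := by
  classical
  induction s using Finset.induction_on with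
  | empty => simp [ic_zero]
  | insert a s ha ih => rw [Finset.sum_insert ha, Finset.sum_insert ha, ic_add, ih]

theorem ic_one (v : E) : ic v (1 : CF E) = 0 := by
  refine Cx.ext ?_ ?_ <;> simp

theorem ic_mul (v : E) (a b : CF E) : ic v (a * b) = ic v a * b + invC a * ic v b := by
  refine Cx.ext ?_ ?_
  · simp only [ic_re, ic_im, Cx.mul_re, Cx.add_re, map_sub, ii_mul, invC_re, invC_im]; abel
  · simp only [ic_re, ic_im, Cx.mul_im, Cx.add_im, map_add, ii_mul, invC_re, invC_im]; abel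

theorem ic_cv (v : E) (l : E →ₗ[ℝ] ℂ) : ic v (cv l) = algebraMap ℂ (CF E) (l v) := by
  refine Cx.ext ?_ ?_ <;> simp

theorem ic_cv_mul (v : E) (l : E →ₗ[ℝ] ℂ) (c : CF E) :
    ic v (cv l * c) = l v • c - cv l * ic v c := by
  rw [ic_mul, ic_cv, invC_cv, ← Algebra.smul_def, neg_mul, sub_eq_add_neg]

theorem ic_comm (v w : E) (c : CF E) : ic v (ic w c) = - ic w (ic v c) :=
  Cx.ext (ii_comm _ _ _) (ii_comm _ _ _)



theorem conj_ic (v : E) (c : CF E) : Cx.conj (ic v c) = ic v (Cx.conj c) := by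
  refine Cx.ext ?_ ?_ <;> simp

theorem ic_pbC (A : E →ₗ[ℝ] F) (v : E) (c : CF F) : ic v (pbC A c) = pbC A (ic (A v) c) :=
  Cx.ext (ii_pb _ _ _) (ii_pb _ _ _)

theorem eq_re_add_im (c : CF E) : c = Cx.ofR c.re + I • Cx.ofR c.im := by
  refine Cx.ext ?_ ?_ <;> simp

/-- left induction on `CF E` -/
theorem indC {P : CF E → Prop} (h1 : P 1) (hadd : ∀ x y, P x → P y → P (x + y))
    (hsm : ∀ (z : ℂ) x, P x → P (z • x)) (hmul : ∀ l x, P x → P (cv l * x)) (c : CF E) : P c := by
  have key : ∀ r : Ext E, P (Cx.ofR r) := by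
    intro r
    induction r using ind with
    | h0 r =>
      rw [← Cx.algebraMap_ofReal, Algebra.algebraMap_eq_smul_one]
      exact hsm _ _ h1
    | hadd x y hx hy => rw [map_add]; exact hadd _ _ hx hy
    | hmul x l hx => rw [map_mul, ← cv_ofReal]; exact hmul _ _ hx
  rw [eq_re_add_im c]
  exact hadd _ _ (key _) (hsm _ _ (key _))

/-- the degree zero part -/
def au : CF E →ₗ[ℂ] ℂ where
  toFun c := ⟨ExteriorAlgebra.algebraMapInv c.re, ExteriorAlgebra.algebraMapInv c.im⟩
  map_add' a b := by apply Complex.ext <;> simp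
  map_smul' z a := by apply Complex.ext <;> simp

theorem au_one : au (1 : CF E) = 1 := by
  apply Complex.ext <;> simp [au]

theorem au_cv_mul (l : E →ₗ[ℝ] ℂ) (c : CF E) : au (cv l * c) = 0 := by
  have h : ∀ m : Module.Dual ℝ E, ExteriorAlgebra.algebraMapInv (io m : Ext E) = 0 := fun m => by
    simp [ExteriorAlgebra.algebraMapInv]
  apply Complex.ext <;> simp [au, h]



end gen

/-! ### the fibre over `Cn n` -/

/-- complex valued forms on `ℂⁿ` at a point -/
abbrev V (n : ℕ) : Type := CF (Cn n)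

variable {n : ℕ}

/-- the standard basis vector -/
def ep (a : Fin n) : Cn n := EuclideanSpace.single a 1

theorem I_ep (a : Fin n) : I • ep a = EuclideanSpace.single a I := by
  ext b; by_cases h : b = a <;> simp [ep, h]

@[simp] theorem ep_apply (a b : Fin n) : ep a b = if b = a then 1 else 0 := by
  simp [ep]

/-- the coordinate `z_a` as a real-linear map -/
def zc (a : Fin n) : Cn n →ₗ[ℝ] ℂ where
  toFun v := v a
  map_add' _ _ := rfl
  map_smul' _ _ := rfl

/-- the coordinate `z̄_a` as a real-linear map -/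
def zcb (a : Fin n) : Cn n →ₗ[ℝ] ℂ := conjAe.toLinearMap ∘ₗ zc a

@[simp] theorem zc_apply (a : Fin n) (v : Cn n) : zc a v = v a := rfl
@[simp] theorem zcb_apply (a : Fin n) (v : Cn n) : zcb a v = conj (v a) := rfl

/-- `dz_a` -/
def dz (a : Fin n) : V n := cv (zc a)
/-- `dz̄_a` -/
def dzb (a : Fin n) : V n := cv (zcb a)
/-- exterior multiplication by `dz_a` -/
def ez (a : Fin n) : Module.End ℂ (V n) := LinearMap.mulLeft ℂ (dz a)
/-- exterior multiplication by `dz̄_a` -/
def ezb (a : Fin n) : Module.End ℂ (V n) := LinearMap.mulLeft ℂ (dzb a)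
/-- contraction with `∂/∂z_a` -/
def iz (a : Fin n) : Module.End ℂ (V n) := (1 / 2 : ℂ) • (ic (ep a) - I • ic (I • ep a))
/-- contraction with `∂/∂z̄_a` -/
def izb (a : Fin n) : Module.End ℂ (V n) := (1 / 2 : ℂ) • (ic (ep a) + I • ic (I • ep a))

@[simp] theorem ez_apply (a : Fin n) (c : V n) : ez a c = dz a * c := rfl
@[simp] theorem ezb_apply (a : Fin n) (c : V n) : ezb a c = dzb a * c := rfl
theorem iz_apply (a : Fin n) (c : V n) :
    iz a c = (1 / 2 : ℂ) • (ic (ep a) c - I • ic (I • ep a) c) := rfl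
theorem izb_apply (a : Fin n) (c : V n) :
    izb a c = (1 / 2 : ℂ) • (ic (ep a) c + I • ic (I • ep a) c) := rfl

theorem ic_ep (a : Fin n) : ic (ep a) = iz a + izb a := by
  unfold iz izb; module

theorem ic_I_ep (a : Fin n) : ic (I • ep a) = I • (iz a - izb a) := by
  unfold iz izb
  have h : (I : ℂ) * I = -1 := I_mul_I
  have : I • ((1 / 2 : ℂ) • (ic (ep a) - I • ic (I • ep a)) - (1 / 2 : ℂ) • (ic (ep a) + I • ic (I • ep a)))
      = (-(I * I)) • ic (I • ep a) := by module
  rw [this, h, neg_neg, one_smul]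

theorem sum_ep (v : Cn n) : v = ∑ a, ((v a).re • ep a + (v a).im • (I • ep a)) := by
  ext b
  simp only [WithLp.ofLp_sum, Finset.sum_apply, PiLp.add_apply, PiLp.smul_apply, ep_apply]
  rw [Finset.sum_eq_single b]
  · simp
  · intro a _ h; simp [h.symm]
  · simp

theorem sum_ep' (v : Cn n) : v = ∑ a, v a • ep a := by
  ext b
  simp only [WithLp.ofLp_sum, Finset.sum_apply, PiLp.smul_apply, ep_apply]
  rw [Finset.sum_eq_single b]
  · simp
  · intro a _ h; simp [h.symm]
  · simp

/-- a real vector in terms of `∂/∂z_a`, `∂/∂z̄_a` -/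
theorem ic_eq_sum (v : Cn n) : ic v = ∑ a, (v a • iz a + conj (v a) • izb a) := by
  conv_lhs => rw [sum_ep v]
  rw [ic_sum]
  refine Finset.sum_congr rfl fun a _ => ?_
  rw [ic_add, ic_smul, ic_smul, ic_ep, ic_I_ep]
  have h1 : v a = ((v a).re : ℂ) + (v a).im * I := (re_add_im _).symm
  have h2 : conj (v a) = ((v a).re : ℂ) - (v a).im * I := by apply Complex.ext <;> simp
  rw [h2]
  generalize (v a).re = x at h1 ⊢
  generalize (v a).im = y at h1 ⊢
  rw [h1]
  module

/-- `∂l/∂z_a` for a real-linear `l` -/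
def pz (a : Fin n) (l : Cn n →ₗ[ℝ] ℂ) : ℂ := (1 / 2 : ℂ) * (l (ep a) - I * l (I • ep a))
/-- `∂l/∂z̄_a` for a real-linear `l` -/
def pzb (a : Fin n) (l : Cn n →ₗ[ℝ] ℂ) : ℂ := (1 / 2 : ℂ) * (l (ep a) + I * l (I • ep a))

theorem lin_eq_sum (l : Cn n →ₗ[ℝ] ℂ) : l = ∑ a, (pz a l • zc a + pzb a l • zcb a) := by
  ext v
  conv_lhs => rw [sum_ep v]
  simp only [map_sum, map_add, map_smul, LinearMap.sum_apply, LinearMap.add_apply,
    LinearMap.smul_apply, zc_apply, zcb_apply, smul_eq_mul, real_smul, pz, pzb]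
  refine Finset.sum_congr rfl fun a _ => ?_
  have h1 : v a = ((v a).re : ℂ) + (v a).im * I := (re_add_im _).symm
  have h2 : conj (v a) = ((v a).re : ℂ) - (v a).im * I := by apply Complex.ext <;> simp
  rw [h2]
  generalize (v a).re = x at h1 ⊢
  generalize (v a).im = y at h1 ⊢
  rw [h1]
  linear_combination (y * l (I • ep a)) * I_mul_I

/-- every covector is a combination of the `dz_a`, `dz̄_a` -/
theorem cv_eq_sum (l : Cn n →ₗ[ℝ] ℂ) : cv l = ∑ a, (pz a l • dz a + pzb a l • dzb a) := by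
  conv_lhs => rw [lin_eq_sum l]
  simp only [cv_sum, cv_add, cv_smul, dz, dzb]

theorem iz_cv_mul (a : Fin n) (l : Cn n →ₗ[ℝ] ℂ) (c : V n) :
    iz a (cv l * c) = pz a l • c - cv l * iz a c := by
  simp only [iz_apply, ic_cv_mul, pz, mul_smul_comm, mul_sub]
  module

theorem izb_cv_mul (a : Fin n) (l : Cn n →ₗ[ℝ] ℂ) (c : V n) :
    izb a (cv l * c) = pzb a l • c - cv l * izb a c := by
  simp only [izb_apply, ic_cv_mul, pzb, mul_smul_comm, mul_add]
  module

@[simp] theorem pz_zc (a b : Fin n) : pz a (zc b) = if a = b then 1 else 0 := by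
  by_cases h : a = b
  · subst h; simp [pz, ← mul_assoc]; norm_num
  · simp [pz, h, Ne.symm h]

@[simp] theorem pz_zcb (a b : Fin n) : pz a (zcb b) = 0 := by
  by_cases h : a = b
  · subst h; simp [pz]
  · simp [pz, Ne.symm h]

@[simp] theorem pzb_zc (a b : Fin n) : pzb a (zc b) = 0 := by
  by_cases h : a = b
  · subst h; simp [pzb]
  · simp [pzb, Ne.symm h]

@[simp] theorem pzb_zcb (a b : Fin n) : pzb a (zcb b) = if a = b then 1 else 0 := by
  by_cases h : a = b
  · subst h; simp [pzb]; norm_num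
  · simp [pzb, h, Ne.symm h]

/-! ### uniform notation and the anticommutation relations -/

/-- index set of the generators: `inl a` is `dz_a`, `inr a` is `dz̄_a` -/
abbrev Ix (n : ℕ) : Type := Fin n ⊕ Fin n

/-- the generators -/
def th (i : Ix n) : V n := Sum.elim dz dzb i
/-- exterior multiplication by a generator -/
def ml (i : Ix n) : Module.End ℂ (V n) := LinearMap.mulLeft ℂ (th i)
/-- the dual contractions -/
def ct (i : Ix n) : Module.End ℂ (V n) := Sum.elim iz izb i

@[simp] theorem th_inl (a : Fin n) : th (Sum.inl a) = dz a := rfl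
@[simp] theorem th_inr (a : Fin n) : th (Sum.inr a) = dzb a := rfl
@[simp] theorem ml_inl (a : Fin n) : ml (Sum.inl a) = ez a := rfl
@[simp] theorem ml_inr (a : Fin n) : ml (Sum.inr a) = ezb a := rfl
@[simp] theorem ct_inl (a : Fin n) : ct (Sum.inl a) = iz a := rfl
@[simp] theorem ct_inr (a : Fin n) : ct (Sum.inr a) = izb a := rfl
theorem ml_apply (i : Ix n) (c : V n) : ml i c = th i * c := rfl

theorem th_eq (i : Ix n) : th i = cv (Sum.elim zc zcb i) := by cases i <;> rfl

theorem th_anti (i j : Ix n) : th i * th j = - (th j * th i) := by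
  rw [th_eq, th_eq]; exact cv_anti _ _

theorem th_sq (i : Ix n) : th i * th i = 0 := by rw [th_eq]; exact cv_sq _

theorem invC_th (i : Ix n) : invC (th i) = - th i := by rw [th_eq]; exact invC_cv _

theorem th_mul (i : Ix n) (c : V n) : th i * c = invC c * th i := by rw [th_eq]; exact cv_mul _ _

theorem au_th_mul (i : Ix n) (c : V n) : au (th i * c) = 0 := by rw [th_eq]; exact au_cv_mul _ _

theorem ct_th_mul (i j : Ix n) (c : V n) :
    ct i (th j * c) = (if i = j then c else 0) - th j * ct i c := by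
  rcases i with a | a <;> rcases j with b | b
  · simp only [ct_inl, th_inl, dz, iz_cv_mul, pz_zc, Sum.inl.injEq]; split_ifs <;> simp
  · simp [dzb, iz_cv_mul]
  · simp [dz, izb_cv_mul]
  · simp only [ct_inr, th_inr, dzb, izb_cv_mul, pzb_zcb, Sum.inr.injEq]; split_ifs <;> simp

theorem ct_eq (i : Ix n) : ∃ (s t : ℂ) (v w : Cn n), ct i = s • ic v + t • ic w := by
  rcases i with a | a
  · exact ⟨1 / 2, -(1 / 2 * I), ep a, I • ep a, by simp only [ct_inl, iz]; module⟩
  · exact ⟨1 / 2, 1 / 2 * I, ep a, I • ep a, by simp only [ct_inr, izb]; module⟩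

theorem ct_one (i : Ix n) : ct i (1 : V n) = 0 := by
  obtain ⟨s, t, v, w, h⟩ := ct_eq i
  simp [h, ic_one]


theorem ct_th (i j : Ix n) : ct i (th j) = if i = j then 1 else 0 := by
  have := ct_th_mul i j 1
  rwa [mul_one, ct_one, mul_zero, sub_zero] at this

/-- contractions are anti-derivations -/
theorem ct_mul (i : Ix n) (x y : V n) : ct i (x * y) = ct i x * y + invC x * ct i y := by
  obtain ⟨s, t, v, w, h⟩ := ct_eq i
  simp only [h, LinearMap.add_apply, LinearMap.smul_apply, ic_mul, add_mul, mul_add,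
    smul_mul_assoc, mul_smul_comm, smul_add]
  abel

theorem ic_ct (v : Cn n) (i : Ix n) (c : V n) : ic v (ct i c) = - ct i (ic v c) := by
  obtain ⟨s, t, u, w, h⟩ := ct_eq i
  simp only [h, LinearMap.add_apply, LinearMap.smul_apply, map_add, map_smul, ic_comm v u,
    ic_comm v w]
  module

theorem ct_comm (i j : Ix n) (c : V n) : ct i (ct j c) = - ct j (ct i c) := by
  obtain ⟨s, t, u, w, h⟩ := ct_eq i
  simp only [h, LinearMap.add_apply, LinearMap.smul_apply, map_add, map_smul, ic_ct]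
  module

theorem ct_ct (i : Ix n) (c : V n) : ct i (ct i c) = 0 := by
  have h := ct_comm i i c
  have h2 : (2 : ℂ) • ct i (ct i c) = 0 := by
    rw [two_smul]; exact eq_neg_iff_add_eq_zero.1 h
  exact (smul_eq_zero.1 h2).resolve_left two_ne_zero


/-- CAR: multiplications -/
theorem ml_ml (i j : Ix n) : ml i * ml j + ml j * ml i = 0 := by
  refine LinearMap.ext fun c => ?_
  simp only [LinearMap.add_apply, Module.End.mul_apply, ml_apply, ← mul_assoc, th_anti i j]
  simp

/-- CAR: contractions -/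
theorem ct_ct' (i j : Ix n) : ct i * ct j + ct j * ct i = 0 := by
  refine LinearMap.ext fun c => ?_
  simp only [LinearMap.add_apply, Module.End.mul_apply, ct_comm i j]
  simp

/-- CAR: mixed -/
theorem ml_ct (i j : Ix n) : ml i * ct j + ct j * ml i = if i = j then 1 else 0 := by
  refine LinearMap.ext fun c => ?_
  simp only [LinearMap.add_apply, Module.End.mul_apply, ml_apply, ct_th_mul]
  by_cases h : i = j
  · simp [h]
  · simp [h, Ne.symm h]

theorem ez_ez (a b : Fin n) : ez a * ez b + ez b * ez a = 0 := ml_ml (.inl a) (.inl b)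
theorem ez_ezb (a b : Fin n) : ez a * ezb b + ezb b * ez a = 0 := ml_ml (.inl a) (.inr b)
theorem ezb_ezb (a b : Fin n) : ezb a * ezb b + ezb b * ezb a = 0 := ml_ml (.inr a) (.inr b)
theorem iz_izb (a b : Fin n) : iz a * izb b + izb b * iz a = 0 := ct_ct' (.inl a) (.inr b)
theorem izb_izb (a b : Fin n) : izb a * izb b + izb b * izb a = 0 := ct_ct' (.inr a) (.inr b)
theorem ez_iz (a b : Fin n) : ez a * iz b + iz b * ez a = if a = b then 1 else 0 := by
  simpa using ml_ct (.inl a) (.inl b)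
theorem ezb_izb (a b : Fin n) : ezb a * izb b + izb b * ezb a = if a = b then 1 else 0 := by
  simpa using ml_ct (.inr a) (.inr b)
theorem ez_izb (a b : Fin n) : ez a * izb b + izb b * ez a = 0 := by
  simpa using ml_ct (.inl a) (.inr b)
theorem ezb_iz (a b : Fin n) : ezb a * iz b + iz b * ezb a = 0 := by
  simpa using ml_ct (.inr a) (.inl b)

/-- left induction on `V n` -/
theorem indV {P : V n → Prop} (h1 : P 1) (h0 : P 0) (hadd : ∀ x y, P x → P y → P (x + y))
    (hsm : ∀ (z : ℂ) x, P x → P (z • x)) (hmul : ∀ i x, P x → P (th i * x)) (c : V n) : P c := by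
  refine indC h1 hadd hsm (fun l x hx => ?_) c
  rw [cv_eq_sum, Finset.sum_mul]
  refine Finset.sum_induction _ P hadd h0 fun a _ => ?_
  rw [add_mul, smul_mul_assoc, smul_mul_assoc]
  exact hadd _ _ (hsm _ _ (hmul (.inl a) x hx)) (hsm _ _ (hmul (.inr a) x hx))

/-! ### conjugation -/

@[simp] theorem conj_dz (a : Fin n) : Cx.conj (dz a) = dzb a := conj_cv _

@[simp] theorem conj_dzb (a : Fin n) : Cx.conj (dzb a) = dz a := by
  rw [← conj_dz, Cx.conj_conj]


theorem conj_iz (a : Fin n) (c : V n) : Cx.conj (iz a c) = izb a (Cx.conj c) := by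
  simp only [iz_apply, izb_apply, conj_smul, map_sub, conj_ic, conj_I, map_div₀, map_one,
    map_ofNat]
  module

theorem conj_izb (a : Fin n) (c : V n) : Cx.conj (izb a c) = iz a (Cx.conj c) := by
  simp only [iz_apply, izb_apply, conj_smul, map_add, conj_ic, conj_I, map_div₀, map_one,
    map_ofNat]
  module


/-! ### pull-back along complex linear maps -/

section pb
variable {m : ℕ} {L : Cn m →ₗ[ℝ] Cn n}

theorem pbC_dz (hL : ∀ v, L (I • v) = I • L v) (b : Fin n) :
    pbC L (dz b) = ∑ a, L (ep a) b • dz a := by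
  rw [dz, pbC_cv, cv_eq_sum]
  refine Finset.sum_congr rfl fun a _ => ?_
  have h1 : pz a (zc b ∘ₗ L) = L (ep a) b := by
    simp only [pz, LinearMap.comp_apply, hL, zc_apply, PiLp.smul_apply, smul_eq_mul]
    linear_combination (-(1 / 2) * L (ep a) b) * I_mul_I
  have h2 : pzb a (zc b ∘ₗ L) = 0 := by
    simp only [pzb, LinearMap.comp_apply, hL, zc_apply, PiLp.smul_apply, smul_eq_mul]
    linear_combination ((1 / 2) * L (ep a) b) * I_mul_I
  rw [h1, h2, zero_smul, add_zero]

theorem pbC_dzb (hL : ∀ v, L (I • v) = I • L v) (b : Fin n) :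
    pbC L (dzb b) = ∑ a, conj (L (ep a) b) • dzb a := by
  rw [← conj_dz, ← conj_pbC, pbC_dz hL, map_sum]
  simp only [conj_smul, conj_dz]

theorem iz_pbC (hL : ∀ v, L (I • v) = I • L v) (a : Fin m) (c : V n) :
    iz a (pbC L c) = ∑ b, L (ep a) b • pbC L (iz b c) := by
  simp only [iz_apply a, ic_pbC, hL, ic_eq_sum (L (ep a)), ic_eq_sum (I • L (ep a)),
    LinearMap.sum_apply, map_sum, LinearMap.add_apply, LinearMap.smul_apply, map_add, pbC_smul,
    Finset.smul_sum, ← Finset.sum_sub_distrib, PiLp.smul_apply, smul_eq_mul, map_mul, conj_I]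
  refine Finset.sum_congr rfl fun b _ => ?_
  match_scalars
  · linear_combination (-(1 / 2) * L (ep a) b) * I_mul_I
  · linear_combination ((1 / 2) * conj (L (ep a) b)) * I_mul_I

theorem izb_pbC (hL : ∀ v, L (I • v) = I • L v) (a : Fin m) (c : V n) :
    izb a (pbC L c) = ∑ b, conj (L (ep a) b) • pbC L (izb b c) := by
  have h := congrArg Cx.conj (iz_pbC hL a (Cx.conj c))
  rw [conj_iz, conj_pbC, Cx.conj_conj, map_sum] at h
  simp only [conj_smul, conj_pbC, conj_iz, Cx.conj_conj] at h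
  exact h

end pb

end Crest.Agent.X262.Kah.Fib
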