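import Crest.Agent.X262.Kah.FS
import Crest.Agent.X262.Kah.FibA

/-!
# X262 / Kah (helper93), file BunA: flat calculus, `∂` and `∂̄` of forms on `ℂⁿ`

* `pdC v om z` : directional derivative of a form valued function;
* `pzC`, `pzbC`, `dlC`, `dbC` : `∂/∂z_a`, `∂/∂z̄_a`, `∂`, `∂̄`; `dC_eq : d = ∂ + ∂̄`;
* `dbC_mul`, `dbC_dbC`, `dbC_pullC` (naturality under holomorphic maps), `conj_dbC`;
* `Nn` : the degree operator, `Nn_bR`.
-/

set_option autoImplicit false
set_option linter.unusedSectionVars false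
set_option linter.unusedVariables false

open Set Filter Topology Complex
open scoped ContDiff ComplexConjugate

namespace Crest.Agent.X262.Kah

open Crest.Agent.R208.F Crest.Agent.R208.CW Crest.Agent.R275.Geo Crest.Agent.X262.Kah.Fib

noncomputable section

section pd

variable {E G : Type*} [NormedAddCommGroup E] [NormedSpace ℝ E] [FiniteDimensional ℝ E]
  [NormedAddCommGroup G] [NormedSpace ℝ G]

/-- directional derivative -/
def pdC (v : G) (om : G → CF E) (z : G) : CF E :=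
  ⟨fderiv ℝ (fun y => (om y).re) z v, fderiv ℝ (fun y => (om y).im) z v⟩

variable {om η : G → CF E} {z : G}

theorem CD.dre (h : CD 1 om z) : DifferentiableAt ℝ (fun y => (om y).re) z :=
  h.re.differentiableAt (by norm_num)
theorem CD.dim (h : CD 1 om z) : DifferentiableAt ℝ (fun y => (om y).im) z :=
  h.im.differentiableAt (by norm_num)

theorem pdC_congr (v : G) (h : om =ᶠ[𝓝 z] η) : pdC v om z = pdC v η z := by
  have h1 : (fun y => (om y).re) =ᶠ[𝓝 z] fun y => (η y).re := h.mono fun y hy => by simp only [hy]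
  have h2 : (fun y => (om y).im) =ᶠ[𝓝 z] fun y => (η y).im := h.mono fun y hy => by simp only [hy]
  unfold pdC
  rw [h1.fderiv_eq, h2.fderiv_eq]

theorem pdC_const (v : G) (c : CF E) (z : G) : pdC v (fun _ => c) z = 0 := by
  refine Cx.ext ?_ ?_ <;> simp [pdC]

theorem pdC_add (v : G) (h : CD 1 om z) (h' : CD 1 η z) :
    pdC v (fun y => om y + η y) z = pdC v om z + pdC v η z := by
  refine Cx.ext ?_ ?_
  · simp only [pdC, Cx.add_re, fderiv_fun_add (CD.dre h) (CD.dre h'), _root_.add_apply]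
  · simp only [pdC, Cx.add_im, fderiv_fun_add (CD.dim h) (CD.dim h'), _root_.add_apply]

theorem fderiv_mul_ext {f g : G → Ext E} (hf : DifferentiableAt ℝ f z)
    (hg : DifferentiableAt ℝ g z) (v : G) :
    fderiv ℝ (fun y => f y * g y) z v = fderiv ℝ f z v * g z + f z * fderiv ℝ g z v := by
  rw [(hasFDerivAt_mul hf.hasFDerivAt hg.hasFDerivAt).fderiv, add_comm]
  rfl

theorem diff_mul_ext {f g : G → Ext E} (hf : DifferentiableAt ℝ f z)
    (hg : DifferentiableAt ℝ g z) : DifferentiableAt ℝ (fun y => f y * g y) z :=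
  (hasFDerivAt_mul hf.hasFDerivAt hg.hasFDerivAt).differentiableAt

theorem pdC_mul (v : G) (h : CD 1 om z) (h' : CD 1 η z) :
    pdC v (fun y => om y * η y) z = pdC v om z * η z + om z * pdC v η z := by
  have a1 := CD.dre h
  have a2 := CD.dim h
  have b1 := CD.dre h'
  have b2 := CD.dim h'
  refine Cx.ext ?_ ?_
  · simp only [pdC, Cx.mul_re, Cx.add_re]
    rw [fderiv_fun_sub (diff_mul_ext a1 b1) (diff_mul_ext a2 b2), _root_.sub_apply,
      fderiv_mul_ext a1 b1, fderiv_mul_ext a2 b2]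
    abel
  · simp only [pdC, Cx.mul_im, Cx.add_im]
    rw [fderiv_fun_add (diff_mul_ext a1 b2) (diff_mul_ext a2 b1), _root_.add_apply,
      fderiv_mul_ext a1 b2, fderiv_mul_ext a2 b1]
    abel

theorem pdC_sum {σ : Type*} (v : G) (s : Finset σ) {om : σ → G → CF E}
    (h : ∀ t ∈ s, CD 1 (om t) z) :
    pdC v (fun y => ∑ t ∈ s, om t y) z = ∑ t ∈ s, pdC v (om t) z := by
  classical
  induction s using Finset.induction_on with
  | empty => simpa using pdC_const v (0 : CF E) z
  | insert a s ha ih =>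
    simp only [Finset.sum_insert ha]
    rw [pdC_add v (h a (Finset.mem_insert_self a s))
      (CD.sum fun t ht => h t (Finset.mem_insert_of_mem ht)),
      ih fun t ht => h t (Finset.mem_insert_of_mem ht)]

theorem pdC_fn (v : G) {g : G → ℂ} (hg : DifferentiableAt ℝ g z) :
    pdC v (fun y => algebraMap ℂ (CF E) (g y)) z = algebraMap ℂ (CF E) (fderiv ℝ g z v) := by
  have h1 : HasFDerivAt (fun y => algebraMap ℝ (Ext E) (g y).re)
      ((LinearMap.toContinuousLinearMap (Algebra.linearMap ℝ (Ext E))).comp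
        (reCLM.comp (fderiv ℝ g z))) z :=
    (LinearMap.toContinuousLinearMap (Algebra.linearMap ℝ (Ext E))).hasFDerivAt.comp z
      (reCLM.hasFDerivAt.comp z hg.hasFDerivAt)
  have h2 : HasFDerivAt (fun y => algebraMap ℝ (Ext E) (g y).im)
      ((LinearMap.toContinuousLinearMap (Algebra.linearMap ℝ (Ext E))).comp
        (imCLM.comp (fderiv ℝ g z))) z :=
    (LinearMap.toContinuousLinearMap (Algebra.linearMap ℝ (Ext E))).hasFDerivAt.comp z
      (imCLM.hasFDerivAt.comp z hg.hasFDerivAt)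
  refine Cx.ext ?_ ?_
  · simp only [pdC, Cx.algebraMap_re, h1.fderiv]; rfl
  · simp only [pdC, Cx.algebraMap_im, h2.fderiv]; rfl

theorem pdC_fsmul (v : G) {g : G → ℂ} (hg : ContDiffAt ℝ 1 g z) (h : CD 1 om z) :
    pdC v (fun y => g y • om y) z = fderiv ℝ g z v • om z + g z • pdC v om z := by
  simp only [Algebra.smul_def]
  rw [pdC_mul v (CD.of_fun hg) h, pdC_fn v (hg.differentiableAt (by norm_num))]

theorem pdC_csmul (v : G) (c : ℂ) (h : CD 1 om z) :
    pdC v (fun y => c • om y) z = c • pdC v om z := by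
  rw [pdC_fsmul v contDiffAt_const h]
  simp

/-- expansion in the basis `bR` -/
theorem pdC_eq_sum (v : G) (h : CD 1 om z) :
    pdC v om z = ∑ J, fderiv ℝ (fun y => coR J (om y)) z v • bR E J := by
  have e : om = fun y => ∑ J, coR J (om y) • bR E J := funext fun y => (sum_coR (om y)).symm
  conv_lhs => rw [e]
  rw [pdC_sum v _ fun J _ => CD_fsmul (CD_coR h J) (CD.const _)]
  refine Finset.sum_congr rfl fun J _ => ?_
  rw [pdC_fsmul v (CD_coR h J) (CD.const _), pdC_const, smul_zero, add_zero]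

/-- linear functionals commute with derivatives -/
theorem fderiv_fun (t : CF E →ₗ[ℂ] ℂ) (v : G) (h : CD 1 om z) :
    fderiv ℝ (fun y => t (om y)) z v = t (pdC v om z) := by
  have e : (fun y => t (om y)) = fun y => ∑ J, coR J (om y) * t (bR E J) := by
    funext y
    conv_lhs => rw [← sum_coR (om y)]
    simp only [map_sum, map_smul, smul_eq_mul]
  have hd : ∀ J, DifferentiableAt ℝ (fun y => coR J (om y)) z := fun J =>
    (CD_coR h J).differentiableAt (by norm_num)
  rw [e, pdC_eq_sum v h, map_sum, fderiv_fun_sum fun J _ => (hd J).mul_const _,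
    _root_.sum_apply]
  refine Finset.sum_congr rfl fun J _ => ?_
  rw [fderiv_mul_const (hd J), map_smul, _root_.smul_apply, smul_eq_mul, smul_eq_mul, mul_comm]

theorem ext_coR {a b : CF E} (h : ∀ J, coR J a = coR J b) : a = b := by
  rw [← sum_coR a, ← sum_coR b]
  exact Finset.sum_congr rfl fun J _ => by rw [h J]

theorem CD_lin {E' : Type*} [NormedAddCommGroup E'] [NormedSpace ℝ E'] [FiniteDimensional ℝ E']
    {k : WithTop ℕ∞} (T : CF E →ₗ[ℂ] CF E') (h : CD k om z) : CD k (fun y => T (om y)) z :=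
  CD_app (a := fun _ => T) (fun _ => CD.const _) h

theorem pdC_lin {E' : Type*} [NormedAddCommGroup E'] [NormedSpace ℝ E'] [FiniteDimensional ℝ E']
    (T : CF E →ₗ[ℂ] CF E') (v : G) (h : CD 1 om z) :
    pdC v (fun y => T (om y)) z = T (pdC v om z) := by
  refine ext_coR fun J => ?_
  rw [← fderiv_fun (coR J) v (CD_lin T h)]
  exact fderiv_fun (coR J ∘ₗ T) v h

theorem pdC_conj (v : G) (om : G → CF E) (z : G) :
    pdC v (fun y => Cx.conj (om y)) z = Cx.conj (pdC v om z) := by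
  refine Cx.ext rfl ?_
  simp only [pdC, Cx.conj_im, fderiv_fun_neg, _root_.neg_apply]

theorem CD_pdC {k m : WithTop ℕ∞} (v : G) (h : CD k om z) (hm : m + 1 ≤ k) :
    CD m (pdC v om) z :=
  ⟨(h.re.fderiv_right hm).clm_apply contDiffAt_const,
    (h.im.fderiv_right hm).clm_apply contDiffAt_const⟩

theorem fderiv_fderiv_comm {H : Type*} [NormedAddCommGroup H] [NormedSpace ℝ H] {f : G → H}
    (h : ContDiffAt ℝ 2 f z) (v w : G) :
    fderiv ℝ (fun y => fderiv ℝ f y w) z v = fderiv ℝ (fun y => fderiv ℝ f y v) z w := by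
  have h1 : DifferentiableAt ℝ (fderiv ℝ f) z :=
    (h.fderiv_right (m := 1) (by norm_num)).differentiableAt (by norm_num)
  have h2 : ∀ u, fderiv ℝ (fun y => fderiv ℝ f y u) z = (fderiv ℝ (fderiv ℝ f) z).flip u := by
    intro u
    rw [fderiv_clm_apply h1 (differentiableAt_const u)]
    simp
  rw [h2, h2]
  exact h.isSymmSndFDerivAt (by simp [minSmoothness_of_isRCLikeNormedField]) v w

theorem pdC_comm (v w : G) (h : CD 2 om z) : pdC v (pdC w om) z = pdC w (pdC v om) z :=
  Cx.ext (fderiv_fderiv_comm h.re v w) (fderiv_fderiv_comm h.im v w)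


end pd

variable {n : ℕ} {om η : Cn n → Fb n} {z : Cn n}

/-- `∂/∂z_a` -/
def pzC (a : Fin n) (om : Cn n → Fb n) (z : Cn n) : Fb n :=
  (1 / 2 : ℂ) • (pdC (ep a) om z - I • pdC (I • ep a) om z)

/-- `∂/∂z̄_a` -/
def pzbC (a : Fin n) (om : Cn n → Fb n) (z : Cn n) : Fb n :=
  (1 / 2 : ℂ) • (pdC (ep a) om z + I • pdC (I • ep a) om z)

/-- `∂` -/
def dlC (om : Cn n → Fb n) (z : Cn n) : Fb n := ∑ a, dz a * pzC a om z

/-- `∂̄` -/
def dbC (om : Cn n → Fb n) (z : Cn n) : Fb n := ∑ a, dzb a * pzbC a om z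

theorem conj_pzbC (a : Fin n) (om : Cn n → Fb n) (z : Cn n) :
    Cx.conj (pzbC a om z) = pzC a (fun y => Cx.conj (om y)) z := by
  simp only [pzbC, pzC, conj_smul', map_add, pdC_conj, conj_I, neg_smul, sub_eq_add_neg]
  congr 1
  rw [map_div₀, map_one, map_ofNat]

theorem conj_dbC (om : Cn n → Fb n) (z : Cn n) :
    Cx.conj (dbC om z) = dlC (fun y => Cx.conj (om y)) z := by
  simp only [dbC, dlC, map_sum, map_mul, conj_dzb, conj_pzbC]

theorem dlC_eq (om : Cn n → Fb n) (z : Cn n) :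
    dlC om z = Cx.conj (dbC (fun y => Cx.conj (om y)) z) := by
  rw [conj_dbC]; simp only [Cx.conj_conj]

theorem pzbC_congr (a : Fin n) (h : om =ᶠ[𝓝 z] η) : pzbC a om z = pzbC a η z := by
  simp only [pzbC, pdC_congr _ h]

theorem dbC_congr (h : om =ᶠ[𝓝 z] η) : dbC om z = dbC η z := by
  simp only [dbC, pzbC_congr _ h]


theorem CD_pzbC {k m : WithTop ℕ∞} (a : Fin n) (h : CD k om z) (hm : m + 1 ≤ k) :
    CD m (pzbC a om) z := ((CD_pdC _ h hm).add ((CD_pdC _ h hm).csmul I)).csmul _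

theorem CD_dbC {k m : WithTop ℕ∞} (h : CD k om z) (hm : m + 1 ≤ k) : CD m (dbC om) z :=
  CD.sum fun a _ => (CD.const _).mul (CD_pzbC a h hm)

theorem pzbC_const (a : Fin n) (c : Fb n) (z : Cn n) : pzbC a (fun _ => c) z = 0 := by
  simp [pzbC, pdC_const]

theorem pzbC_add (a : Fin n) (h : CD 1 om z) (h' : CD 1 η z) :
    pzbC a (fun y => om y + η y) z = pzbC a om z + pzbC a η z := by
  simp only [pzbC, pdC_add _ h h']; module

theorem pzbC_mul (a : Fin n) (h : CD 1 om z) (h' : CD 1 η z) :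
    pzbC a (fun y => om y * η y) z = pzbC a om z * η z + om z * pzbC a η z := by
  simp only [pzbC, pdC_mul _ h h', smul_mul_assoc, mul_smul_comm, add_mul, mul_add]; module

theorem dbj_eq' (a : Fin n) (g : Cn n → ℂ) (z : Cn n) : dbj a g z =
    (1 / 2 : ℂ) * (fderiv ℝ g z (ep a) + I * fderiv ℝ g z (I • ep a)) := by
  rw [I_ep]; rfl

theorem pzbC_fsmul (a : Fin n) {g : Cn n → ℂ} (hg : ContDiffAt ℝ 1 g z) (h : CD 1 om z) :
    pzbC a (fun y => g y • om y) z = dbj a g z • om z + g z • pzbC a om z := by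
  simp only [pzbC, pdC_fsmul _ hg h, dbj_eq']; module

theorem pzbC_lin (T : Module.End ℂ (Fb n)) (a : Fin n) (h : CD 1 om z) :
    pzbC a (fun y => T (om y)) z = T (pzbC a om z) := by
  simp only [pzbC, pdC_lin T _ h, map_smul, map_add]

theorem pzbC_sum {σ : Type*} (a : Fin n) (s : Finset σ) {om : σ → Cn n → Fb n}
    (h : ∀ t ∈ s, CD 1 (om t) z) :
    pzbC a (fun y => ∑ t ∈ s, om t y) z = ∑ t ∈ s, pzbC a (om t) z := by
  simp only [pzbC, pdC_sum _ s h, Finset.smul_sum, ← Finset.sum_add_distrib]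

theorem dbj_fun (t : Fb n →ₗ[ℂ] ℂ) (a : Fin n) (h : CD 1 om z) :
    dbj a (fun y => t (om y)) z = t (pzbC a om z) := by
  simp only [dbj_eq', pzbC, fderiv_fun t _ h, map_smul, map_add, smul_eq_mul]

theorem pzbC_comm (a b : Fin n) (h : CD 2 om z) :
    pzbC a (pzbC b om) z = pzbC b (pzbC a om) z := by
  have h1 : ∀ v, CD 1 (pdC v om) z := fun v => CD_pdC v h (by norm_num)
  have h2 : ∀ v c, pdC v (pzbC c om) z = (1 / 2 : ℂ) • (pdC v (pdC (ep c) om) z +
      I • pdC v (pdC (I • ep c) om) z) := fun v c => by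
    show pdC v (fun y => (1 / 2 : ℂ) • (pdC (ep c) om y + I • pdC (I • ep c) om y)) z = _
    rw [pdC_csmul v _ ((h1 _).add ((h1 _).csmul I)), pdC_add v (h1 _) ((h1 _).csmul I),
      pdC_csmul v I (h1 _)]
  rw [pzbC, pzbC, h2, h2, h2, h2, pdC_comm (ep a) (ep b) h, pdC_comm (ep a) (I • ep b) h,
    pdC_comm (I • ep a) (ep b) h, pdC_comm (I • ep a) (I • ep b) h]
  module

theorem dbC_const (c : Fb n) (z : Cn n) : dbC (fun _ => c) z = 0 := by
  simp [dbC, pzbC_const]

theorem dbC_add (h : CD 1 om z) (h' : CD 1 η z) :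
    dbC (fun y => om y + η y) z = dbC om z + dbC η z := by
  simp only [dbC, pzbC_add _ h h', mul_add, Finset.sum_add_distrib]

theorem dbC_fsmul {g : Cn n → ℂ} (hg : ContDiffAt ℝ 1 g z) (h : CD 1 om z) :
    dbC (fun y => g y • om y) z = (∑ a, dbj a g z • dzb a) * om z + g z • dbC om z := by
  simp only [dbC, pzbC_fsmul _ hg h, mul_add, Finset.sum_add_distrib, Finset.sum_mul,
    Finset.smul_sum, mul_smul_comm, smul_mul_assoc]

theorem dbC_csmul (c : ℂ) (h : CD 1 om z) : dbC (fun y => c • om y) z = c • dbC om z := by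
  rw [dbC_fsmul contDiffAt_const h]
  simp [dbj_const]

theorem dbC_sum {σ : Type*} (s : Finset σ) {om : σ → Cn n → Fb n} (h : ∀ t ∈ s, CD 1 (om t) z) :
    dbC (fun y => ∑ t ∈ s, om t y) z = ∑ t ∈ s, dbC (om t) z := by
  simp only [dbC, pzbC_sum _ s h, Finset.mul_sum]
  exact Finset.sum_comm

theorem dbC_mul (h : CD 1 om z) (h' : CD 1 η z) :
    dbC (fun y => om y * η y) z = dbC om z * η z + invC (om z) * dbC η z := by
  simp only [dbC, pzbC_mul _ h h', mul_add, Finset.sum_add_distrib, Finset.sum_mul, Finset.mul_sum,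
    mul_assoc]
  congr 1
  refine Finset.sum_congr rfl fun a _ => ?_
  rw [← mul_assoc, ← mul_assoc, show dzb a * om z = invC (om z) * dzb a from th_mul (.inr a) _]

theorem sum_anti {ι : Type*} [Fintype ι] (e : ι → Fb n) (he : ∀ a b, e a * e b = -(e b * e a))
    (B : ι → ι → Fb n) (hB : ∀ a b, B a b = B b a) : ∑ a, ∑ b, e a * (e b * B a b) = 0 := by
  have h : ∑ a, ∑ b, e a * (e b * B a b) = -∑ a, ∑ b, e a * (e b * B a b) := by
    conv_lhs => rw [Finset.sum_comm]
    rw [← Finset.sum_neg_distrib]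
    refine Finset.sum_congr rfl fun a _ => ?_
    rw [← Finset.sum_neg_distrib]
    refine Finset.sum_congr rfl fun b _ => ?_
    rw [← mul_assoc, ← mul_assoc, he b a, neg_mul, hB b a]
  have h2 : (2 : ℂ) • ∑ a, ∑ b, e a * (e b * B a b) = 0 := by
    rw [two_smul]; nth_rewrite 1 [h]; exact neg_add_cancel _
  exact (smul_eq_zero.1 h2).resolve_left two_ne_zero

theorem dzb_anti (a b : Fin n) : dzb a * dzb b = -(dzb b * dzb a) := th_anti (.inr a) (.inr b)

theorem dbC_dbC (h : CD 2 om z) : dbC (dbC om) z = 0 := by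
  have h1 : ∀ b, CD 1 (pzbC b om) z := fun b => CD_pzbC b h (by norm_num)
  have h2 : ∀ a, pzbC a (dbC om) z = ∑ b, dzb b * pzbC a (pzbC b om) z := fun a => by
    show pzbC a (fun y => ∑ b, dzb b * pzbC b om y) z = _
    rw [pzbC_sum a _ fun b _ => (CD.const _).mul (h1 b)]
    exact Finset.sum_congr rfl fun b _ => pzbC_lin (ezb b) a (h1 b)
  rw [dbC]
  simp only [h2, Finset.mul_sum]
  exact sum_anti _ dzb_anti _ fun a b => pzbC_comm a b h

/-! ### `d = ∂ + ∂̄` -/

theorem pdC_vec (v : Cn n) (h : CD 1 om z) :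
    pdC v om z = ∑ a, (v a • pzC a om z + conj (v a) • pzbC a om z) := by
  refine ext_coR fun J => ?_
  rw [← fderiv_fun (coR J) v h]
  have h1 := LinearMap.congr_fun
    (lin_eq_sum ((fderiv ℝ (fun y => coR J (om y)) z : Cn n →L[ℝ] ℂ) : Cn n →ₗ[ℝ] ℂ)) v
  simp only [LinearMap.sum_apply, LinearMap.add_apply, LinearMap.smul_apply, zc_apply, zcb_apply,
    smul_eq_mul, pz, pzb, ContinuousLinearMap.coe_coe, fderiv_fun (coR J) _ h] at h1
  rw [fderiv_fun (coR J) v h, h1, map_sum]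
  refine Finset.sum_congr rfl fun a _ => ?_
  simp only [pzC, pzbC, map_add, map_smul, map_sub, smul_eq_mul]
  ring

theorem dC_eq_pd (om : Cn n → Fb n) (z : Cn n) :
    dC om z = ∑ i, Cx.ofR (io ((Module.finBasis ℝ (Cn n)).coord i)) *
      pdC (Module.finBasis ℝ (Cn n) i) om z := by
  refine Cx.ext ?_ ?_ <;> simp [dC, d, wd_apply, pdC]

theorem dC_eq (h : CD 1 om z) : dC om z = dlC om z + dbC om z := by
  set b := Module.finBasis ℝ (Cn n)
  have key : ∀ l : Cn n →ₗ[ℝ] ℂ, ∑ i, l (b i) • (Cx.ofR (io (b.coord i)) : Fb n) = cv l := by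
    intro l
    simp only [← cv_ofReal, ← cv_smul, ← cv_sum]
    congr 1
    refine b.ext fun j => ?_
    simp [LinearMap.sum_apply, Finsupp.single_apply, apply_ite]
  rw [dC_eq_pd]
  simp only [pdC_vec _ h, Finset.mul_sum, mul_add, mul_smul_comm]
  rw [Finset.sum_comm, dlC, dbC, ← Finset.sum_add_distrib]
  refine Finset.sum_congr rfl fun a _ => ?_
  rw [Finset.sum_add_distrib, dz, dzb, ← key, ← key, Finset.sum_mul, Finset.sum_mul]
  simp only [smul_mul_assoc, zc_apply, zcb_apply]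
  rfl

/-! ### naturality -/

section nat

variable {m : ℕ} {φ : Cn m → Cn n} {x : Cn m}

/-- the real differential -/
abbrev Dr (φ : Cn m → Cn n) (x : Cn m) : Cn m →ₗ[ℝ] Cn n :=
  ((fderiv ℝ φ x : Cn m →L[ℝ] Cn n) : Cn m →ₗ[ℝ] Cn n)

theorem Dr_I (hφ : DifferentiableAt ℂ φ x) (v : Cn m) : Dr φ x (I • v) = I • Dr φ x v := by
  simp only [Dr, hφ.fderiv_restrictScalars ℝ, ContinuousLinearMap.coe_coe,
    ContinuousLinearMap.coe_restrictScalars', map_smul]

theorem CD_pbc {k j : WithTop ℕ∞} (hφ : ContDiffAt ℝ k φ x) (hj : j + 1 ≤ k) (c : Fb n) :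
    CD j (fun y => pbC (Dr φ y) c) x :=
  ⟨contDiffAt_pbc hφ hj _, contDiffAt_pbc hφ hj _⟩

theorem dbj_dbL (a : Fin m) {g : Cn n → ℂ} (hφ : DifferentiableAt ℂ φ x)
    (hg : DifferentiableAt ℝ g (φ x)) :
    dbj a (fun y => g (φ y)) x = ∑ b, conj (Dr φ x (ep a) b) • dbj b g (φ x) := by
  have hr : DifferentiableAt ℝ φ x := hφ.restrictScalars ℝ
  have h' : fderiv ℝ (fun y => g (φ y)) x = (fderiv ℝ g (φ x)).comp (fderiv ℝ φ x) :=
    (hg.hasFDerivAt.comp x hr.hasFDerivAt).fderiv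
  rw [dbj, h', ← I_ep]
  simp only [ContinuousLinearMap.comp_apply]
  rw [show fderiv ℝ φ x (I • ep a) = I • fderiv ℝ φ x (ep a) from Dr_I hφ (ep a)]
  exact dbL_apply_vec (fderiv ℝ g (φ x)) _

/-- the pull-back of a constant form by a holomorphic map is `∂̄`-closed -/
theorem dbC_pbc (hφ : ∀ᶠ y in 𝓝 x, DifferentiableAt ℂ φ y) (h2 : ContDiffAt ℝ 2 φ x) (c : Fb n) :
    dbC (fun y => pbC (Dr φ y) c) x = 0 := by
  have hs : ∀ c, CD 1 (fun y => pbC (Dr φ y) c) x := fun c => CD_pbc h2 (by norm_num) c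
  have hD : ∀ v b, ContDiffAt ℝ 1 (fun y => Dr φ y v b) x := fun v b =>
    (EuclideanSpace.proj (𝕜 := ℂ) b |>.restrictScalars ℝ).contDiff.contDiffAt.comp x
      ((h2.fderiv_right (m := 1) (by norm_num)).clm_apply contDiffAt_const)
  have hsym : ∀ v w b, fderiv ℝ (fun y => Dr φ y w b) x v = fderiv ℝ (fun y => Dr φ y v b) x w := by
    intro v w b
    have k : ∀ u, DifferentiableAt ℝ (fun y => fderiv ℝ φ y u) x := fun u =>
      ((h2.fderiv_right (m := 1) (by norm_num)).clm_apply contDiffAt_const).differentiableAt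
        (by norm_num)
    have e : ∀ u u', fderiv ℝ (fun y => Dr φ y u b) x u' =
        fderiv ℝ (fun y => fderiv ℝ φ y u) x u' b := fun u u' => by
      have := ((EuclideanSpace.proj (𝕜 := ℂ) b |>.restrictScalars ℝ).hasFDerivAt.comp x
        (k u).hasFDerivAt).fderiv
      exact congrArg (fun L : Cn m →L[ℝ] ℂ => L u') this
    rw [e, e, fderiv_fderiv_comm h2]
  have hI : ∀ v w b, fderiv ℝ (fun y => Dr φ y w b) x (I • v) =
      I * fderiv ℝ (fun y => Dr φ y w b) x v := by
    intro v w b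
    have e : (fun y => Dr φ y (I • v) b) =ᶠ[𝓝 x] fun y => I * Dr φ y v b :=
      hφ.mono fun y hy => by simp only [Dr_I hy]; rfl
    rw [hsym, e.fderiv_eq, fderiv_const_mul ((hD v b).differentiableAt (by norm_num)), hsym v w]
    rfl
  have hth : ∀ i, dbC (fun y => pbC (Dr φ y) (th i)) x = 0 := by
    rintro (b | b)
    · have e : (fun y => pbC (Dr φ y) (th (.inl b))) =ᶠ[𝓝 x]
          fun y => ∑ a, Dr φ y (ep a) b • dz a := hφ.mono fun y hy => pbC_dz (Dr_I hy) b
      rw [dbC_congr e, dbC_sum _ fun a _ => CD_fsmul (hD _ b) (CD.const _)]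
      refine Finset.sum_eq_zero fun a _ => ?_
      rw [dbC_fsmul (hD _ b) (CD.const _), dbC_const, smul_zero, add_zero]
      have : ∀ c, dbj c (fun y => Dr φ y (ep a) b) x = 0 := fun c => by
        rw [dbj, ← I_ep, hI, smul_eq_mul, smul_eq_mul, ← mul_assoc, I_mul_I]
        simp [ep]
      simp only [this, zero_smul, Finset.sum_const_zero, zero_mul]
    · have e : (fun y => pbC (Dr φ y) (th (.inr b))) =ᶠ[𝓝 x]
          fun y => ∑ a, conj (Dr φ y (ep a) b) • dzb a := hφ.mono fun y hy => pbC_dzb (Dr_I hy) b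
      have hc : ∀ a, ContDiffAt ℝ 1 (fun y => conj (Dr φ y (ep a) b)) x := fun a =>
        conjCLE.contDiff.contDiffAt.comp x (hD _ b)
      have hf : ∀ a v, fderiv ℝ (fun y => conj (Dr φ y (ep a) b)) x v =
          conj (fderiv ℝ (fun y => Dr φ y (ep a) b) x v) := fun a v => by
        have := (conjCLE.toContinuousLinearMap.hasFDerivAt.comp x
          ((hD (ep a) b).differentiableAt (by norm_num)).hasFDerivAt).fderiv
        exact congrArg (fun L : Cn m →L[ℝ] ℂ => L v) this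
      have : ∀ a c, dbj c (fun y => conj (Dr φ y (ep a) b)) x =
          conj (fderiv ℝ (fun y => Dr φ y (ep a) b) x (ep c)) := fun a c => by
        rw [dbj, ← I_ep, hf, hf, hI, map_mul, conj_I, smul_eq_mul, smul_eq_mul]
        show _ * (conj (fderiv ℝ (fun y => Dr φ y (ep a) b) x (ep c)) + _) = _
        linear_combination (-(1 / 2) * conj (fderiv ℝ (fun y => Dr φ y (ep a) b) x (ep c))) *
          I_mul_I
      rw [dbC_congr e, dbC_sum _ fun a _ => CD_fsmul (hc a) (CD.const _)]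
      simp only [dbC_fsmul (hc _) (CD.const _), dbC_const, smul_zero, add_zero, this,
        Finset.sum_mul]
      rw [Finset.sum_comm, ← sum_anti dzb dzb_anti (fun c a => algebraMap ℂ (Fb m)
        (conj (fderiv ℝ (fun y => Dr φ y (ep a) b) x (ep c)))) fun c a => by rw [hsym]]
      refine Finset.sum_congr rfl fun c _ => Finset.sum_congr rfl fun a _ => ?_
      rw [← Algebra.commutes, ← Algebra.smul_def, mul_smul_comm, smul_mul_assoc]
  induction c using indV with
  | h1 => simp only [map_one]; exact dbC_const _ _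
  | h0 => simp only [map_zero]; exact dbC_const _ _
  | hadd a b ha hb => simp only [map_add]; rw [dbC_add (hs a) (hs b), ha, hb, add_zero]
  | hsm s a ha => simp only [pbC_smul]; rw [dbC_csmul s (hs a), ha, smul_zero]
  | hmul i a ha =>
    simp only [map_mul]
    rw [dbC_mul (hs _) (hs a), ha, hth, zero_mul, mul_zero, add_zero]

/-- `∂̄` commutes with holomorphic pull-backs -/
theorem dbC_pullC (hφ : ∀ᶠ y in 𝓝 x, DifferentiableAt ℂ φ y) (h2 : ContDiffAt ℝ 2 φ x)
    (h : CD 1 om (φ x)) : dbC (pullC φ om) x = pullC φ (dbC om) x := by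
  have hs : ∀ c, CD 1 (fun y => pbC (Dr φ y) c) x := fun c => CD_pbc h2 (by norm_num) c
  have hc : ∀ J, ContDiffAt ℝ 1 (fun y => coR J (om (φ y))) x := fun J =>
    (CD_coR h J).comp x (h2.of_le (by norm_num))
  have e : pullC φ om = fun y => ∑ J, coR J (om (φ y)) • pbC (Dr φ y) (bR _ J) := by
    funext y
    show pbC (Dr φ y) (om (φ y)) = _
    conv_lhs => rw [← sum_coR (om (φ y))]
    simp only [map_sum, pbC_smul]
  have e' : om = fun y => ∑ J, coR J (om y) • bR _ J := funext fun y => (sum_coR (om y)).symm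
  have h3 : dbC om (φ x) = ∑ J, (∑ b, dbj b (fun y => coR J (om y)) (φ x) • dzb b) * bR _ J := by
    conv_lhs => rw [e']
    rw [dbC_sum _ fun J _ => CD_fsmul (CD_coR h J) (CD.const _)]
    refine Finset.sum_congr rfl fun J _ => ?_
    rw [dbC_fsmul (CD_coR h J) (CD.const _), dbC_const, smul_zero, add_zero]
  rw [e, dbC_sum _ fun J _ => CD_fsmul (hc J) (hs _)]
  show _ = pbC (Dr φ x) (dbC om (φ x))
  rw [h3, map_sum]
  refine Finset.sum_congr rfl fun J _ => ?_
  rw [dbC_fsmul (hc J) (hs _), dbC_pbc hφ h2, smul_zero, add_zero, map_mul]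
  congr 1
  have h4 : ∀ a, dbj a (fun y => coR J (om (φ y))) x = _ := fun a =>
    dbj_dbL (g := fun y => coR J (om y)) a hφ.self_of_nhds
      ((CD_coR h J).differentiableAt (by norm_num))
  simp only [h4, map_sum, pbC_smul, pbC_dzb (Dr_I hφ.self_of_nhds), Finset.smul_sum,
    Finset.sum_smul, smul_smul, smul_eq_mul]
  rw [Finset.sum_comm]
  exact Finset.sum_congr rfl fun b _ => Finset.sum_congr rfl fun a _ => by rw [mul_comm]

end nat

/-! ### the degree operator -/

/-- the degree operator -/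
def Nn (n : ℕ) : Module.End ℂ (Fb n) := ∑ i, ml i * ct i

theorem Nn_apply (c : Fb n) : Nn n c = ∑ i, th i * ct i c := by
  simp only [Nn, LinearMap.sum_apply, Module.End.mul_apply, ml_apply]

theorem Nn_one : Nn n 1 = 0 := by simp [Nn_apply, ct_one]

theorem Nn_cv (l : Cn n →ₗ[ℝ] ℂ) (c : Fb n) : Nn n (cv l * c) = cv l * c + cv l * Nn n c := by
  have h : ∀ i : Ix n, th i * (cv l * ct i c) = -(cv l * (th i * ct i c)) := fun i => by
    rw [← mul_assoc, ← mul_assoc, th_eq, cv_anti, neg_mul]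
  rw [Nn_apply, Nn_apply, Finset.mul_sum, Fintype.sum_sum_type, Fintype.sum_sum_type]
  simp only [ct_inl, ct_inr, iz_cv_mul, izb_cv_mul, mul_sub, mul_smul_comm]
  have h1 := fun a => h (.inl a)
  have h2 := fun a => h (.inr a)
  simp only [ct_inl, ct_inr, th_inl, th_inr] at h1 h2
  simp only [th_inl, th_inr, h1, h2, sub_neg_eq_add, Finset.sum_add_distrib]
  conv_rhs => rw [cv_eq_sum l, Finset.sum_mul, ← cv_eq_sum l]
  simp only [add_mul, smul_mul_assoc, Finset.sum_add_distrib]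
  abel

theorem Nn_ct (j : Ix n) (c : Fb n) : Nn n (ct j c) = ct j (Nn n c) - ct j c := by
  rw [Nn_apply, Nn_apply, map_sum]
  simp only [ct_th_mul, Finset.sum_sub_distrib, ct_comm _ j, mul_neg]
  simp [Finset.sum_ite_eq]

theorem Nn_pbC {m : ℕ} (L : Cn m →ₗ[ℝ] Cn n) (c : Fb n) : Nn m (pbC L c) = pbC L (Nn n c) := by
  induction c using indC with
  | h1 => simp [Nn_one]
  | hadd a b ha hb => simp only [map_add, ha, hb]
  | hsm s a ha => simp only [pbC_smul, map_smul, ha]
  | hmul l a ha =>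
    rw [Nn_cv, map_mul (pbC L), map_add, map_mul (pbC L), map_mul (pbC L), pbC_cv, Nn_cv, ha]

theorem Nn_iMulti (k : ℕ) (v : Fin k → Module.Dual ℝ (Cn n)) :
    Nn n (Cx.ofR (ExteriorAlgebra.ιMulti ℝ k v)) =
      (k : ℂ) • (Cx.ofR (ExteriorAlgebra.ιMulti ℝ k v) : Fb n) := by
  induction k with
  | zero => simp [Nn_one]
  | succ k ih =>
    rw [ExteriorAlgebra.ιMulti_succ_apply, map_mul, ← cv_ofReal, Nn_cv, ih, mul_smul_comm]
    push_cast
    module

theorem Nn_bR (J : Finset (Fin (Module.finrank ℝ (Module.Dual ℝ (Cn n))))) :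
    Nn n (bR (Cn n) J) = (J.card : ℂ) • bR (Cn n) J := by
  unfold bR extBasis
  rw [ExteriorAlgebra.basis_apply]
  exact Nn_iMulti _ _

end

end Crest.Agent.X262.Kah
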