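import Crest.Agent.X262.Kah.ClsH
import Crest.Agent.X262.Man.Ori
import Crest.Agent.R208.DEG2

/-!
# X262 / Kah (helper20), file ClsD: types and degrees

* `Fib.Ty.degC`, `Fib.pr_of_degC` : the fibre;
* `DgF k u`    : forms of degree `k`; `toH_mem_HD`, `mem_HD_iff`;
* `typH_le_HD` : classes of type `(p,q)` have degree `p + q`.
-/

set_option autoImplicit false
set_option linter.unusedSectionVars false

open Set Filter Topology Function
open scoped ContDiff ComplexConjugate

noncomputable section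

namespace Crest.Agent.X262.Kah

open Crest.Agent.R208.F Crest.Agent.R208.FI Crest.Agent.R208.CW Crest.Agent.R208.T
open Crest.Agent.R275.Geo (Cn RI rc Atl Part)
open Crest.Agent.X262.Man (Emb)

variable {n : ℕ} {M : Type} [TopologicalSpace M] {A : Atl n M}

namespace Fib

theorem degC_cv {E : Type*} [NormedAddCommGroup E] [NormedSpace ℝ E] [FiniteDimensional ℝ E]
    (l : E →ₗ[ℝ] ℂ) : DegC 1 (cv l) := by
  have h : ∀ l : Module.Dual ℝ E, IsDeg 1 (io l) := fun l => by
    simpa using (degC_one (E := E)).1.io_mul l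
  exact ⟨h _, h _⟩

theorem degC_mon (l : List (Ix n)) : DegC l.length (mon l) := by
  induction l with
  | nil => exact degC_one
  | cons i l ih =>
    rw [mon_cons, List.length_cons, add_comm]
    refine DegC.mul ?_ ih
    rcases i with a | a <;> exact degC_cv _

theorem Ty.degC {p q : ℕ} {x : V n} (hx : x ∈ Ty p q) : DegC (p + q) x := by
  refine Ty.ind (P := fun x => DegC (p + q) x) DegC.zero (fun _ _ h1 h2 => h1.add h2)
    (fun z _ h => h.csmul z) (fun S h1 h2 => ?_) hx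
  have := degC_mon S.toList
  rwa [← bas_apply, Finset.length_toList, ← Finset.card_toLeft_add_card_toRight,
    show S.toLeft.card = p from h1, show S.toRight.card = q from h2] at this






end Fib

/-- forms of degree `k` -/
def DgF (k : ℕ) (u : FS A) : Prop := ∀ i, ∀ z ∈ (A.e i).target, DegC k (u.1 i z)

theorem TyF.dgF {p q : ℕ} {u : FS A} (h : TyF p q u) : DgF (p + q) u :=
  fun i z hz => Fib.Ty.degC (h i z hz)

variable {E : Type} [NormedAddCommGroup E] [NormedSpace ℝ E] [FiniteDimensional ℝ E]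
  (ε : Emb A E) [CompactSpace M]

theorem exists_res0_deg {k : ℕ} {u : FS A} (hu : DgF k u) : ∃ (w : E → CF E)
    (h : ∀ x, CD ∞ w x), (∀ x, DegC k (w x)) ∧ res0 ε w (smo_of h) = u := by
  obtain ⟨a, ha, ha1, ha'⟩ := ε.exists_form_deg (w := fun i z => (u.1 i z).re)
    (fun i z hz => (u.sm hz).re) (fun i k z hz => congrArg Cx.re (u.tr' hz))
    fun i z hz => (hu i z hz).1
  obtain ⟨b, hb, hb1, hb'⟩ := ε.exists_form_deg (w := fun i z => (u.1 i z).im)
    (fun i z hz => (u.sm hz).im) (fun i k z hz => congrArg Cx.im (u.tr' hz))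
    fun i z hz => (hu i z hz).2
  refine ⟨fun x => ⟨a x, b x⟩, fun x => ⟨ha.contDiffAt, hb.contDiffAt⟩, fun x => ⟨ha1 x, hb1 x⟩,
    FS.ext' fun i z hz => ?_⟩
  rw [res0_apply ε _ hz]
  exact Cx.ext (ha' i z hz) (hb' i z hz)

theorem toH_mem_HD {k : ℕ} {u : ZF A} (hu : DgF k u.1) : toH ε u ∈ HD ε.X k := by
  obtain ⟨w, h, h1, e⟩ := exists_res0_deg ε hu
  have hw : (fun x => (1 / 2 : ℂ) • (w x + invC (w x))) ∈ Z ε.X ∧
      res0 ε (fun x => (1 / 2 : ℂ) • (w x + invC (w x)))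
        (smo_of fun x => ((h x).add (h x).invC).csmul _) = u.1 := by
    have e' : res0 ε (fun x => (1 / 2 : ℂ) • (w x + invC (w x)))
        (smo_of fun x => ((h x).add (h x).invC).csmul _) = u.1 := by
      have := res0_smul ε (1 / 2 : ℂ) ((smo_of h).add (Smo_inv (smo_of (X := ε.X) h)))
      rw [res0_add ε (smo_of h) (Smo_inv (smo_of h)), res0_inv ε (smo_of h), e, u.2.1,
        ← two_smul ℂ, smul_smul, show (1 / 2 : ℂ) * 2 = 1 by norm_num, one_smul] at this
      exact this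
    refine ⟨⟨fun x => by rw [invC_smul, map_add, invC_invC, add_comm],
      smo_of fun x => ((h x).add (h x).invC).csmul _, fun x hx => ?_⟩, e'⟩
    have h2 := res0_d ε (smo_of (X := ε.X) fun x => ((h x).add (h x).invC).csmul (1 / 2 : ℂ))
    rw [e', u.2.2, ← res0_zero ε, res0_eq_iff] at h2
    rw [h2 x hx, map_zero]
  rw [toH_eq ε hw.1 hw.2]
  refine cls_mem_HD _ fun x => ((h1 x).add ⟨fun q hq => ?_, fun q hq => ?_⟩).csmul _
  · change evA E q (inv (w x).re) = 0
    rw [evA_inv, (h1 x).1 q hq, smul_zero]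
  · change evA E q (inv (w x).im) = 0
    rw [evA_inv, (h1 x).2 q hq, smul_zero]

theorem mem_HD_iff {k : ℕ} {a : H ε.X} :
    a ∈ HD ε.X k ↔ ∃ u : ZF A, DgF k u.1 ∧ toH ε u = a := by
  refine ⟨?_, fun ⟨u, hu, e⟩ => e ▸ toH_mem_HD ε hu⟩
  rintro ⟨w, h, hd, rfl⟩
  refine ⟨_, fun i z hz => ?_, toH_res ε h⟩
  change DegC k ((res0 ε w h.2.1).1 i z)
  rw [res0_apply ε _ hz]
  exact ⟨(hd _).1.pb _, (hd _).2.pb _⟩

theorem typH_le_HD (p q : ℕ) : typH ε p q ≤ HD ε.X (p + q) := by
  rintro _ ⟨u, hu, rfl⟩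
  exact toH_mem_HD ε hu.dgF

theorem typH_le {p q k : ℕ} (h : p + q = 2 * k) : typH ε p q ≤ HD ε.X (2 * k) :=
  h ▸ typH_le_HD ε p q

end Crest.Agent.X262.Kah
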