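import Crest.Agent.X262.Kah.Hdg
import Crest.Agent.X262.Kah.BrgA
import Crest.Agent.X262.Kah.BunE
import Crest.Agent.R208.CW2

-- ▼ part X262/Kah/Cls
section

/-!
# X262 / Kah (helper20), file Cls: Hodge theory on the level of classes of even degree

* `CL G H`  : a presentation of the commutative ring `H` by the even closed elements of `G`;
* `typ p q` : classes of closed elements of type `(p,q)`;
* `typ_int`, `typ_odd`, `typ_gt`, `typ_mul`, `typ_cj`, `hl_typ`, `hl`, `hr`, `pd`, `fin`.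
-/

set_option autoImplicit false
set_option linter.unusedSectionVars false

open Complex
open scoped ComplexConjugate ComplexOrder

namespace Crest.Agent.X262.Kah

noncomputable section

/-- the ring of classes of even degree of a Kaehler package -/
structure CL {n : ℕ} {S : Type*} [Ring S] [Algebra ℂ S] (G : KP n S)
    (H : Type*) [CommRing H] [Algebra ℂ H] where
  Z : Subalgebra ℂ S
  mem_Z : ∀ u, u ∈ Z ↔ G.par u = u ∧ G.d u = 0
  cl : Z →ₐ[ℂ] H
  surj : Function.Surjective cl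
  ker : ∀ u, cl u = 0 ↔ G.Ex u.1
  om : Z
  L_eq : ∀ u, G.L u = om.1 * u
  ty_one : G.Ty 0 0 1
  ty_mul : ∀ {p q p' q' : ℕ} {u v : S}, G.Ty p q u → G.Ty p' q' v →
    G.Ty (p + p' : ℕ) (q + q' : ℕ) (u * v)

theorem hrs_even {p q : ℕ} (h : Even (p + q)) : KP.hrs p q = (-1) ^ p := by
  obtain ⟨k, hk⟩ := h
  have hk' : (q : ℤ) = 2 * k - p := by omega
  rw [KP.hrs, ← zpow_natCast, neg_one_zpow_eq]
  refine I_zpow_congr (k * (k - 1)) ?_
  rw [hk']; ring

/-- a sum of elements of an independent family -/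
theorem eq_zero_of_indep {ι M : Type*} [AddCommGroup M] [Module ℂ M] {A : ι → Submodule ℂ M}
    (h : iSupIndep A) {s : Finset ι} {x : ι → M} (hx : ∀ i ∈ s, x i ∈ A i)
    (h0 : ∑ i ∈ s, x i = 0) {i : ι} (hi : i ∈ s) : x i = 0 := by
  classical
  rw [← Finset.add_sum_erase s x hi, add_eq_zero_iff_eq_neg] at h0
  refine (Submodule.disjoint_def.1 (h i)) _ (hx i hi) ?_
  rw [h0]
  refine neg_mem (Submodule.sum_mem _ fun j hj => ?_)
  exact Submodule.mem_iSup_of_mem j (Submodule.mem_iSup_of_mem (Finset.ne_of_mem_erase hj)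
    (hx j (Finset.mem_of_mem_erase hj)))

namespace CL

variable {n : ℕ} {S : Type*} [Ring S] [Algebra ℂ S] {G : KP n S}
  {H : Type*} [CommRing H] [Algebra ℂ H] (C : CL G H)

/-- the classes of type `(p,q)` -/
def typ (p q : ℕ) : Submodule ℂ H where
  carrier := {c | ∃ u : C.Z, G.Ty p q u.1 ∧ C.cl u = c}
  add_mem' := by
    rintro _ _ ⟨u, hu, rfl⟩ ⟨v, hv, rfl⟩
    exact ⟨u + v, hu.add hv, map_add _ _ _⟩
  zero_mem' := ⟨0, GS.Ty.zero _ _, map_zero _⟩
  smul_mem' := by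
    rintro c _ ⟨u, hu, rfl⟩
    exact ⟨c • u, hu.smul c, map_smul _ _ _⟩


theorem cl_d (u : C.Z) : G.d u.1 = 0 := ((C.mem_Z _).1 u.2).2

theorem cl_par (u : C.Z) : G.par u.1 = u.1 := ((C.mem_Z _).1 u.2).1

theorem pc {p q : ℤ} {u : C.Z} (h : G.Ty p q u.1) : G.PC p q u.1 := ⟨h, C.cl_d u⟩

theorem mem_of_pc {p q : ℤ} {z : S} (h : G.PC p q z) (he : Even (p + q)) : z ∈ C.Z :=
  (C.mem_Z _).2 ⟨by rw [GS.par, h.ty.dg, he.neg_one_zpow, one_smul], h.cl⟩

theorem cl_eq_iff {u v : C.Z} : C.cl u = C.cl v ↔ G.Ex (u.1 - v.1) := by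
  rw [← sub_eq_zero, ← map_sub, C.ker]; rfl

theorem pr_odd (u : C.Z) {p q : ℤ} (h : Odd (p + q)) : G.pr p q u.1 = 0 := by
  have h1 := LinearMap.congr_fun (G.pr_dg (fun p q => (-1 : ℂ) ^ (p + q)) p q) u.1
  change G.pr p q (G.par u.1) = ((-1 : ℂ) ^ (p + q)) • G.pr p q u.1 at h1
  rw [C.cl_par, h.neg_one_zpow, neg_one_smul, eq_neg_iff_add_eq_zero, ← two_smul ℂ,
    smul_eq_zero] at h1
  exact h1.resolve_left two_ne_zero

theorem typ_odd {p q : ℕ} (h : Odd (p + q)) : C.typ p q = ⊥ := by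
  rw [eq_bot_iff]
  rintro _ ⟨u, hu, rfl⟩
  have h1 := C.pr_odd u (p := p) (q := q) (by exact_mod_cast h)
  rw [hu] at h1
  rw [Submodule.mem_bot, C.ker, h1]
  exact KA.Ex.zero

theorem typ_out {p q : ℕ} (h : n < p ∨ n < q) : C.typ p q = ⊥ := by
  rw [eq_bot_iff]
  rintro _ ⟨u, hu, rfl⟩
  rw [Submodule.mem_bot, C.ker, hu.eq_zero fun hb => by have := mem_box.1 hb; omega]
  exact KA.Ex.zero


theorem typ_mul {p q p' q' : ℕ} {a b : H} (ha : a ∈ C.typ p q) (hb : b ∈ C.typ p' q') :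
    a * b ∈ C.typ (p + p') (q + q') := by
  obtain ⟨u, hu, rfl⟩ := ha
  obtain ⟨v, hv, rfl⟩ := hb
  exact ⟨u * v, C.ty_mul hu hv, map_mul _ _ _⟩

theorem one_mem : (1 : H) ∈ C.typ 0 0 := ⟨1, C.ty_one, map_one _⟩

/-- the Kaehler class -/
def w : H := C.cl C.om

theorem w_mem : C.w ∈ C.typ 1 1 := by
  refine ⟨C.om, ?_, rfl⟩
  have := G.sh_L.ty C.ty_one
  rwa [C.L_eq, mul_one] at this

theorem w_pow_mem (j : ℕ) : C.w ^ j ∈ C.typ j j := by
  induction j with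
  | zero => simpa using C.one_mem
  | succ j ih => rw [pow_succ]; exact C.typ_mul ih C.w_mem

theorem L_pow_eq (j : ℕ) (u : S) : (G.L ^ j) u = (C.om ^ j).1 * u := by
  induction j with
  | zero => simp
  | succ j ih =>
    rw [pow_succ', Module.End.mul_apply, ih, C.L_eq, pow_succ', ← mul_assoc]; rfl

theorem w_pow_mul_eq_zero {j : ℕ} {u : C.Z} : C.w ^ j * C.cl u = 0 ↔ G.Ex ((G.L ^ j) u.1) := by
  rw [w, ← map_pow, ← map_mul, C.ker, C.L_pow_eq]; rfl

/-- every class is a sum of pure classes, of the types that occur in a representative -/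
theorem exists_dec (u : C.Z) : ∃ x : ℕ × ℕ → H, (∀ i, x i ∈ C.typ i.1 i.2) ∧
    (∀ i : ℕ × ℕ, G.pr i.1 i.2 u.1 = 0 → x i = 0) ∧
    C.cl u = ∑ i ∈ Finset.range (n + 1) ×ˢ Finset.range (n + 1), x i := by
  obtain ⟨z, z1, z2, z3⟩ := G.exists_dec (C.cl_d u)
  have hz : ∀ x, z x ∈ C.Z := fun x => by
    rcases Int.even_or_odd (x.1 + x.2) with h | h
    · exact C.mem_of_pc (z1 x) h
    · rw [z2 x (C.pr_odd u h)]; exact zero_mem _
  refine ⟨fun i => C.cl ⟨z (i.1, i.2), hz _⟩, fun i => ⟨_, (z1 (i.1, i.2)).ty, rfl⟩,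
    fun i hi => ?_, ?_⟩
  · refine (C.ker _).2 ?_
    change G.Ex (z (i.1, i.2))
    rw [z2 (i.1, i.2) hi]; exact KA.Ex.zero
  · rw [← map_sum, cl_eq_iff]
    convert z3 using 2
    rw [AddSubmonoidClass.coe_finsetSum]
    refine Finset.sum_bij (fun i _ => ((i.1 : ℤ), (i.2 : ℤ))) ?_ ?_ ?_ fun _ _ => rfl
    · intro i hi
      simp only [Finset.mem_product, Finset.mem_range] at hi
      rw [mem_box]; omega
    · intro i _ j _ e
      simp only [Prod.mk.injEq, Nat.cast_inj] at e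
      exact Prod.ext e.1 e.2
    · rintro ⟨p, q⟩ hb
      rw [mem_box] at hb
      refine ⟨(p.toNat, q.toNat), ?_, ?_⟩
      · simp only [Finset.mem_product, Finset.mem_range]; omega
      · simp only [Prod.mk.injEq]; omega

theorem iSup_typ : ⨆ i : ℕ × ℕ, C.typ i.1 i.2 = ⊤ := by
  rw [eq_top_iff]
  intro c _
  obtain ⟨u, rfl⟩ := C.surj c
  obtain ⟨x, h1, -, h2⟩ := C.exists_dec u
  rw [h2]
  exact Submodule.sum_mem _ fun i _ => Submodule.mem_iSup_of_mem i (h1 i)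

theorem indep_typ : iSupIndep fun i : ℕ × ℕ => C.typ i.1 i.2 := by
  classical
  rw [iSupIndep_iff_finsetSum_eq_zero_imp_eq_zero]
  intro s x hx h0 i hi
  have : ∀ i : ℕ × ℕ, ∃ u : C.Z, G.Ty i.1 i.2 u.1 ∧ (i ∈ s → C.cl u = x i) := fun i => by
    by_cases h : i ∈ s
    · obtain ⟨u, h1, h2⟩ := hx i h
      exact ⟨u, h1, fun _ => h2⟩
    · exact ⟨0, GS.Ty.zero _ _, fun h' => absurd h' h⟩
  choose u u1 u2 using this
  rw [← Finset.sum_congr rfl u2, ← map_sum, C.ker, AddSubmonoidClass.coe_finsetSum] at h0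
  rw [← u2 i hi, C.ker]
  have e : G.pr i.1 i.2 (∑ j ∈ s, (u j).1) = (u i).1 := by
    rw [map_sum, Finset.sum_eq_single i _ (fun h' => absurd hi h'), u1]
    intro j _ hj
    refine (u1 j).pr_ne fun e => hj ?_
    simp only [Prod.mk.injEq, Nat.cast_inj] at e
    exact Prod.ext e.1.symm e.2.symm
  rw [← e]
  exact G.ex_pr h0 (by rw [e]; exact C.cl_d _)

/-- **Hodge decomposition** -/
theorem typ_int : DirectSum.IsInternal fun i : ℕ × ℕ => C.typ i.1 i.2 :=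
  (DirectSum.isInternal_submodule_iff_iSupIndep_and_iSup_eq_top _).2 ⟨C.indep_typ, C.iSup_typ⟩

/-- **hard Lefschetz** for pure classes -/
theorem hl_typ {p q j : ℕ} (h : p + q + j = n) {a : H} (ha : a ∈ C.typ p q)
    (h0 : C.w ^ j * a = 0) : a = 0 := by
  obtain ⟨u, hu, rfl⟩ := ha
  exact (C.ker _).2 (G.hl_inj (by exact_mod_cast h) (C.pc hu) (C.w_pow_mul_eq_zero.1 h0))


section dg

variable {dg : ℕ → Submodule ℂ H} (hd : iSupIndep dg)
  (hle : ∀ p q k : ℕ, p + q = 2 * k → C.typ p q ≤ dg k)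

include hd hle

/-- a class of degree `2 k` is a sum of pure classes of degree `2 k` -/
theorem dec_dg {k : ℕ} {a : H} (ha : a ∈ dg k) : ∃ x : ℕ × ℕ → H,
    (∀ i, x i ∈ C.typ i.1 i.2) ∧ a = ∑ i ∈ Finset.HasAntidiagonal.antidiagonal (2 * k), x i := by
  classical
  obtain ⟨u, rfl⟩ := C.surj a
  obtain ⟨x, h1, -, h2⟩ := C.exists_dec u
  set s := Finset.range (n + 1) ×ˢ Finset.range (n + 1) with hs
  refine ⟨x, h1, ?_⟩
  have h3 : ∑ i ∈ Finset.HasAntidiagonal.antidiagonal (2 * k), x i =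
      ∑ i ∈ s.filter (fun i => i.1 + i.2 = 2 * k), x i := by
    refine (Finset.sum_subset (fun i hi => ?_) fun i hi hn => ?_).symm
    · exact Finset.HasAntidiagonal.mem_antidiagonal.2 (Finset.mem_filter.1 hi).2
    · have := h1 i
      rw [C.typ_out, Submodule.mem_bot] at this
      · exact this
      · by_contra hc
        refine hn (Finset.mem_filter.2 ⟨?_, Finset.HasAntidiagonal.mem_antidiagonal.1 hi⟩)
        simp only [hs, Finset.mem_product, Finset.mem_range]; omega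
  rw [h3, ← sub_eq_zero]
  refine (Submodule.disjoint_def.1 (hd k)) _ (sub_mem ha (Submodule.sum_mem _ fun i hi =>
    hle _ _ _ (Finset.mem_filter.1 hi).2 (h1 i))) ?_
  rw [h2, ← Finset.sum_filter_add_sum_filter_not s (fun i => i.1 + i.2 = 2 * k),
    add_sub_cancel_left]
  refine Submodule.sum_mem _ fun i hi => ?_
  rcases Nat.even_or_odd (i.1 + i.2) with ⟨m, hm⟩ | he
  · have hne : m ≠ k := fun e => (Finset.mem_filter.1 hi).2 (by omega)
    exact Submodule.mem_iSup_of_mem m (Submodule.mem_iSup_of_mem hne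
      (hle _ _ m (by omega) (h1 i)))
  · have := h1 i
    rw [C.typ_odd he, Submodule.mem_bot] at this
    rw [this]; exact zero_mem _

/-- **hard Lefschetz** -/
theorem hl {k j : ℕ} (h : 2 * k + j = n) {a : H} (ha : a ∈ dg k) (h0 : C.w ^ j * a = 0) :
    a = 0 := by
  classical
  obtain ⟨x, h1, rfl⟩ := C.dec_dg hd hle ha
  refine Finset.sum_eq_zero fun i hi => C.hl_typ (j := j) ?_ (h1 i) ?_
  · rw [Finset.HasAntidiagonal.mem_antidiagonal.1 hi, h]
  · have hi' : iSupIndep fun i : ℕ × ℕ => C.typ (j + i.1) (j + i.2) :=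
      C.indep_typ.comp (f := fun i : ℕ × ℕ => (j + i.1, j + i.2)) fun a b e => by
        simp only [Prod.mk.injEq, add_right_inj] at e
        exact Prod.ext e.1 e.2
    rw [Finset.mul_sum] at h0
    exact eq_zero_of_indep hi' (fun i _ => C.typ_mul (C.w_pow_mem j) (h1 i)) h0 hi

end dg

theorem cj_mem (u : C.Z) : G.cj u.1 ∈ C.Z :=
  (C.mem_Z _).2 ⟨by rw [← G.cj_par, C.cl_par], by rw [← G.cj_d, C.cl_d, map_zero]⟩

section cj

variable {cj : H → H} (hcj : ∀ u : C.Z, cj (C.cl u) = C.cl ⟨G.cj u.1, C.cj_mem u⟩)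
  {itg : H →ₗ[ℂ] ℂ} {c : ℝ} (hc : 0 < c)
  (hi : ∀ u v : C.Z, itg (C.cl (u * v)) = c * G.β u.1 v.1)


include hcj hc hi in
/-- **Hodge-Riemann** -/
theorem hr {p q j : ℕ} (h : p + q + j = n) {a : H} (ha : a ∈ C.typ p q) (hne : a ≠ 0)
    (h0 : C.w ^ (j + 1) * a = 0) : 0 < (-1) ^ p * itg (C.w ^ j * (a * cj a)) := by
  rcases Nat.even_or_odd (p + q) with he | he
  swap
  · rw [C.typ_odd he] at ha; exact absurd ha hne
  obtain ⟨u, hu, rfl⟩ := ha
  have h1 := G.hr (p := p) (q := q) (r := j) (by exact_mod_cast h) (C.pc hu)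
    (C.w_pow_mul_eq_zero.1 h0) (fun he => hne ((C.ker u).2 he))
  have h2 : G.cj ((G.L ^ j) u.1) = (C.om ^ j * ⟨G.cj u.1, C.cj_mem u⟩ : C.Z).1 := by
    have : ∀ j : ℕ, G.cj ((G.L ^ j) u.1) = (G.L ^ j) (G.cj u.1) := fun j => by
      induction j with
      | zero => rfl
      | succ j ih => rw [pow_succ', Module.End.mul_apply, Module.End.mul_apply, G.cj_L, ih]
    rw [this, C.L_pow_eq]; rfl
  rw [hcj, mul_left_comm, w, ← map_pow, ← map_mul, ← map_mul, hi, ← h2, mul_left_comm,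
    ← hrs_even he]
  exact mul_pos (by exact_mod_cast hc) h1

include hcj hc hi in
theorem hr_re {p q j : ℕ} (h : p + q + j = n) {a : H} (ha : a ∈ C.typ p q) (hne : a ≠ 0)
    (h0 : C.w ^ (j + 1) * a = 0) : 0 < ((-1) ^ p * itg (C.w ^ j * (a * cj a))).re :=
  (Complex.pos_iff.1 (C.hr hcj hc hi h ha hne h0)).1


include hc hi in
/-- **Poincaré duality** -/
theorem pd {a : H} (h : ∀ b, itg (a * b) = 0) : a = 0 := by
  obtain ⟨u, rfl⟩ := C.surj a
  by_contra hne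
  obtain ⟨b, b1, b2⟩ := G.pd (C.cl_d u) fun he => hne ((C.ker u).2 he)
  have hb : (1 / 2 : ℂ) • (b + G.par b) ∈ C.Z := (C.mem_Z _).2
    ⟨by rw [map_smul, map_add, KA.par_par, add_comm],
      by rw [map_smul, map_add, KA.d_par, b1]; simp⟩
  have h1 := h (C.cl ⟨_, hb⟩)
  rw [← map_mul, hi, mul_eq_zero] at h1
  refine b2 ?_
  have h2 := h1.resolve_left (by exact_mod_cast hc.ne')
  have h3 : G.β u.1 (G.par b) = G.β u.1 b := by rw [← G.β_par, C.cl_par]
  change G.β u.1 ((1 / 2 : ℂ) • (b + G.par b)) = 0 at h2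
  rw [map_smul, map_add, h3, smul_eq_mul] at h2
  linear_combination h2

end cj

include C in
/-- finite dimension -/
theorem fin : FiniteDimensional ℂ H := by
  obtain ⟨F, hF, h1, h2⟩ := G.exists_fin
  have hm : ∀ z : F, (1 / 2 : ℂ) • (z.1 + G.par z.1) ∈ C.Z := fun z => (C.mem_Z _).2
    ⟨by rw [map_smul, map_add, KA.par_par, add_comm],
      by rw [map_smul, map_add, KA.d_par, h1 _ z.2]; simp⟩
  let f : F →ₗ[ℂ] C.Z :=
    (((1 / 2 : ℂ) • (1 + G.par)) ∘ₗ F.subtype).codRestrict C.Z.toSubmodule hm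
  refine Module.Finite.of_surjective (C.cl.toLinearMap ∘ₗ f) fun a => ?_
  obtain ⟨u, rfl⟩ := C.surj a
  obtain ⟨z, hz, η, hη⟩ := h2 u.1 (C.cl_d u)
  refine ⟨⟨z, hz⟩, (C.cl_eq_iff.2 ⟨(1 / 2 : ℂ) • (η - G.par η), ?_⟩).symm⟩
  change _ = u.1 - (1 / 2 : ℂ) • (z + G.par z)
  rw [map_smul, map_sub, KA.d_par, hη, map_sub, C.cl_par]
  module

end CL

end

end Crest.Agent.X262.Kah
end

-- ▼ part X262/Kah/ClsH

/-!
# X262 / Kah (helper20), file ClsH: Hodge types of de Rham classes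

* `typH ε p q` : classes in `H ε.X` of closed forms of type `(p,q)`; `typH_mul`, `typH_conj`,
  `typH_map`, `typH_odd`, `typH_gt` (no Kaehler condition);
* `Cmp G ω`    : the Kaehler package `G` is the one of the forms with Kaehler form `ω`;
* `Cmp.cl`, `Cmp.typ_int`, `Cmp.hl`, `Cmp.hr`, `Cmp.pd`, `Cmp.fin`;
* `KF.w`, `KF.typ_int`, `KF.hl`, `KF.hr`, `KF.pd`, `KF.fin` : the same for a Kaehler form.
-/

set_option autoImplicit false
set_option linter.unusedSectionVars false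

open Set Filter Topology Function
open scoped ContDiff ComplexConjugate

noncomputable section

namespace Crest.Agent.X262.Kah

open Crest.Agent.R208.F Crest.Agent.R208.FI Crest.Agent.R208.CW
open Crest.Agent.R275.Geo (Cn RI rc Atl)
open Crest.Agent.R273.Map_835 (HolMap rd dm)
open Crest.Agent.X262.Man (Emb)

variable {n m : ℕ} {M N : Type} [TopologicalSpace M] [TopologicalSpace N] {A : Atl n M}
  {B : Atl m N}

namespace TyF

variable {p q p' q' : ℕ} {u v : FS A}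

theorem zero (p q : ℕ) : TyF p q (0 : FS A) := fun _ _ _ => zero_mem _
theorem add (h : TyF p q u) (h' : TyF p q v) : TyF p q (u + v) :=
  fun i z hz => add_mem (h i z hz) (h' i z hz)
theorem sub (h : TyF p q u) (h' : TyF p q v) : TyF p q (u - v) :=
  fun i z hz => sub_mem (h i z hz) (h' i z hz)
theorem smul (c : ℂ) (h : TyF p q u) : TyF p q (c • u) :=
  fun i z hz => Submodule.smul_mem _ c (h i z hz)
theorem eq_zero (h : TyF p q u) (ho : n < p ∨ n < q) : u = 0 :=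
  FS.ext' fun i z hz => Fib.Ty.eq_zero (h i z hz) ho
theorem inv (h : TyF p q u) : invF A u = (-1 : ℂ) ^ (p + q) • u :=
  FS.ext' fun i z hz => Fib.Ty.invC_eq (h i z hz)


theorem mem_ZF [CompactSpace M] (h : TyF p q u) (he : Even (p + q)) (hd : dF A u = 0) : u ∈ ZF A :=
  ⟨by rw [h.inv, he.neg_one_pow, one_smul], hd⟩

end TyF

variable {E E' : Type} [NormedAddCommGroup E] [NormedSpace ℝ E] [FiniteDimensional ℝ E]
  [NormedAddCommGroup E'] [NormedSpace ℝ E'] [FiniteDimensional ℝ E']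
  (ε : Emb A E) (ε' : Emb B E') [CompactSpace M]

/-- **classes of type `(p,q)`** -/
def typH (p q : ℕ) : Submodule ℂ (H ε.X) where
  carrier := {c | ∃ u : ZF A, TyF p q u.1 ∧ toH ε u = c}
  add_mem' := by
    rintro _ _ ⟨u, hu, rfl⟩ ⟨v, hv, rfl⟩
    exact ⟨u + v, hu.add hv, map_add _ _ _⟩
  zero_mem' := ⟨0, TyF.zero _ _, map_zero _⟩
  smul_mem' := by
    rintro c _ ⟨u, hu, rfl⟩
    exact ⟨c • u, hu.smul c, map_smul _ _ _⟩



theorem typH_mul {p q p' q' : ℕ} {a b : H ε.X} (ha : a ∈ typH ε p q) (hb : b ∈ typH ε p' q') :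
    a * b ∈ typH ε (p + p') (q + q') := by
  obtain ⟨u, hu, rfl⟩ := ha
  obtain ⟨v, hv, rfl⟩ := hb
  exact ⟨u * v, hu.mul hv, map_mul _ _ _⟩


theorem typH_odd {p q : ℕ} (h : Odd (p + q)) : typH ε p q = ⊥ := by
  rw [eq_bot_iff]
  rintro _ ⟨u, hu, rfl⟩
  have h1 := hu.inv
  rw [u.2.1, h.neg_one_pow, neg_one_smul, eq_neg_iff_add_eq_zero, ← two_smul ℂ,
    smul_eq_zero] at h1
  rw [show u = 0 from Subtype.ext (h1.resolve_left two_ne_zero), map_zero]
  exact zero_mem _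

theorem typH_out {p q : ℕ} (h : n < p ∨ n < q) : typH ε p q = ⊥ := by
  rw [eq_bot_iff]
  rintro _ ⟨u, hu, rfl⟩
  rw [show u = 0 from Subtype.ext (hu.eq_zero h), map_zero]
  exact zero_mem _

theorem typH_gt {p : ℕ} (q : ℕ) (h : n < p) : typH ε p q = ⊥ := typH_out ε (Or.inl h)

theorem conj_toH (u : ZF A) : H.conj ε.X (toH ε u) = toH ε ⟨cjF A u.1, cjF_mem u.2⟩ := by
  obtain ⟨w, h, e⟩ := H.exists_rep (toH ε u)
  rw [toH_conj ε h e.symm, ← e]
  rfl

theorem typH_conj {p q : ℕ} {a : H ε.X} (ha : a ∈ typH ε p q) : H.conj ε.X a ∈ typH ε q p := by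
  obtain ⟨u, hu, rfl⟩ := ha
  exact ⟨_, hu.cj, (conj_toH ε u).symm⟩

/-- holomorphic maps preserve the types -/
theorem typH_map [CompactSpace N] {f : M → N} (hf : HolMap A B f) {g : E → E'}
    (hg : SMap ε.X ε'.X g) (hj : ∀ y, g (ε.j y) = ε'.j (f y)) {p q : ℕ} {a : H ε'.X}
    (ha : a ∈ typH ε' p q) : H.map hg a ∈ typH ε p q := by
  obtain ⟨u, hu, rfl⟩ := ha
  obtain ⟨w, h, e⟩ := exists_Z ε' u
  rw [toH_eq ε' h e, H.map_cls]
  refine ⟨_, fun i z hz => ?_, toH_res ε (pullC_mem_Z hg h)⟩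
  obtain ⟨k, hk⟩ := exists_dm (B := B) f hz
  have := res0_pull ε ε' hf hg hj h.2.1 hk
  rw [e] at this
  refine this.symm ▸ ?_
  exact Fib.Ty.pb_mem (rd_lin hf hk) (hu k _ ((B.e k).map_source hk.2))

/-- `G` is the Kaehler package of the forms, with Kaehler form `ω` -/
structure Cmp (G : KP n (FS A)) (om : FS A) : Prop where
  d : ∀ u, G.d u = dF A u
  pr : ∀ (p q : ℤ) (u : FS A) i, ∀ z ∈ (A.e i).target, (G.pr p q u).1 i z = Fib.prZ p q (u.1 i z)
  L : ∀ u, G.L u = om * u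
  cj : ∀ u, G.cj u = cjF A u

namespace Cmp

variable {G : KP n (FS A)} {om : FS A} (h : Cmp G om)

include h

theorem ty {p q : ℕ} {u : FS A} : G.Ty p q u ↔ TyF p q u := by
  refine ⟨fun h1 i z hz => Fib.prZ_eq_self_iff.1 ?_, fun h1 => FS.ext' fun i z hz => ?_⟩
  · rw [← h.pr p q u i z hz, h1]
  · rw [h.pr p q u i z hz]; exact Fib.prZ_eq_self_iff.2 (h1 i z hz)

theorem par (u : FS A) : G.par u = invF A u := FS.ext' fun i z hz => by
  rw [invF_apply, ← Fib.par_apply, GS.par, GS.dg, LinearMap.sum_apply, LinearMap.sum_apply,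
    FS.sum_apply]
  exact Finset.sum_congr rfl fun x _ => by
    rw [LinearMap.smul_apply, LinearMap.smul_apply, FS.smul_apply, h.pr _ _ u i z hz]

theorem ex {u : FS A} : G.Ex u ↔ ∃ v, dF A v = u := exists_congr fun v => by rw [h.d]

theorem om_ty : TyF 1 1 om := by
  have := G.sh_L.ty (h.ty.2 TyF.one)
  rw [h.L, mul_one] at this
  exact h.ty.1 this

theorem om_mem : om ∈ ZF A := h.om_ty.mem_ZF (by decide) (by
  have := G.L_d 1
  rw [h.d, dF_one, map_zero, h.L, mul_one, h.d] at this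
  exact this.symm)

/-- the presentation of `H ε.X` -/
def cl : CL G (H ε.X) where
  Z := ZF A
  mem_Z u := by rw [mem_ZF, h.par, h.d]
  cl := toH ε
  surj := toH_surj ε
  ker u := by rw [toH_eq_zero_iff, h.ex]
  om := ⟨om, h.om_mem⟩
  L_eq := h.L
  ty_one := h.ty.2 TyF.one
  ty_mul hu hv := h.ty.2 ((h.ty.1 hu).mul (h.ty.1 hv))

theorem cl_typ (p q : ℕ) : (h.cl ε).typ p q = typH ε p q :=
  Submodule.ext fun _ => exists_congr fun _ => and_congr_left fun _ => h.ty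

/-- the Kaehler class -/
def w : H ε.X := toH ε ⟨om, h.om_mem⟩


theorem cl_cj (u : (h.cl ε).Z) :
    H.conj ε.X ((h.cl ε).cl u) = (h.cl ε).cl ⟨G.cj u.1, (h.cl ε).cj_mem u⟩ :=
  (conj_toH ε u).trans (congrArg (toH ε) (Subtype.ext (h.cj u.1).symm))

theorem w_mem : h.w ε ∈ typH ε 1 1 := ⟨_, h.om_ty, rfl⟩

/-- **Hodge decomposition** -/
theorem typ_int : DirectSum.IsInternal fun i : ℕ × ℕ => typH ε i.1 i.2 := by
  simpa only [h.cl_typ] using (h.cl ε).typ_int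




/-- **hard Lefschetz** -/
theorem hl {dg : ℕ → Submodule ℂ (H ε.X)} (hd : iSupIndep dg)
    (hle : ∀ p q k : ℕ, p + q = 2 * k → typH ε p q ≤ dg k) {k j : ℕ} (hj : 2 * k + j = n)
    {a : H ε.X} (ha : a ∈ dg k) (h0 : h.w ε ^ j * a = 0) : a = 0 :=
  (h.cl ε).hl hd (by simpa only [h.cl_typ] using hle) hj ha h0

theorem fin : FiniteDimensional ℂ (H ε.X) := (h.cl ε).fin

variable {itg : H ε.X →ₗ[ℂ] ℂ} {c : ℝ} (hc : 0 < c)
  (hi : ∀ u v : ZF A, itg (toH ε (u * v)) = c * G.β u.1 v.1)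

include hc hi in
/-- **Hodge-Riemann** -/
theorem hr {p q j : ℕ} (hj : p + q + j = n) {a : H ε.X} (ha : a ∈ typH ε p q) (hne : a ≠ 0)
    (h0 : h.w ε ^ (j + 1) * a = 0) :
    0 < ((-1) ^ p * itg (h.w ε ^ j * (a * H.conj ε.X a))).re :=
  (h.cl ε).hr_re (h.cl_cj ε) hc hi hj (by rwa [h.cl_typ]) hne h0

include hc hi in
/-- **Poincaré duality** -/
theorem pd {a : H ε.X} (h0 : ∀ b, itg (a * b) = 0) : a = 0 := (h.cl ε).pd hc hi h0


end Cmp

namespace KF

open Crest.Agent.R275.Geo (Part)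

variable (K : KF A)

theorem om_mem : K.om ∈ ZF A := ⟨K.invF_om, K.closed⟩

/-- the Kaehler class -/
def w : H ε.X := toH ε ⟨K.om, K.om_mem⟩

theorem w_mem : K.w ε ∈ typH ε 1 1 :=
  ⟨_, fun i z hz => by
    change K.om.1 i z ∈ _
    rw [K.eq i z hz]; exact Fib.om_mem _, rfl⟩


variable [T2Space M] [Finite A.ι] (P : Part A)

theorem cmp : Cmp (K.kp P) K.om := ⟨K.kp_d P, fun _ _ _ _ _ _ => rfl, K.kp_L P, K.kp_cj P⟩

/-- the presentation of `H ε.X` -/
def cl : CL (K.kp P) (H ε.X) := (K.cmp P).cl ε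

include K P

/-- **Hodge decomposition** -/
theorem typ_int : DirectSum.IsInternal fun i : ℕ × ℕ => typH ε i.1 i.2 := (K.cmp P).typ_int ε

theorem fin : FiniteDimensional ℂ (H ε.X) := (K.cmp P).fin ε



/-- **hard Lefschetz** -/
theorem hl {dg : ℕ → Submodule ℂ (H ε.X)} (hd : iSupIndep dg)
    (hle : ∀ p q k : ℕ, p + q = 2 * k → typH ε p q ≤ dg k) {k j : ℕ} (hj : 2 * k + j = n)
    {a : H ε.X} (ha : a ∈ dg k) (h0 : K.w ε ^ j * a = 0) : a = 0 :=
  (K.cmp P).hl ε hd hle hj ha h0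

variable {itg : H ε.X →ₗ[ℂ] ℂ} {c : ℝ} (hc : 0 < c)
  (hi : ∀ u : ZF A, itg (toH ε u) = c * IntF P (tpT n) u.1)

include hc hi in
/-- **Hodge-Riemann** -/
theorem hr {p q j : ℕ} (hj : p + q + j = n) {a : H ε.X} (ha : a ∈ typH ε p q) (hne : a ≠ 0)
    (h0 : K.w ε ^ (j + 1) * a = 0) :
    0 < ((-1) ^ p * itg (K.w ε ^ j * (a * H.conj ε.X a))).re :=
  (K.cmp P).hr ε hc (fun u v => hi (u * v)) hj ha hne h0

include hc hi in
/-- **Poincaré duality** -/
theorem pd {a : H ε.X} (h0 : ∀ b, itg (a * b) = 0) : a = 0 :=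
  (K.cmp P).pd ε hc (fun u v => hi (u * v)) h0


end KF

end Crest.Agent.X262.Kah
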